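import Vale.Agent.P073.H333.PD3

/-!
# P073, block A15-PRE: [PD3] weighted lengths of the edges
-/

namespace Vale.Agent.P073.H333

open MeasureTheory Set Filter Topology Metric Vale.Agent.P073.St Vale.Agent.P073.AB
open Vale.Agent.P073.SQ (ev)
open _root_.P073 (ConHomeo)
open _root_.P073.Net (dyc dyo IsTile SizeFn len)
open Vale.Agent.P073.H73 (MinEdge Bix ctr WLe segP onSeg)
open Vale.Agent.P073.H194 (refine Big wH zo so co MeshOut bInt Oc cellT)
open Vale.Agent.P073.H471 (wgt)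
open Vale.Agent.P073.H83 (CellsG gB grho)
open scoped ENNReal

theorem boxB_sub_dyo (v : V) (n k : ℕ) (z : Fin 3 → ℤ) : boxB v n k z ⊆ dyo v n z := by
  intro x hx i
  have h1 := hx i
  have h2 : (0:ℝ) < 1 / 2 ^ (n + k) := by positivity
  constructor <;> linarith [h1.1, h1.2]

theorem boxR_sub_int (v : V) (n k : ℕ) (z : Fin 3 → ℤ) :
    boxR v n k z ⊆ interior (boxB v n k z) := by
  intro x hx
  have h2 : (0:ℝ) < 1 / 2 ^ (n + k) := by positivity
  rw [mem_interior]
  refine ⟨{y | ∀ i, v i + z i / 2 ^ n + 1 / 2 ^ (n + k) < y i ∧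
    y i < v i + (z i + 1) / 2 ^ n - 1 / 2 ^ (n + k)}, fun y hy i => ⟨(hy i).1.le, (hy i).2.le⟩,
    ?_, fun i => ?_⟩
  · simp only [Set.ofPred_forall]
    refine isOpen_iInter_of_finite fun i => ?_
    exact (isOpen_lt continuous_const (continuous_apply i)).inter
      (isOpen_lt (continuous_apply i) continuous_const)
  · have h1 := hx i
    have e1 : (2 / 2 ^ (n + k) : ℝ) = 1 / 2 ^ (n + k) + 1 / 2 ^ (n + k) := by ring
    rw [e1] at h1
    constructor <;> linarith [h1.1, h1.2]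

namespace PD

variable {p ε δ : ℝ} {Φ : ℕ → Finset (Fin 3 → ℤ) → ((Fin 3 → ℤ) → V → V) → ℝ}
  {Ω Λ : Set V} {f : V → V} {F : V → Mat} (D : PD p ε δ Φ Ω Λ f F)

theorem two_le : 2 / D.a₁ ≤ D.W₃ := by
  have h := D.a0
  have h1 : 0 < 2 / D.a₁ := by positivity
  unfold PD0.W₃
  linarith

theorem W₃_pos : 0 < D.W₃ := by
  have h := D.a0
  have h1 : 0 < 2 / D.a₁ := by positivity
  exact h1.trans_le D.two_le

/-- `fs` on a divided cube -/
theorem fs_div {q : Idx} (hq : q ∈ D.Ib \ D.P) :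
    ((∀ z ∈ D.J, Disjoint (dyc D.v q.1 q.2) (dyo D.v D.n z)) ∧
      ∀ x ∈ dyc D.v q.1 q.2, D.fs x = f x) ∨
    ∃ z ∈ D.J, dyc D.v q.1 q.2 ⊆ boxR D.v D.n D.k₁ z ∧ ∀ x ∈ dyc D.v q.1 q.2, D.fs x = D.A z x := by
  rw [D.diff_eq] at hq
  rcases hq with hq | ⟨-, z, hz, hq⟩
  · left
    refine ⟨fun z hz => D.fine.out_disj hq hz, fun x hx => H194.fs_out fun z hz hxz => ?_⟩
    exact Set.disjoint_left.1 (D.fine.out_disj hq hz) hx (boxR_sub_dyo _ _ _ _ hxz)
  · right
    exact ⟨z, hz, hq, fun x hx => H194.fs_in hz (hq hx)⟩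

/-- the weight at the points of divided squares in the kept zone -/
theorem wg_fs_le {q : Idx} (hq : q ∈ D.Ib \ D.P) {x : V} (hxq : x ∈ dyc D.v q.1 q.2)
    {z : Fin 3 → ℤ} (hz : z ∈ D.J) (hx : x ∈ dyc D.v D.n z)
    (hx' : x ∉ interior (boxR D.v D.n D.k₁ z)) :
    D.wg (D.fs x) ≤ ENNReal.ofReal (1 + 4 * (2 / D.a₁)) := by
  rcases D.fs_div hq with ⟨-, h⟩ | ⟨z', hz', h1, h2⟩
  · rw [h x hxq]
    exact D.wg_le hz hx hx' ((D.H.close z hz x hx).trans D.κ_le)
  · have h3 : z = z' := by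
      by_contra hne
      exact Set.disjoint_left.1 (H669.dyo_dyc_disj hne) hx (boxR_sub_dyo _ _ _ _ (h1 hxq))
    subst h3
    rw [h2 x hxq]
    refine D.wg_le hz hx hx' ?_
    rw [sub_self, norm_zero]
    have := D.C0
    positivity

theorem wst_le {e : Idx × Fin 3} {x : V} (hx : x ∈ edge D.v e) :
    ENNReal.ofReal (D.wst e) ≤ 2178 * D.wg (D.fs x) := by
  refine ENNReal.ofReal_toReal_le.trans ?_
  gcongr
  exact iInf₂_le x hx

theorem edge_nonempty (v : V) (e : Idx × Fin 3) : (edge v e).Nonempty :=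
  ⟨_, left_mem_segment ℝ _ _⟩

/-- the weight of a kept edge -/
theorem We_kept {e : Idx × Fin 3} {z : Fin 3 → ℤ} (hz : z ∈ D.J)
    (h1 : edge D.v e ⊆ dyc D.v D.n z)
    (h2 : Disjoint (edge D.v e) (interior (boxR D.v D.n D.k₁ z))) : D.We e ≤ D.W₃ := by
  unfold We
  split_ifs with hd
  · obtain ⟨s, -, hes, q, hq, hsq⟩ := hd
    obtain ⟨x, hx⟩ := edge_nonempty D.v e
    have h3 := D.wg_fs_le hq (hsq (hes hx)) hz (h1 hx) (Set.disjoint_left.1 h2 hx)
    have h4 := (D.wst_le hx).trans (mul_le_mul_right h3 2178)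
    rw [show (2178:ℝ≥0∞) = ENNReal.ofReal 2178 by simp, ← ENNReal.ofReal_mul (by norm_num)] at h4
    exact (ENNReal.ofReal_le_ofReal_iff D.W₃_pos.le).1 h4
  · exact D.two_le

/-- **kept edges** -/
theorem ell_kept {e : Idx × Fin 3} (he : MinEdge D.v D.I e)
    (h : ∃ z ∈ D.J, edge D.v e ⊆ dyc D.v D.n z ∧
      Disjoint (edge D.v e) (interior (boxR D.v D.n D.k₁ z))) :
    D.ell e ≤ eInt D.v e D.gk := by
  obtain ⟨z, hz, h1, h2⟩ := h
  have h3 := D.We_kept hz h1 h2
  have h4 := D.len_all he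
  have hW := D.W₃_pos
  calc D.ell e ≤ ENNReal.ofReal D.W₃ * (2 * eInt D.v e (fun x =>
        (Ω.indicator (fun x => ‖cl (F x)‖ₑ) x) + ENNReal.ofReal (D.M + D.C + 1))) := by
        unfold ell
        gcongr
    _ = eInt D.v e (fun x => ENNReal.ofReal (2 * D.W₃) *
        ((Ω.indicator (fun x => ‖cl (F x)‖ₑ) x) + ENNReal.ofReal (D.M + D.C + 1))) := by
        rw [eInt_const_mul _ _ ENNReal.ofReal_ne_top, ← mul_assoc]
        congr 1
        rw [ENNReal.ofReal_mul (by norm_num), mul_comm]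
        simp
    _ = _ := D.eInt_rep e (fun _ a => ENNReal.ofReal (2 * D.W₃) *
        (a + ENNReal.ofReal (D.M + D.C + 1)))

/-- the energy density of the kept edges -/
theorem own_gk {z : Fin 3 → ℤ} (hz : z ∈ D.J) {e : Idx × Fin 3}
    (he : e.1.1 = D.n + D.k₁ + D.k₀) (hs : edge D.v e ⊆ dyc D.v D.n z) :
    eInt D.v e (fun x => D.gk x ^ p) ≤
      D.Kk p * ENNReal.ofReal (1 / 2 ^ (D.n + D.k₁ + D.k₀)) := by
  have hp1 : 1 ≤ p := by linarith [D.hp]
  have hp0 : 0 < p := by linarith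
  have h1 := D.own z hz e he hs
  have hC := D.C0
  have hM := D.M0
  calc eInt D.v e (fun x => D.gk x ^ p)
      ≤ eInt D.v e (fun x => ENNReal.ofReal (2 * D.W₃) ^ p * (2 ^ (p - 1) *
          (D.G x + ENNReal.ofReal (D.M + D.C + 1) ^ p))) := by
        refine eInt_mono_on fun x _ => ?_
        unfold gk
        rw [ENNReal.mul_rpow_of_nonneg _ _ hp0.le]
        gcongr
        refine (ENNReal.rpow_add_le_mul_rpow_add_rpow _ _ hp1).trans ?_
        gcongr
        rw [← ENNReal.rpow_mul, one_div, inv_mul_cancel₀ hp0.ne', ENNReal.rpow_one]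
    _ = ENNReal.ofReal (2 * D.W₃) ^ p * (2 ^ (p - 1) *
          (eInt D.v e D.G + ENNReal.ofReal (1 / 2 ^ e.1.1) *
            ENNReal.ofReal (D.M + D.C + 1) ^ p)) := by
        rw [eInt_const_mul _ _ (ENNReal.rpow_ne_top_of_nonneg hp0.le ENNReal.ofReal_ne_top),
          eInt_const_mul _ _ (ENNReal.rpow_ne_top_of_nonneg (by linarith) (by norm_num)),
          eInt_add_cst]
    _ ≤ ENNReal.ofReal (2 * D.W₃) ^ p * (2 ^ (p - 1) *
          (ENNReal.ofReal ((D.M ^ p + 1) / 2 ^ (D.n + D.k₁ + D.k₀)) +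
            ENNReal.ofReal (1 / 2 ^ e.1.1) * ENNReal.ofReal (D.M + D.C + 1) ^ p)) := by gcongr
    _ = _ := by
        have e1 : ENNReal.ofReal ((D.M ^ p + 1) / 2 ^ (D.n + D.k₁ + D.k₀)) =
            ENNReal.ofReal (D.M ^ p + 1) * ENNReal.ofReal (1 / 2 ^ (D.n + D.k₁ + D.k₀)) := by
          rw [← ENNReal.ofReal_mul (by positivity)]
          congr 1
          ring
        rw [he, e1]
        unfold PD0.Kk
        generalize ENNReal.ofReal (1 / 2 ^ (D.n + D.k₁ + D.k₀)) = a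
        generalize ENNReal.ofReal (2 * D.W₃) ^ p = b
        generalize (2:ℝ≥0∞) ^ (p - 1) = c
        ring

/-- **divided edges** -/
theorem ell_div {e : Idx × Fin 3} (he : MinEdge D.v D.I e) (hd : D.Div e)
    (hO : ∀ x ∈ edge D.v e, x ∈ Oc D.Bx D.A) : D.ell e ≤ eInt D.v e D.gD := by
  have hp0 : 0 < p := by linarith [D.hp]
  have hsub := D.edge_sub he
  have hW : D.We e = D.wst e := by unfold We; rw [if_pos hd]
  obtain ⟨⟨r, hr, her⟩, -⟩ := id he
  unfold ell
  rw [hW]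
  -- E2
  have E2 : ∀ z ∈ D.J, edge D.v e ⊆ boxR D.v D.n D.k₁ z →
      ENNReal.ofReal (D.wst e) * len (onSeg D.h.toFun (segP D.v e)) (Icc 0 1) ≤
        eInt D.v e D.gD := by
    intro z hz h1
    calc ENNReal.ofReal (D.wst e) * len (onSeg D.h.toFun (segP D.v e)) (Icc 0 1)
        ≤ ENNReal.ofReal (D.wst e) * (2 * eInt D.v e (fun _ => ‖D.L z‖ₑ)) := by
          gcongr
          exact D.len_box hsub hz h1
      _ = eInt D.v e (fun _ => (ENNReal.ofReal (D.wst e) * 2) * ‖D.L z‖ₑ) := by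
          rw [eInt_const_mul _ _ (ENNReal.mul_ne_top ENNReal.ofReal_ne_top (by norm_num))]
          ring
      _ ≤ _ := by
          refine eInt_mono_on fun x hx => ?_
          unfold gD
          have h2 : D.Gs p x ^ (1 / p) = ‖D.L z‖ₑ := by
            unfold PD0.Gs
            rw [H194.Gs_in hz (h1 hx), indicator_of_mem (hO x hx), ← ENNReal.rpow_mul,
              mul_one_div, div_self hp0.ne', ENNReal.rpow_one]
          rw [h2]
          refine le_trans ?_ le_self_add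
          calc ENNReal.ofReal (D.wst e) * 2 * ‖D.L z‖ₑ
              ≤ 2178 * D.wg (D.fs x) * 2 * ‖D.L z‖ₑ := by
                gcongr
                exact D.wst_le hx
            _ = _ := by ring
  rcases D.ref.edge_inet hr her with ⟨h1, h2⟩ | ⟨z, hz, h1⟩ | ⟨h1, z, hz, h2, -⟩
  · -- E1
    have hout : ∀ x ∈ edge D.v e, ∀ z ∈ D.J, x ∉ boxR D.v D.n D.k₁ z := fun x hx z hz hxz =>
      Set.disjoint_left.1 (h2 z hz) hx (boxR_sub_int _ _ _ _ hxz)
    have hwst : 0 ≤ D.wst e := ENNReal.toReal_nonneg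
    calc ENNReal.ofReal (D.wst e) * len (onSeg D.h.toFun (segP D.v e)) (Icc 0 1)
        ≤ ENNReal.ofReal (D.wst e) * (2 * (eInt D.v e (Ω.indicator fun x => ‖cl (F x)‖ₑ) +
            ENNReal.ofReal (D.δe e))) := by
          gcongr
          exact D.len_net hsub h1 h2
      _ = eInt D.v e (fun x => (ENNReal.ofReal (D.wst e) * 2) *
            (Ω.indicator (fun x => ‖cl (F x)‖ₑ) x)) +
            ENNReal.ofReal (D.wst e * (2 * D.δe e)) := by
          rw [eInt_const_mul _ _ (ENNReal.mul_ne_top ENNReal.ofReal_ne_top (by norm_num)),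
            ENNReal.ofReal_mul hwst, ENNReal.ofReal_mul (by norm_num : (0:ℝ) ≤ 2)]
          rw [show ENNReal.ofReal 2 = 2 by simp]
          ring
      _ ≤ eInt D.v e (fun x => (ENNReal.ofReal (D.wst e) * 2) *
            (Ω.indicator (fun x => ‖cl (F x)‖ₑ) x)) +
            ENNReal.ofReal (1 / 2 ^ e.1.1) * ENNReal.ofReal D.β := by
          gcongr
          rw [← ENNReal.ofReal_mul (by positivity)]
          apply ENNReal.ofReal_le_ofReal
          refine (D.δ2 e).trans (le_of_eq ?_)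
          ring
      _ = eInt D.v e (fun x => (ENNReal.ofReal (D.wst e) * 2) *
            (Ω.indicator (fun x => ‖cl (F x)‖ₑ) x) + ENNReal.ofReal D.β) := by
          rw [eInt_add_cst]
      _ ≤ eInt D.v e (fun x => 4356 * (D.wg (D.fs x) *
            (Ω.indicator (fun x => ‖cl (F x)‖ₑ) x)) + ENNReal.ofReal D.β) := by
          refine eInt_mono_on fun x hx => ?_
          gcongr ?_ + _
          calc ENNReal.ofReal (D.wst e) * 2 * (Ω.indicator (fun x => ‖cl (F x)‖ₑ) x)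
              ≤ 2178 * D.wg (D.fs x) * 2 * (Ω.indicator (fun x => ‖cl (F x)‖ₑ) x) := by
                gcongr
                exact D.wst_le hx
            _ = _ := by ring
      _ = eInt D.v e (fun x => 4356 * (D.wg (D.fs x) * (D.G x ^ (1 / p))) +
            ENNReal.ofReal D.β) :=
          D.eInt_rep e (fun x a => 4356 * (D.wg (D.fs x) * a) + ENNReal.ofReal D.β)
      _ ≤ _ := by
          refine eInt_mono_on fun x hx => ?_
          unfold gD
          have h3 : D.Gs p x = D.G x := by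
            unfold PD0.Gs
            exact H194.Gs_out (hout x hx)
          rw [h3]
  · exact E2 z hz h1
  · -- E3
    obtain ⟨s, -, hes, q, hq, hsq⟩ := hd
    rcases D.fs_div hq with ⟨h3, -⟩ | ⟨z', hz', h3, -⟩
    · exfalso
      obtain ⟨x, hx⟩ := edge_nonempty D.v e
      exact Set.disjoint_left.1 (h3 z hz) (hsq (hes hx)) (boxB_sub_dyo _ _ _ _ (h2 hx))
    · exact E2 z' hz' fun x hx => h3 (hsq (hes hx))

end PD

end Vale.Agent.P073.H333
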