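import Vale.Agent.P073.BV567.Gauge

/-!
# P073, block A04-NETIN: definitions (exponent above two, `C⁰`-close good cells)

* `SpecCellE`: the statement about ONE good cell which is used here (helpers 16, 407, 244, 399);
* `GoodCell`: a good cell for the Sobolev homeomorphism `f`;
* `NetRes`: the conical homeomorphism which is fed to the machines [K2], [K3];
* `NetIn`: it exists.

The good cells have their own generations and their own constants; the family of the good cells is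
only locally finite.
-/

namespace Vale.Agent.P073.H333

open MeasureTheory Set Filter Topology Metric Vale.Agent.P073.St Vale.Agent.P073.AB
open Vale.Agent.P073.SQ (ev)
open _root_.P073.Net (dyc dyo)
open _root_.P073.Gauge (CellHyp CellOut)
open _root_.P073 (ConHomeo)
open scoped ENNReal

/-- **(CELL-E)** one good cell, `h` is `C⁰`-close to the affine map on the whole closed cell.
`C` depends on `p θ M` only. -/
def SpecCellE : Prop :=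
  ∀ (p θ M : ℝ), 1 ≤ p → 0 < θ → 0 < M → ∃ C > 0, ∀ k₁ : ℕ, 3 ≤ k₁ → ∃ k₀ : ℕ, ∃ κ > 0,
    ∀ (Ω Λ : Set V) (v : V) (I : Set Idx) (n₂ : ℕ) (z : Fin 3 → ℤ) (A : V → V)
      (L : V →L[ℝ] V) (h : ConHomeo Ω Λ), IsOpen Ω → IsOpen Λ → Part Ω v I →
      CellHyp p θ M κ k₁ k₀ n₂ Λ v I z A L h.toFun →
      (∀ x ∈ dyc v n₂ z, ‖h.toFun x - A x‖ ≤ κ / 2 ^ (n₂ + k₁ + k₀)) →
      ∃ h' : ConHomeo Ω Λ, CellOut p C k₁ n₂ v z A h'.toFun ∧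
        (∀ x ∈ boxB v n₂ k₁ z, ‖h'.toFun x - A x‖ ≤ C / 2 ^ (n₂ + k₁)) ∧
        (∀ x ∈ dyc v n₂ z, x ∉ interior (boxB v n₂ k₁ z) →
          ‖h'.toFun x - A x‖ ≤ C / 2 ^ (n₂ + k₁ + k₀)) ∧
        (∀ x ∈ Ω, x ∉ interior (dyc v n₂ z) → h'.toFun x = h.toFun x) ∧
        ∀ e : Idx × Fin 3, (∃ q ∈ I, EdgeOf e q) → ∀ x ∈ edge v e,
          x ∉ interior (boxB v n₂ k₁ z) → h'.toFun x = h.toFun x

/-- a good cell `q` for `f`: fine generation `q.1 + k₁ + k₀` -/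
structure GoodCell (θ M κ : ℝ) (k₁ k₀ : ℕ) (v : V) (I : Set Idx) (f : V → V) (F : V → Mat)
    (q : Idx) (A : V → V) (L : V →L[ℝ] V) : Prop where
  aff : ∀ x y, A y - A x = L (y - x)
  below : ∀ w, θ * ‖w‖ ≤ ‖L w‖
  above : ∀ w, ‖L w‖ ≤ M * ‖w‖
  fine : ∀ z', (dyc v (q.1 + k₁ + k₀) z' ∩ dyc v q.1 q.2).Nonempty →
    ((q.1 + k₁ + k₀, z') : Idx) ∈ I
  close : ∀ x ∈ dyc v q.1 q.2, ‖f x - A x‖ ≤ κ / 2 ^ (q.1 + k₁ + k₀)
  own : ∀ e : Idx × Fin 3, e.1.1 = q.1 + k₁ + k₀ → edge v e ⊆ dyc v q.1 q.2 →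
    eInt v e (fun x => ENNReal.ofReal ‖cl (F x) (ev e.2) - L (ev e.2)‖) ≤
      ENNReal.ofReal (κ / 2 ^ (q.1 + k₁ + k₀))

/-- the result: the conical homeomorphism which is fed to the machines -/
structure NetRes (v : V) (I J : Set Idx) (C : Idx → ℝ) (k₁ k₀ : Idx → ℕ) (A : Idx → V → V)
    (f : V → V) (F : V → Mat) (Ω : Set V) (σ : V → ℝ) (δ : Idx × Fin 3 → ℝ) (h : V → V) :
    Prop where
  /-- outside of the good cells, all points -/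
  off : ∀ x ∈ Ω, (∀ q ∈ J, x ∉ interior (dyc v q.1 q.2)) → ‖h x - f x‖ ≤ σ x
  /-- in the fine layer of a good cell, all points -/
  layer : ∀ q ∈ J, ∀ x ∈ dyc v q.1 q.2, x ∉ interior (boxB v q.1 (k₁ q) q.2) →
    ‖h x - A q x‖ ≤ C q / 2 ^ (q.1 + k₁ q + k₀ q)
  /-- in the box `B`, all points -/
  inn : ∀ q ∈ J, ∀ x ∈ boxB v q.1 (k₁ q) q.2, ‖h x - A q x‖ ≤ C q / 2 ^ (q.1 + k₁ q)
  /-- in the protected box -/
  box : ∀ q ∈ J, ∀ x ∈ boxR v q.1 (k₁ q) q.2, h x = A q x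
  /-- the edges of `I` outside of the boxes `B`: closeness and `W^{1,1}`-closeness -/
  edges : ∀ e : Idx × Fin 3, (∃ q ∈ I, EdgeOf e q) →
    (∀ q ∈ J, Disjoint (edge v e) (interior (boxB v q.1 (k₁ q) q.2))) →
    (∀ x ∈ edge v e, ‖h x - f x‖ ≤ δ e) ∧
    eInt v e (fun x => ENNReal.ofReal ‖lineDeriv ℝ h x (ev e.2) - cl (F x) (ev e.2)‖) ≤
      ENNReal.ofReal (δ e)
  /-- the edges of generation `q.1 + k₁ q` in the box `B`: length -/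
  gap : ∀ q ∈ J, ∀ e : Idx × Fin 3, e.1.1 = q.1 + k₁ q → edge v e ⊆ boxB v q.1 (k₁ q) q.2 →
    eInt v e (fun x => ENNReal.ofReal ‖lineDeriv ℝ h x (ev e.2)‖) ≤
      ENNReal.ofReal (C q / 2 ^ (q.1 + k₁ q))

/-- **(NETIN)** The constants: `C θ M`; `K₀ θ M k₁` and `κ θ M k₁`. -/
def NetIn : Prop :=
  ∃ (C : ℝ → ℝ → ℝ) (K₀ : ℝ → ℝ → ℕ → ℕ) (κ : ℝ → ℝ → ℕ → ℝ),
    (∀ θ M, 0 < C θ M) ∧ (∀ θ M k₁, 0 < κ θ M k₁) ∧
    ∀ (Ω Λ : Set V) (f : V → V) (F : V → Mat) (v : V) (I J : Set Idx) (θ M : Idx → ℝ)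
      (k₁ : Idx → ℕ) (A : Idx → V → V) (L : Idx → V →L[ℝ] V) (σ : V → ℝ) (δ : Idx × Fin 3 → ℝ),
      IsBoundedDomain Ω → IsBoundedDomain Λ → IsHomeo Ω Λ f → Part Ω v I → RatGood v Ω f F →
      (∀ e : Idx × Fin 3, (∃ q ∈ I, EdgeOf e q) →
        eInt v e (fun x => ENNReal.ofReal ‖cl (F x) (ev e.2)‖) ≠ ⊤) →
      (∀ q ∈ J, 0 < θ q ∧ 0 < M q ∧ 3 ≤ k₁ q) →
      (∀ q ∈ J, ∀ q' ∈ J, q ≠ q' → Disjoint (dyo v q.1 q.2) (dyo v q'.1 q'.2)) →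
      (∀ q ∈ J, GoodCell (θ q) (M q) (κ (θ q) (M q) (k₁ q)) (k₁ q) (K₀ (θ q) (M q) (k₁ q)) v I f F
        q (A q) (L q)) →
      ContinuousOn σ Ω → (∀ x ∈ Ω, 0 < σ x) → (∀ e, 0 < δ e) →
      ∃ h : ConHomeo Ω Λ, NetRes v I J (fun q => C (θ q) (M q)) k₁
        (fun q => K₀ (θ q) (M q) (k₁ q)) A f F Ω σ δ h.toFun

end Vale.Agent.P073.H333
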