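import Vale.Agent.P073.H333.Ctr
import Vale.Agent.P073.H194.Hold

/-!
# P073, block A15-PRE: weighted lengths of the edges
-/

namespace Vale.Agent.P073.H333

open MeasureTheory Set Filter Topology Metric Vale.Agent.P073.St Vale.Agent.P073.AB
open Vale.Agent.P073.SQ (ev)
open _root_.P073 (ConHomeo)
open _root_.P073.Net (dyc dyo IsTile SizeFn len)
open Vale.Agent.P073.H73 (MinEdge Bix ctr WLe segP onSeg)
open scoped ENNReal

variable {Λ : Set V} {ρ : V → ℝ} {c : ℕ → (Fin 3 → ℤ) → V}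

/-- the weight of the edge `e`, for the map `g` -/
noncomputable def We (ρ : V → ℝ) (c : ℕ → (Fin 3 → ℤ) → V) (g : V → V) (v : V)
    (e : Idx × Fin 3) : ℝ := (66 * ⨅ x ∈ edge v e, tw ρ c (g x)).toReal

theorem We_nonneg (g : V → V) (v : V) (e : Idx × Fin 3) : 0 ≤ We ρ c g v e :=
  ENNReal.toReal_nonneg

theorem We_le (g : V → V) (v : V) (e : Idx × Fin 3) {x : V} (hx : x ∈ edge v e) :
    ENNReal.ofReal (We ρ c g v e) ≤ 66 * tw ρ c (g x) := by
  refine ENNReal.ofReal_toReal_le.trans ?_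
  gcongr
  exact iInf₂_le x hx

theorem We_wle {g h : V → V} {v : V} {e : Idx × Fin 3}
    (hcmp : ∀ x ∈ edge v e, ∀ y ∈ edge v e, tw ρ c (h y) ≤ 33 * tw ρ c (g x))
    (hfin : ∃ x ∈ edge v e, tw ρ c (g x) ≠ ⊤) : WLe 0 ρ c h (segP v e) (We ρ c g v e) := by
  obtain ⟨x₀, hx₀, hx₀'⟩ := hfin
  set m : ℝ≥0∞ := ⨅ x ∈ edge v e, tw ρ c (g x) with hm
  have hm1 : 1 ≤ m := le_iInf₂ fun x _ => one_le_tw _
  have hmt : m ≠ ⊤ := ne_top_of_le_ne_top hx₀' (iInf₂_le x₀ hx₀)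
  have h33 : (33 : ℝ≥0∞) * m ≠ ⊤ := ENNReal.mul_ne_top (by norm_num) hmt
  have e1 : We ρ c g v e = 2 * (33 * m).toReal := by
    unfold We
    rw [← hm, ENNReal.toReal_mul, ENNReal.toReal_mul]
    norm_num
    ring
  rw [e1]
  refine wle_of ?_ fun y hy => ?_
  · have h1 : (1:ℝ≥0∞) ≤ 33 * m := by
      calc (1:ℝ≥0∞) = 1 * 1 := (one_mul 1).symm
        _ ≤ 33 * m := mul_le_mul' (by norm_num) hm1
    have h2 := ENNReal.toReal_mono h33 h1
    simpa using h2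
  · rw [ENNReal.ofReal_toReal h33, hm, ENNReal.mul_iInf_of_ne (by norm_num) (by norm_num)]
    refine le_iInf fun x => ?_
    by_cases hx : x ∈ edge v e
    · rw [iInf_pos hx]
      exact hcmp x hx y hy
    · rw [iInf_neg hx]
      simp

theorem eInt_const_mul (v : V) (e : Idx × Fin 3) {a : ℝ≥0∞} (ha : a ≠ ⊤) (G : V → ℝ≥0∞) :
    eInt v e (fun x => a * G x) = a * eInt v e G := by
  unfold eInt
  rw [lintegral_const_mul' _ _ ha]
  ring

theorem eInt_mono_on {v : V} {e : Idx × Fin 3} {H K : V → ℝ≥0∞}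
    (h : ∀ x ∈ edge v e, H x ≤ K x) : eInt v e H ≤ eInt v e K := by
  unfold eInt
  have h1 : ∫⁻ t in Icc (0:ℝ) 1, H (pt v e.1.1 e.1.2 + t • ((1 / 2 ^ e.1.1 : ℝ) • ev e.2)) ≤
      ∫⁻ t in Icc (0:ℝ) 1, K (pt v e.1.1 e.1.2 + t • ((1 / 2 ^ e.1.1 : ℝ) • ev e.2)) := by
    refine setLIntegral_mono' measurableSet_Icc fun t ht => h _ ?_
    rw [edge, segment_eq_image']
    refine ⟨t, ht, ?_⟩
    simp
  gcongr

/-- powers of the weighted length -/
theorem te_le {p : ℝ} (hp : 1 ≤ p) {v : V} {e : Idx × Fin 3} {ℓ b : ℝ≥0∞} {G : V → ℝ≥0∞}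
    (h : ℓ ≤ eInt v e G + b) :
    ENNReal.ofReal ((1 / 2 ^ e.1.1) ^ (1 - p)) * ℓ ^ p ≤
      2 ^ (p - 1) * eInt v e (fun x => G x ^ p) +
        ENNReal.ofReal ((1 / 2 ^ e.1.1) ^ (1 - p)) * (2 ^ (p - 1) * b ^ p) := by
  have hr : (0:ℝ) < 1 / 2 ^ e.1.1 := by positivity
  have h1 : ENNReal.ofReal ((1 / 2 ^ e.1.1) ^ (1 - p)) *
      ENNReal.ofReal ((1 / 2 ^ e.1.1) ^ (p - 1)) = 1 := by
    rw [← ENNReal.ofReal_mul (by positivity), ← Real.rpow_add hr]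
    simp
  calc ENNReal.ofReal ((1 / 2 ^ e.1.1) ^ (1 - p)) * ℓ ^ p
      ≤ ENNReal.ofReal ((1 / 2 ^ e.1.1) ^ (1 - p)) * (eInt v e G + b) ^ p := by gcongr
    _ ≤ ENNReal.ofReal ((1 / 2 ^ e.1.1) ^ (1 - p)) *
        (2 ^ (p - 1) * (eInt v e G ^ p + b ^ p)) := by
        gcongr
        exact ENNReal.rpow_add_le_mul_rpow_add_rpow _ _ hp
    _ ≤ ENNReal.ofReal ((1 / 2 ^ e.1.1) ^ (1 - p)) *
        (2 ^ (p - 1) * (ENNReal.ofReal ((1 / 2 ^ e.1.1) ^ (p - 1)) *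
          eInt v e (fun x => G x ^ p) + b ^ p)) := by
        gcongr
        exact H194.eInt_rpow_le hp v e G
    _ = (ENNReal.ofReal ((1 / 2 ^ e.1.1) ^ (1 - p)) *
          ENNReal.ofReal ((1 / 2 ^ e.1.1) ^ (p - 1))) * (2 ^ (p - 1) *
          eInt v e (fun x => G x ^ p)) +
        ENNReal.ofReal ((1 / 2 ^ e.1.1) ^ (1 - p)) * (2 ^ (p - 1) * b ^ p) := by ring
    _ = _ := by rw [h1, one_mul]

/-- length of `h` and the derivative of `f` -/
theorem eInt_line_le {v : V} {e : Idx × Fin 3} {Ω : Set V} {f : V → V} {F : V → Mat}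
    (rat : RatGood v Ω f F) (he : edge v e ⊆ Ω) {h : V → V} {δ : ℝ} (hδ : 0 ≤ δ)
    (hfin : eInt v e (fun x => ENNReal.ofReal ‖cl (F x) (ev e.2)‖) ≠ ⊤)
    (h1 : eInt v e (fun x => ENNReal.ofReal ‖lineDeriv ℝ h x (ev e.2) - cl (F x) (ev e.2)‖) ≤
      ENNReal.ofReal δ) :
    eInt v e (fun x => ENNReal.ofReal ‖lineDeriv ℝ h x (ev e.2)‖) ≤
      eInt v e (fun x => ENNReal.ofReal ‖cl (F x) (ev e.2)‖) + ENNReal.ofReal δ := by
  set b := (eInt v e (fun x => ENNReal.ofReal ‖cl (F x) (ev e.2)‖)).toReal with hb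
  have h2 := eInt_tri rat he h 0 (a := δ) (b := b) hδ ENNReal.toReal_nonneg h1 (by
    simp only [sub_zero]
    rw [hb, ENNReal.ofReal_toReal hfin])
  simp only [sub_zero] at h2
  refine h2.trans ?_
  rw [add_comm, ENNReal.ofReal_add ENNReal.toReal_nonneg hδ, ENNReal.ofReal_toReal hfin]

/-- the weighted length of an edge, with the density `G` -/
theorem weighted_le {v : V} {e : Idx × Fin 3} {g : V → V} {l b : ℝ≥0∞} {D : V → ℝ≥0∞}
    (h : l ≤ eInt v e D + b) :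
    ENNReal.ofReal (We ρ c g v e) * l ≤
      eInt v e (fun x => 66 * (tw ρ c (g x) * D x)) + ENNReal.ofReal (We ρ c g v e) * b := by
  calc ENNReal.ofReal (We ρ c g v e) * l
      ≤ ENNReal.ofReal (We ρ c g v e) * (eInt v e D + b) := by gcongr
    _ = eInt v e (fun x => ENNReal.ofReal (We ρ c g v e) * D x) +
        ENNReal.ofReal (We ρ c g v e) * b := by
        rw [mul_add, eInt_const_mul v e ENNReal.ofReal_ne_top]
    _ ≤ _ := by
        gcongr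
        refine eInt_mono_on fun x hx => ?_
        rw [← mul_assoc]
        gcongr
        exact We_le g v e hx

end Vale.Agent.P073.H333
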