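import Vale.Agent.P073.ConGlue
import Vale.Agent.P073.IoD
import Vale.Agent.P073.St

/-!
# P073, block A04-NETIN: gluing of modifications with disjoint supports
-/

namespace Vale.Agent.P073.H333

open Set Filter Topology Metric Vale.Agent.P073.St
open _root_.P073 (ConHomeo RelLF ConicalSet)

/-- Gluing of modifications `h i` of `h₀` with disjoint supports `O i`. The sets `X k` form a
locally finite closed cover of `Ω`. -/
theorem exists_glue_supp {ι κ : Type*} {Ω Λ : Set V} (hΩ : IsOpen Ω) (hΛ : IsOpen Λ)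
    (h₀ : ConHomeo Ω Λ) (O : ι → Set V) (hO : ∀ i, IsOpen (O i))
    (hd : ∀ i j, i ≠ j → Disjoint (O i) (O j)) (h : ι → ConHomeo Ω Λ)
    (hoff : ∀ i, ∀ x ∈ Ω, x ∉ O i → (h i).toFun x = h₀.toFun x)
    (X : κ → Set V) (hX : RelLF X) (hXΩ : ⋃ k, X k = Ω) (hXc : ∀ k, ConicalSet (X k))
    (hXO : ∀ k, (∃ i, X k ⊆ closure (O i)) ∨ ∀ i, Disjoint (X k) (O i)) :
    ∃ h' : ConHomeo Ω Λ, (∀ i, ∀ x ∈ Ω, x ∈ closure (O i) → h'.toFun x = (h i).toFun x) ∧
      ∀ x ∈ Ω, (∀ i, x ∉ O i) → h'.toFun x = h₀.toFun x := by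
  classical
  have huniq : ∀ i j x, x ∈ O i → x ∈ O j → i = j := by
    intro i j x hi hj
    by_contra hne
    exact Set.disjoint_left.1 (hd i j hne) hi hj
  have hcl : ∀ i j x, x ∈ closure (O i) → x ∈ O j → i = j := by
    intro i j x hi hj
    by_contra hne
    obtain ⟨y, hy, hy'⟩ := mem_closure_iff.1 hi (O j) (hO j) hj
    exact hne (huniq i j y hy' hy)
  let g : V → V := fun x => if hx : ∃ i, x ∈ O i then (h hx.choose).toFun x else h₀.toFun x
  let k : V → V := fun y =>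
    if hy : ∃ i, h₀.invFun y ∈ O i then (h hy.choose).invFun y else h₀.invFun y
  have hg0 : ∀ x, (∀ i, x ∉ O i) → g x = h₀.toFun x := by
    intro x hx
    simp only [g]
    rw [dif_neg (by rintro ⟨i, hi⟩; exact hx i hi)]
  have hg1 : ∀ i x, x ∈ O i → g x = (h i).toFun x := by
    intro i x hx
    have hex : ∃ i, x ∈ O i := ⟨i, hx⟩
    simp only [g]
    rw [dif_pos hex, huniq _ _ x hex.choose_spec hx]
  have hk0 : ∀ y, (∀ i, h₀.invFun y ∉ O i) → k y = h₀.invFun y := by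
    intro x hx
    simp only [k]
    rw [dif_neg (by rintro ⟨i, hi⟩; exact hx i hi)]
  have hk1 : ∀ i y, h₀.invFun y ∈ O i → k y = (h i).invFun y := by
    intro i x hx
    have hex : ∃ i, h₀.invFun x ∈ O i := ⟨i, hx⟩
    simp only [k]
    rw [dif_pos hex, huniq _ _ _ hex.choose_spec hx]
  have hg2 : ∀ i, ∀ x ∈ Ω, x ∈ closure (O i) → g x = (h i).toFun x := by
    intro i x hxΩ hx
    by_cases hi : x ∈ O i
    · exact hg1 i x hi
    · rw [hg0 x fun j hj => hi (hcl i j x hx hj ▸ hj), hoff i x hxΩ hi]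
  -- on the pieces
  have hpiece : ∀ c, ∃ h' : ConHomeo Ω Λ, EqOn g h'.toFun (X c) := by
    intro c
    have hsub : X c ⊆ Ω := by rw [← hXΩ]; exact subset_iUnion X c
    rcases hXO c with ⟨i, hi⟩ | hi
    · exact ⟨h i, fun x hx => hg2 i x (hsub hx) (hi hx)⟩
    · exact ⟨h₀, fun x hx => hg0 x fun i hxi => Set.disjoint_left.1 (hi i) hx hxi⟩
  have hcont : ContinuousOn g Ω := by
    rw [← hXΩ]
    refine hX.continuousOn fun c => ?_
    obtain ⟨h', hh⟩ := hpiece c
    exact (h'.cont.mono (by rw [← hXΩ]; exact subset_iUnion X c)).congr hh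
  have hcon : _root_.P073.ConicalOn g Ω := by
    rw [← hXΩ]
    refine hX.conicalOn fun c => ?_
    obtain ⟨h', hh⟩ := hpiece c
    exact (h'.conical.mono (hXc c) (by rw [← hXΩ]; exact subset_iUnion X c)).congr hh
  have hmaps : MapsTo g Ω Λ := by
    intro x hx
    rw [← hXΩ] at hx
    obtain ⟨c, hc⟩ := mem_iUnion.1 hx
    obtain ⟨h', hh⟩ := hpiece c
    rw [hh hc]
    exact h'.mapsTo (by rw [← hXΩ]; exact mem_iUnion.2 ⟨c, hc⟩)
  -- the two preimages
  have hpre : ∀ i, ∀ x ∈ Ω, x ∈ O i → h₀.invFun ((h i).toFun x) ∈ O i := by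
    intro i x hxΩ hx
    by_contra hw
    have hy := (h i).mapsTo hxΩ
    have hwΩ := h₀.mapsTo_inv hy
    have e1 := hoff i _ hwΩ hw
    rw [h₀.right_inv hy] at e1
    have e2 := (h i).injOn hwΩ hxΩ e1
    rw [e2] at hw
    exact hw hx
  have hpre' : ∀ i, ∀ y ∈ Λ, h₀.invFun y ∈ O i → (h i).invFun y ∈ O i := by
    intro i y hy hyi
    by_contra hw
    have hwΩ := (h i).mapsTo_inv hy
    have e1 := hoff i _ hwΩ hw
    rw [(h i).right_inv hy] at e1
    rw [e1, h₀.left_inv hwΩ] at hyi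
    exact hw hyi
  have hleft : LeftInvOn k g Ω := by
    intro x hx
    by_cases hex : ∃ i, x ∈ O i
    · obtain ⟨i, hi⟩ := hex
      rw [hg1 i x hi, hk1 i _ (hpre i x hx hi), (h i).left_inv hx]
    · have hno : ∀ i, x ∉ O i := fun i hi => hex ⟨i, hi⟩
      rw [hg0 x hno, hk0 _ (by rw [h₀.left_inv hx]; exact hno), h₀.left_inv hx]
  have hright : RightInvOn k g Λ := by
    intro y hy
    by_cases hex : ∃ i, h₀.invFun y ∈ O i
    · obtain ⟨i, hi⟩ := hex
      rw [hk1 i y hi, hg1 i _ (hpre' i y hy hi), (h i).right_inv hy]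
    · have hno : ∀ i, h₀.invFun y ∉ O i := fun i hi => hex ⟨i, hi⟩
      rw [hk0 y hno, hg0 _ hno, h₀.right_inv hy]
  have hmaps' : MapsTo k Λ Ω := by
    intro y hy
    by_cases hex : ∃ i, h₀.invFun y ∈ O i
    · obtain ⟨i, hi⟩ := hex
      rw [hk1 i y hi]
      exact (h i).mapsTo_inv hy
    · rw [hk0 y fun i hi => hex ⟨i, hi⟩]
      exact h₀.mapsTo_inv hy
  refine ⟨
    { toFun := g
      invFun := k
      mapsTo := hmaps
      mapsTo_inv := hmaps'
      left_inv := hleft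
      right_inv := hright
      cont := hcont
      cont_inv := ?_
      conical := hcon }, hg2, fun x _ hx => hg0 x hx⟩
  rw [continuousOn_open_iff hΛ]
  intro t ht
  have e : Λ ∩ k ⁻¹' t = g '' (Ω ∩ t) := by
    ext y
    constructor
    · rintro ⟨hy, hyt⟩
      exact ⟨k y, ⟨hmaps' hy, hyt⟩, hright hy⟩
    · rintro ⟨x, ⟨hx, hxt⟩, rfl⟩
      refine ⟨hmaps hx, ?_⟩
      rw [mem_preimage, hleft hx]
      exact hxt
  rw [e]
  exact Sep.isOpen_image_of_injOn (hΩ.inter ht) (hcont.mono inter_subset_left)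
    (hleft.injOn.mono inter_subset_left)

end Vale.Agent.P073.H333
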