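import Vale.Agent.P073.H333.NetInDefs
import Vale.Agent.P073.H333.GlueSupp
import Vale.Agent.P073.Gauge.Cells110
import Vale.Agent.P073.AB.Sum308a
import Vale.Agent.P073.Net.NG1

/-!
# P073, block A04-NETIN: closeness on the whole cell gives the remaining hypotheses
-/

namespace Vale.Agent.P073.H333

open MeasureTheory Set Filter Topology Metric Vale.Agent.P073.St Vale.Agent.P073.AB
open Vale.Agent.P073.SQ (ev)
open _root_.P073.Net (dyc dyo)
open _root_.P073.Gauge (CellHyp CellOut)
open _root_.P073 (ConHomeo)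
open _root_.P073.Gauge.C110
open scoped ENNReal

theorem isOpen_dyo (v : V) (n : ℕ) (z : Fin 3 → ℤ) : IsOpen (dyo v n z) := by
  rw [← interior_dyc]; exact isOpen_interior

theorem closure_dyo (v : V) (n : ℕ) (z : Fin 3 → ℤ) : closure (dyo v n z) = dyc v n z := by
  refine Subset.antisymm ?_ (_root_.P073.Net.NG1.dyc_sub_closure v n z)
  refine closure_minimal ?_ (P86.isCompact_dyc v n z).isClosed
  exact fun x hx k => ⟨(hx k).1.le, (hx k).2.le⟩

/-- `h` is close to the affine map `A` on the closed cube, hence the image of the open cube contains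
the image under `A` of the shrunk cube. -/
theorem shrink_sub_image {Ω Λ : Set V} (h : ConHomeo Ω Λ) {v : V} {n : ℕ}
    {z : Fin 3 → ℤ} (hsub : dyc v n z ⊆ Ω) {A : V → V} {L : V →L[ℝ] V} {θ η δ : ℝ} (hθ : 0 < θ)
    (aff : ∀ x y, A y - A x = L (y - x)) (below : ∀ w, θ * ‖w‖ ≤ ‖L w‖)
    (hclose : ∀ x ∈ dyc v n z, ‖h.toFun x - A x‖ ≤ η) (hη : η < θ * δ) (hδ : 4 * δ ≤ 1 / 2 ^ n) :
    A '' shrink v n z δ ⊆ h.toFun '' dyo v n z := by
  have hη0 : 0 ≤ η := by
    have hc : pt v n z ∈ dyc v n z := fun k => by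
      simp only [pt]
      have h2 : (z k : ℝ) / 2 ^ n ≤ (z k + 1) / 2 ^ n := by gcongr; linarith
      constructor <;> linarith
    exact (norm_nonneg _).trans (hclose _ hc)
  have hδ0 : 0 < δ := by
    by_contra hcon
    have : θ * δ ≤ 0 := mul_nonpos_of_nonneg_of_nonpos hθ.le (not_lt.1 hcon)
    linarith
  have hAc : Continuous A := by
    have : A = fun y => A 0 + L y := by
      funext y
      have := aff 0 y
      rw [sub_zero] at this
      rw [← this]; abel
    rw [this]
    fun_prop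
  have hnear : ∀ x y, ‖h.toFun x - A x‖ ≤ η → h.toFun x = A y → ‖y - x‖ < δ := by
    intro x y h1 h2
    have h3 : ‖A y - A x‖ ≤ η := by rw [← h2]; exact h1
    rw [aff x y] at h3
    have h4 := below (y - x)
    have h5 : θ * ‖y - x‖ < θ * δ := by linarith
    exact lt_of_mul_lt_mul_left h5 hθ.le
  have hconv : Convex ℝ (shrink v n z δ) := by
    intro x hx y hy a b ha hb hab k
    have h1 := hx k
    have h2 := hy k
    have hb' : b = 1 - a := by linarith
    subst hb'
    simp only [Pi.add_apply, Pi.smul_apply, smul_eq_mul]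
    constructor <;> nlinarith [h1.1, h1.2, h2.1, h2.2]
  have hpre : IsPreconnected (A '' shrink v n z δ) :=
    hconv.isPreconnected.image _ hAc.continuousOn
  have hU : IsOpen (h.toFun '' dyo v n z) :=
    Sep.isOpen_image_of_injOn (isOpen_dyo v n z)
      (h.cont.mono (by rw [← interior_dyc]; exact interior_subset.trans hsub))
      (h.injOn.mono (by rw [← interior_dyc]; exact interior_subset.trans hsub))
  have hW : IsOpen (h.toFun '' dyc v n z)ᶜ :=
    ((P86.isCompact_dyc v n z).image_of_continuousOn (h.cont.mono hsub)).isClosed.isOpen_compl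
  have hcov : A '' shrink v n z δ ⊆ h.toFun '' dyo v n z ∪ (h.toFun '' dyc v n z)ᶜ := by
    rintro _ ⟨y, hy, rfl⟩
    by_cases hin : A y ∈ h.toFun '' dyc v n z
    · left
      obtain ⟨x, hx, hxy⟩ := hin
      refine ⟨x, ?_, hxy⟩
      have h1 := hnear x y (hclose x hx) hxy
      intro k
      have h2 := hy k
      have h3 : |y k - x k| < δ := by
        have := norm_le_pi_norm (y - x) k
        rw [Pi.sub_apply, Real.norm_eq_abs] at this
        linarith
      rw [abs_lt] at h3
      constructor <;> linarith [h2.1, h2.2, h3.1, h3.2]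
    · exact Or.inr hin
  refine hpre.subset_left_of_subset_union hU hW ?_ hcov ?_
  · rw [Set.disjoint_left]
    rintro _ ⟨x, hx, rfl⟩ hcon
    exact hcon ⟨x, fun k => ⟨(hx k).1.le, (hx k).2.le⟩, rfl⟩
  · -- the centre
    set c : V := fun k => v k + (z k + 1 / 2) / 2 ^ n with hc
    have hn : (0:ℝ) < 1 / 2 ^ n := by positivity
    have hcd : c ∈ dyo v n z := by
      intro k
      simp only [hc]
      have e1 : (z k + 1 / 2 : ℝ) / 2 ^ n = z k / 2 ^ n + 1 / 2 ^ n / 2 := by ring
      have e2 : (z k + 1 : ℝ) / 2 ^ n = z k / 2 ^ n + 1 / 2 ^ n := by ring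
      rw [e1, e2]
      constructor <;> linarith
    have hcc : c ∈ dyc v n z := fun k => ⟨(hcd k).1.le, (hcd k).2.le⟩
    have hinj : Function.Injective L := by
      intro a b hab
      have h1 := below (a - b)
      rw [map_sub, hab, sub_self, norm_zero] at h1
      have h2 : ‖a - b‖ ≤ 0 := by
        by_contra hcon
        have := mul_pos hθ (not_le.1 hcon)
        linarith
      exact sub_eq_zero.1 (norm_le_zero_iff.1 h2)
    have hsurj : Function.Surjective L := by
      have := (LinearMap.injective_iff_surjective (f := (L : V →ₗ[ℝ] V))).1 hinj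
      exact this
    obtain ⟨w, hw⟩ := hsurj (h.toFun c - A c)
    have hy : A (c + w) = h.toFun c := by
      have h1 := aff c (c + w)
      rw [add_sub_cancel_left, hw] at h1
      exact sub_left_injective h1
    have h1 := hnear c (c + w) (hclose c hcc) hy.symm
    rw [add_sub_cancel_left] at h1
    refine ⟨h.toFun c, ⟨c + w, ?_, hy⟩, c, hcd, rfl⟩
    intro k
    have h3 : |w k| < δ := by
      have := norm_le_pi_norm w k
      rw [Real.norm_eq_abs] at this
      linarith
    rw [abs_lt] at h3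
    have h4 : (0:ℝ) < 2 ^ n := by positivity
    simp only [hc, Pi.add_apply]
    have e1 : (z k + 1 / 2 : ℝ) / 2 ^ n = z k / 2 ^ n + 1 / 2 ^ n / 2 := by ring
    have e2 : (z k + 1 : ℝ) / 2 ^ n = z k / 2 ^ n + 1 / 2 ^ n := by ring
    rw [e1, e2]
    constructor <;> linarith [h3.1, h3.2]

/-- cubes of the partition near a cell which is finely divided -/
theorem sub_or_disjoint {Ω : Set V} {v : V} {I : Set Idx} (hI : Part Ω v I) {n N : ℕ}
    {z : Fin 3 → ℤ} (hN : n ≤ N)
    (fine : ∀ z', (dyc v N z' ∩ dyc v n z).Nonempty → ((N, z') : Idx) ∈ I) {r : Idx} (hr : r ∈ I) :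
    dyc v r.1 r.2 ⊆ dyc v n z ∨ Disjoint (dyc v r.1 r.2) (dyo v n z) := by
  by_cases hdis : Disjoint (dyc v r.1 r.2) (dyo v n z)
  · exact Or.inr hdis
  left
  obtain ⟨x, hx, hx'⟩ := Set.not_disjoint_iff.1 hdis
  rw [← closure_dyo] at hx
  obtain ⟨y, hy, hyr⟩ := mem_closure_iff.1 hx _ (isOpen_dyo v n z) hx'
  obtain ⟨z', hz'⟩ := _root_.P073.Net.NC.exists_mem v N y
  have hyd : y ∈ dyc v n z := fun k => ⟨(hy k).1.le, (hy k).2.le⟩
  have hz'I := fine z' ⟨y, hz', hyd⟩
  have hrz : r = (N, z') := by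
    by_contra hne
    have h1 := hI.disj r hr _ hz'I hne
    exact Set.disjoint_left.1 h1 hyr hz'
  rw [hrz]
  have hyo : y ∈ S308.obox v n z (fun k => z k + 1) := by
    intro k
    have := hy k
    push_cast
    exact this
  have h2 := S308.dyc_sub_of_mem_obox hN hz' hyo
  rwa [← S308.dyc_eq_gbox] at h2

theorem dyc_sub_of_fine {Ω : Set V} {v : V} {I : Set Idx} (hI : Part Ω v I) {n N : ℕ}
    {z : Fin 3 → ℤ} (fine : ∀ z', (dyc v N z' ∩ dyc v n z).Nonempty → ((N, z') : Idx) ∈ I) :
    dyc v n z ⊆ Ω := by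
  intro x hx
  obtain ⟨z', hz'⟩ := _root_.P073.Net.NC.exists_mem v N x
  exact hI.sub _ (fine z' ⟨x, hz', hx⟩) hz'

/-- every edge of the partition which is not in the cell misses the open cell -/
theorem edge_off {Ω : Set V} {v : V} {I : Set Idx} (hI : Part Ω v I) {n N : ℕ}
    {z : Fin 3 → ℤ} (hN : n ≤ N)
    (fine : ∀ z', (dyc v N z' ∩ dyc v n z).Nonempty → ((N, z') : Idx) ∈ I) {e : Idx × Fin 3}
    (he : ∃ q ∈ I, EdgeOf e q) (hne : ¬ edge v e ⊆ dyc v n z) {x : V} (hx : x ∈ edge v e) :
    x ∉ dyo v n z := by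
  obtain ⟨q, hq, heq⟩ := he
  have h1 := Gr.edge_subset_dyc (v := v) heq
  rcases sub_or_disjoint hI hN fine hq with h2 | h2
  · exact absurd (h1.trans h2) hne
  · exact Set.disjoint_left.1 h2 (h1 hx)

end Vale.Agent.P073.H333
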