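import Vale.Agent.P073.H234.Cleaned

/-!
# P073, [PRE-2] (`p = 2`): the proposition `NetInP2` with three more inequalities for the numbers
-/

namespace Vale.Agent.P073.H333

open MeasureTheory Set Filter Topology Metric Vale.Agent.P073.St Vale.Agent.P073.AB
open Vale.Agent.P073.SQ (ev)
open _root_.P073.Net (dyc dyo)
open _root_.P073 (ConBall ConHomeo)
open Vale.Agent.P073.H234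
open scoped ENNReal

/-- `H234.NetInP2`, with `2 ≤ k₂`, `σ₀ ≤ 1 / 40` and the inequality for the auxiliary
homeomorphism -/
def NetInP2' : Prop :=
  ∃ (C : ℝ → ℝ → ℝ) (K₀ : ℝ → ℝ → ℕ → ℕ), (∀ θ M, 0 < C θ M) ∧
    ∀ (θ M : ℝ) (k₁ k₃ : ℕ), 0 < θ → 0 < M → 3 ≤ k₁ → 1 ≤ k₃ →
    ∃ (k₂ : ℕ) (β σ₀ κ₀ : ℝ), 2 ≤ k₂ ∧ σ₀ ≤ 1 / 40 ∧
    3 * M + 3 * ((16 * M / θ + 20) * β) < θ * 2 ^ k₂ ∧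
    0 < β ∧ β ≤ 1 / 8 ∧ 0 < σ₀ ∧ σ₀ ≤ β / 2 ∧ 0 < κ₀ ∧
    ∀ κ, 0 < κ → κ ≤ κ₀ → ∀ (p : ℝ) (ε : ℝ≥0∞) (c₀ t₀ δ₀ ε₁ : ℝ) (Ω Λ : Set V) (f : V → V)
      (F : V → Mat) (T : Set V) (v : V) (m : ℕ)
      (P : P2Cells p ε θ M κ c₀ t₀ δ₀ (k₃ + k₁ + K₀ θ M k₁ + k₂) Ω Λ f F T v m),
      St.IsBoundedDomain Ω → St.IsBoundedDomain Λ → St.IsHomeo Ω Λ f → RatGood v Ω f F →
      TSet θ M κ t₀ δ₀ ε₁ Ω f F T → 0 ≤ ε₁ → 0 < t₀ →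
      1 / 2 ^ m ≤ δ₀ → 4 / 2 ^ m < c₀ →
      Nonempty (Necks θ M β σ₀ f v m (k₃ + k₁ + K₀ θ M k₁ + k₂) P.J P.A) →
      ∀ (J' : Finset (Fin 3 → ℤ)) (π : (Fin 3 → ℤ) → Fin 3 → ℤ), SubCells P (m + k₃) J' π →
      ∀ I : Set Idx, Part Ω v I →
      (∀ u, Tch v (m + k₃) (m + k₃ + k₁ + K₀ θ M k₁) J' u →
        ((m + k₃ + k₁ + K₀ θ M k₁, u) : Idx) ∈ I) →
      (∀ e : Idx × Fin 3, (∃ q ∈ I, EdgeOf e q) →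
        eInt v e (fun x => ENNReal.ofReal ‖cl (F x) (ev e.2)‖) ≠ ⊤) →
      ∀ (σ : V → ℝ) (δ : Idx × Fin 3 → ℝ) (τ : ℝ), ContinuousOn σ Ω → (∀ x ∈ Ω, 0 < σ x) →
      (∀ e, 0 < δ e) → 0 < τ →
      ∃ h : ConHomeo Ω Λ, NetRes2 v I (m + k₃) k₁ (K₀ θ M k₁) J' (C θ M)
        (4 * ε₁ + C θ M / 2 ^ m) τ (fun z => P.A (π z)) f F Ω σ δ h.toFun

theorem netInP2_of (h : NetInP2') : NetInP2 := by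
  obtain ⟨C, K₀, hC, h⟩ := h
  refine ⟨C, K₀, hC, fun θ M k₁ k₃ hθ hM h1 h3 => ?_⟩
  obtain ⟨k₂, β, σ₀, κ₀, -, -, -, b1, b2, b3, b4, b5, h⟩ := h θ M k₁ k₃ hθ hM h1 h3
  exact ⟨k₂, β, σ₀, κ₀, b1, b2, b3, b4, b5, h⟩

end Vale.Agent.P073.H333
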