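import Vale.Agent.P073.H333.PreFinal
import Vale.Agent.P073.H399.Close
import Vale.Agent.P073.PA285.Top

/-!
# P073, block A15-PRE: **SpecPre** for `2 < p < 3`, without hypotheses
-/

namespace Vale.Agent.P073.H333

/-- the net with good cells -/
theorem netIn2 : NetIn2 := netIn2_of PA285.netOutN _root_.P073.H399.specCellE

/-- **SpecPre**, `2 < p < 3` -/
theorem specPre {p : ℝ} (hp : 2 < p) (hp3 : p < 3) : H73.SpecPre p := specPre_of netIn2 hp hp3

end Vale.Agent.P073.H333
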