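import Vale.Agent.P073.H340.PE
import Vale.Agent.P073.H333.PD3b

/-!
# P073, [PRE-2] (`p = 2`), [E4]: weighted lengths of the edges
-/

namespace Vale.Agent.P073.H340

open MeasureTheory Set Filter Topology Metric Vale.Agent.P073.St Vale.Agent.P073.AB
open Vale.Agent.P073.SQ (ev)
open _root_.P073 (ConHomeo)
open _root_.P073.Net (dyc dyo IsTile SizeFn len)
open Vale.Agent.P073.H73 (MinEdge Bix ctr WLe segP onSeg)
open Vale.Agent.P073.H194 (refine Big wH zo so co MeshOut bInt Oc cellT sInt)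
open Vale.Agent.P073.H471 (wgt)
open Vale.Agent.P073.H83 (CellsG gB grho)
open Vale.Agent.P073.H234 (Touch Tch dn NetRes2)
open Vale.Agent.P073.H333 (lay gap core out base inet Mid PD0 eInt_mono_on eInt_cst eInt_add_cst
  eInt_const_mul clm_ev_le boxR_sub_dyo boxB_sub_dyo boxR_sub_int far_ctr far_of_near tw_kept
  wgt_OT_le)
open scoped ENNReal

/-- the nearest point of the cell -/
theorem exists_clamp4 {v : V} {n N : ℕ} {z u : Fin 3 → ℤ} (h : Touch v n N z u) {x : V}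
    (hx : x ∈ dyc v N u) : ∃ x' ∈ dyc v n z, ‖x - x'‖ ≤ 1 / 2 ^ N ∧
      (x ∈ dyc v n z → x' = x) ∧ (x ∉ dyc v n z → x' ∉ dyo v n z) := by
  obtain ⟨y, hyu, hyz⟩ := h
  have hle : ∀ k, v k + z k / 2 ^ n ≤ v k + (z k + 1) / 2 ^ n := fun k => by
    gcongr
    linarith
  refine ⟨fun k => max (v k + z k / 2 ^ n) (min (v k + (z k + 1) / 2 ^ n) (x k)), ?_, ?_, ?_, ?_⟩
  · intro k
    exact ⟨le_max_left _ _, max_le (hle k) (min_le_left _ _)⟩
  · rw [pi_norm_le_iff_of_nonneg (by positivity)]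
    intro k
    have h1 := hyz k
    have h2 := hyu k
    have h3 := hx k
    have e : ((u k : ℝ) + 1) / 2 ^ N = u k / 2 ^ N + 1 / 2 ^ N := by ring
    rw [e] at h2 h3
    rw [Pi.sub_apply, Real.norm_eq_abs, abs_le]
    have hp : (0:ℝ) < 1 / 2 ^ N := by positivity
    rcases le_total (x k) (v k + z k / 2 ^ n) with h | h
    · have e1 : max (v k + z k / 2 ^ n) (min (v k + (z k + 1) / 2 ^ n) (x k)) =
          v k + z k / 2 ^ n := max_eq_left ((min_le_right _ _).trans h)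
      rw [e1]
      constructor <;> linarith [h1.1, h2.2, h3.1]
    · rcases le_total (x k) (v k + (z k + 1) / 2 ^ n) with h' | h'
      · have e1 : max (v k + z k / 2 ^ n) (min (v k + (z k + 1) / 2 ^ n) (x k)) = x k := by
          rw [min_eq_right h', max_eq_right h]
        rw [e1]
        constructor <;> linarith
      · have e1 : max (v k + z k / 2 ^ n) (min (v k + (z k + 1) / 2 ^ n) (x k)) =
            v k + (z k + 1) / 2 ^ n := by
          rw [min_eq_left h', max_eq_right (hle k)]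
        rw [e1]
        constructor <;> linarith [h1.2, h2.1, h3.2]
  · intro hxz
    funext k
    have h1 := hxz k
    rw [min_eq_right h1.2, max_eq_right h1.1]
  · intro hxz hcon
    apply hxz
    intro k
    have h1 := hcon k
    simp only at h1
    constructor
    · by_contra hlt
      rw [not_le] at hlt
      have e1 : max (v k + z k / 2 ^ n) (min (v k + (z k + 1) / 2 ^ n) (x k)) =
          v k + z k / 2 ^ n := max_eq_left ((min_le_right _ _).trans hlt.le)
      rw [e1] at h1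
      exact lt_irrefl _ h1.1
    · by_contra hlt
      rw [not_le] at hlt
      have e1 : max (v k + z k / 2 ^ n) (min (v k + (z k + 1) / 2 ^ n) (x k)) =
          v k + (z k + 1) / 2 ^ n := by
        rw [min_eq_left hlt.le, max_eq_right (hle k)]
      rw [e1] at h1
      exact lt_irrefl _ h1.2

namespace PE

variable {p ε δ : ℝ} {Φ : ℕ → Finset (Fin 3 → ℤ) → ((Fin 3 → ℤ) → V → V) → ℝ}
  {Ω Λ : Set V} {g f : V → V} {F : V → Mat} (D : PE p ε δ Φ Ω Λ g f F)

theorem size4 : SizeFn Λ D.ρ :=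
  H83.sizeFn_grho _ _ _ _ _ _ _ _ _ D.bΛ.1 D.H.bΛ

theorem far' {m : ℕ} {zz : Fin 3 → ℤ} (ht : IsTile D.ρ 0 m zz) {z : Fin 3 → ℤ} (hz : z ∈ D.J)
    {x : V} (hx : x ∈ dyc D.v D.n z) (hx' : x ∉ interior (boxR D.v D.n D.k₁ z)) :
    D.a₁ / 2 ^ D.m₁ ≤ ‖D.c m zz - D.A z x‖ :=
  far_ctr (D.H.continuous hz) (fun y hy hy' => D.far m zz ht z hz y hy hy') hx hx'

/-- the weight near the images of the layers -/
theorem wg_NL {y : V} (hy : D.NL y) : D.wg y ≤ ENNReal.ofReal (1 + 4 * (2 / D.a₁)) := by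
  obtain ⟨z, hz, x, hx, hx', hyx⟩ := hy
  refine (wgt_OT_le _ _ _ _).trans ?_
  refine tw_kept D.size4 (fun m z h => H83.gen_le_of_tile h) D.a0 fun m zz ht => ?_
  exact far_of_near (D.far' ht hz hx hx') hyx D.η1

theorem a_le : 2 ≤ 2 / D.a₁ := by
  have h0 := D.a0
  have h1 := D.a1
  rw [le_div_iff₀ h0]
  linarith

theorem two_le : 2 / D.a₁ ≤ W₄ D.toPD0 := by
  have h := D.a0
  have h1 : 0 < 2 / D.a₁ := by positivity
  unfold W₄
  nlinarith [D.a_le]

theorem W₄_pos : 0 < W₄ D.toPD0 := by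
  have h := D.a0
  have h1 : 0 < 2 / D.a₁ := by positivity
  exact h1.trans_le D.two_le

theorem enorm_L_le4 {z : Fin 3 → ℤ} (hz : z ∈ D.J) : ‖D.L z‖ₑ ≤ ENNReal.ofReal D.M := by
  rw [← ofReal_norm]
  exact ENNReal.ofReal_le_ofReal
    ((D.L z).opNorm_le_bound D.M0.le (D.H.above z hz))

theorem wst_le {e : Idx × Fin 3} {x : V} (hx : x ∈ edge D.v e) :
    ENNReal.ofReal (wst2 D.toPD0 f e) ≤ 2178 * D.wg (D.fs x) := by
  refine ENNReal.ofReal_toReal_le.trans ?_
  gcongr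
  exact iInf₂_le x hx

/-- on an edge of a touching tile, outside of the open boxes `B`, the map `f` is near the images
of the layers -/
theorem NL_f {z u : Fin 3 → ℤ} (hz : z ∈ D.J) (hu : Touch D.v D.n (D.n + D.k₁ + D.k₀) z u)
    {E : Idx × Fin 3} (hE : EdgeOf E (D.n + D.k₁ + D.k₀, u)) {x : V} (hx : x ∈ edge D.v E)
    (hxB : x ∉ interior (boxB D.v D.n D.k₁ z)) : D.NL (f x) := by
  have hxu : x ∈ dyc D.v (D.n + D.k₁ + D.k₀) u := Gr.edge_subset_dyc hE hx
  obtain ⟨x', hx', h1, h2, h3⟩ := exists_clamp4 hu hxu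
  refine ⟨z, hz, x', hx', fun hcon => ?_, ?_⟩
  · by_cases hxz : x ∈ dyc D.v D.n z
    · rw [h2 hxz] at hcon
      exact hxB (boxR_sub_int _ _ _ _ (interior_subset hcon))
    · exact h3 hxz (boxR_sub_dyo _ _ _ _ (interior_subset hcon))
  · have h4 := D.fown z hz u hu E hE x hx
    have h5 : ‖D.A z x - D.A z x'‖ ≤ D.M * (1 / 2 ^ (D.n + D.k₁ + D.k₀)) :=
      (D.H.dist_le hz x x').trans (mul_le_mul_of_nonneg_left h1 D.M0.le)
    have hC := D.C0
    have hC0 := D.C00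
    have hMC := D.CC₀
    have hM := D.M0
    calc ‖f x - D.A z x'‖ = ‖(f x - D.A z x) + (D.A z x - D.A z x')‖ := by congr 1; abel
      _ ≤ ‖f x - D.A z x‖ + ‖D.A z x - D.A z x'‖ := norm_add_le _ _
      _ ≤ 1 / 2 ^ (D.n + D.k₁ + D.k₀) + D.M * (1 / 2 ^ (D.n + D.k₁ + D.k₀)) :=
          add_le_add h4 h5
      _ = (1 + D.M) / 2 ^ (D.n + D.k₁ + D.k₀) := by ring
      _ ≤ D.C / 2 ^ (D.n + D.k₁) :=
          div_le_div₀ hC.le (by linarith) (by positivity)
            (pow_le_pow_right₀ (by norm_num) (by omega))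

/-- the weight of a divided edge at a point where `fs` is near the images of the layers -/
theorem We_of_NL {e : Idx × Fin 3} (h : D.Div e → ∃ x ∈ edge D.v e, D.NL (D.fs x)) :
    D.We e ≤ W₄ D.toPD0 := by
  unfold We
  split_ifs with hd
  · obtain ⟨x, hx, hN⟩ := h hd
    have h4 := (D.wst_le hx).trans (mul_le_mul_right (D.wg_NL hN) 2178)
    have ha := D.a0
    rw [show (2178:ℝ≥0∞) = ENNReal.ofReal 2178 by simp, ← ENNReal.ofReal_mul (by norm_num)] at h4
    have h5 := (ENNReal.ofReal_le_ofReal_iff (by positivity)).1 h4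
    unfold W₄
    exact mul_le_mul_of_nonneg_left h5 (by positivity)
  · exact D.two_le

/-- `fs` on a divided cube -/
theorem fs_div (R : RefOut Ω D.v D.n D.k₁ D.k₀ D.J D.Bg D.nf) {q : Idx}
    (hq : q ∈ base Ω D.v D.n D.k₁ D.k₀ D.J \ kept D.v D.n D.k₁ D.k₀ D.J) :
    ((∀ z ∈ D.J, Disjoint (dyc D.v q.1 q.2) (dyc D.v D.n z)) ∧
      ∀ x ∈ dyc D.v q.1 q.2, D.fs x = f x) ∨
    ∃ z ∈ D.J, dyc D.v q.1 q.2 ⊆ boxR D.v D.n D.k₁ z ∧ ∀ x ∈ dyc D.v q.1 q.2, D.fs x = D.A z x := by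
  rw [R.diff] at hq
  rcases hq with hq | ⟨-, z, hz, hq⟩
  · left
    refine ⟨R.off q hq, fun x hx => H194.fs_out fun z hz hxz => ?_⟩
    exact Set.disjoint_left.1 (R.off q hq z hz) hx
      (P86.dyo_sub_dyc (boxR_sub_dyo _ _ _ _ hxz))
  · right
    exact ⟨z, hz, hq, fun x hx => H194.fs_in hz (hq hx)⟩

/-- weights, kept edges in the good cells -/
theorem We_kept (R : RefOut Ω D.v D.n D.k₁ D.k₀ D.J D.Bg D.nf) {e : Idx × Fin 3}
    {z : Fin 3 → ℤ} (hz : z ∈ D.J) (h1 : edge D.v e ⊆ dyc D.v D.n z)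
    (h2 : Disjoint (edge D.v e) (interior (boxR D.v D.n D.k₁ z))) : D.We e ≤ W₄ D.toPD0 := by
  refine D.We_of_NL fun hd => ?_
  obtain ⟨s, -, hes, q, hq, hsq⟩ := hd
  obtain ⟨x, hx⟩ := H333.PD.edge_nonempty D.v e
  refine ⟨x, hx, ?_⟩
  rcases D.fs_div R hq with ⟨h3, -⟩ | ⟨z', hz', h3, h4⟩
  · exact absurd (h1 hx) (Set.disjoint_left.1 (h3 z hz) (hsq (hes hx)))
  · have h5 : z = z' := by
      by_contra hne
      exact Set.disjoint_left.1 (H669.dyo_dyc_disj hne) (h1 hx)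
        (boxR_sub_dyo _ _ _ _ (h3 (hsq (hes hx))))
    subst h5
    refine ⟨z, hz, x, h1 hx, Set.disjoint_left.1 h2 hx, ?_⟩
    rw [h4 x (hsq (hes hx)), sub_self, norm_zero]
    have := D.C0
    positivity

/-- weights, edges of the tiles which touch the good cells -/
theorem We_tch (R : RefOut Ω D.v D.n D.k₁ D.k₀ D.J D.Bg D.nf) {e E : Idx × Fin 3}
    {u : Fin 3 → ℤ} (hu : Tch D.v D.n (D.n + D.k₁ + D.k₀) D.J u)
    (hE : EdgeOf E (D.n + D.k₁ + D.k₀, u)) (hsub : edge D.v e ⊆ edge D.v E)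
    (h2 : ∀ z ∈ D.J, Disjoint (edge D.v e) (interior (boxB D.v D.n D.k₁ z))) :
    D.We e ≤ W₄ D.toPD0 := by
  refine D.We_of_NL fun hd => ?_
  obtain ⟨z, hz, hzu⟩ := hu
  obtain ⟨s, -, hes, q, hq, hsq⟩ := hd
  obtain ⟨x, hx⟩ := H333.PD.edge_nonempty D.v e
  refine ⟨x, hx, ?_⟩
  rcases D.fs_div R hq with ⟨h3, h4⟩ | ⟨z', hz', h3, h4⟩
  · rw [h4 x (hsq (hes hx))]
    exact D.NL_f hz hzu hE (hsub hx) (Set.disjoint_left.1 (h2 z hz) hx)
  · exact absurd (boxR_sub_int _ _ _ _ (h3 (hsq (hes hx))))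
      (Set.disjoint_left.1 (h2 z' hz') hx)

/-- the density of the energy -/
theorem eInt_rep (e : Idx × Fin 3) (Ψ : V → ℝ≥0∞ → ℝ≥0∞) :
    eInt D.v e (fun x => Ψ x (Ω.indicator (fun x => ‖cl (F x)‖ₑ) x)) =
      eInt D.v e (fun x => Ψ x (D.G x ^ (1 / p))) := by
  have hp : 0 < p := by linarith [D.hp]
  refine (D.rep _ _ fun x hx => ?_).1 e
  rw [← hx]
  by_cases h : x ∈ Ω
  · rw [indicator_of_mem h, indicator_of_mem h, ← ENNReal.rpow_mul, mul_one_div,
      div_self hp.ne', ENNReal.rpow_one]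
  · rw [indicator_of_notMem h, indicator_of_notMem h,
      ENNReal.zero_rpow_of_pos (by positivity)]

theorem ell_of_We (hL : D.KeyLen) {e : Idx × Fin 3} (he : MinEdge D.v D.I e)
    (hW : D.We e ≤ W₄ D.toPD0) : D.ell e ≤ eInt D.v e D.gk := by
  have h4 := hL e he.1
  calc D.ell e ≤ ENNReal.ofReal (W₄ D.toPD0) * (16 * eInt D.v e (fun x =>
        (Ω.indicator (fun x => ‖cl (F x)‖ₑ) x) + ENNReal.ofReal (D.M + D.C + 1))) := by
        unfold ell
        gcongr
    _ = eInt D.v e (fun x => ENNReal.ofReal (16 * W₄ D.toPD0) *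
        ((Ω.indicator (fun x => ‖cl (F x)‖ₑ) x) + ENNReal.ofReal (D.M + D.C + 1))) := by
        rw [eInt_const_mul _ _ ENNReal.ofReal_ne_top, ← mul_assoc]
        congr 1
        rw [ENNReal.ofReal_mul (by norm_num), mul_comm]
        simp
    _ = _ := D.eInt_rep e (fun _ a => ENNReal.ofReal (16 * W₄ D.toPD0) *
        (a + ENNReal.ofReal (D.M + D.C + 1)))

/-- **kept edges in the good cells** -/
theorem ell_kept (R : RefOut Ω D.v D.n D.k₁ D.k₀ D.J D.Bg D.nf) (hL : D.KeyLen)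
    {e : Idx × Fin 3} (he : MinEdge D.v D.I e)
    (h : ∃ z ∈ D.J, edge D.v e ⊆ dyc D.v D.n z ∧
      Disjoint (edge D.v e) (interior (boxR D.v D.n D.k₁ z))) :
    D.ell e ≤ eInt D.v e D.gk := by
  obtain ⟨z, hz, h1, h2⟩ := h
  exact D.ell_of_We hL he (D.We_kept R hz h1 h2)

/-- **edges in the edges of the tiles which touch the good cells** -/
theorem ell_tch (R : RefOut Ω D.v D.n D.k₁ D.k₀ D.J D.Bg D.nf) (hL : D.KeyLen)
    {e E : Idx × Fin 3} (he : MinEdge D.v D.I e) {u : Fin 3 → ℤ}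
    (hu : Tch D.v D.n (D.n + D.k₁ + D.k₀) D.J u) (hE : EdgeOf E (D.n + D.k₁ + D.k₀, u))
    (hsub : edge D.v e ⊆ edge D.v E)
    (h2 : ∀ z ∈ D.J, Disjoint (edge D.v e) (interior (boxB D.v D.n D.k₁ z))) :
    D.ell e ≤ eInt D.v e D.gk :=
  D.ell_of_We hL he (D.We_tch R hu hE hsub h2)

/-- the energy density on the edges of the tiles which touch the good cells -/
theorem own_gk {u : Fin 3 → ℤ} (hu : Tch D.v D.n (D.n + D.k₁ + D.k₀) D.J u)
    {e : Idx × Fin 3} (hE : EdgeOf e (D.n + D.k₁ + D.k₀, u)) :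
    eInt D.v e (fun x => D.gk x ^ p) ≤
      Kk2 D.toPD0 p * ENNReal.ofReal (1 / 2 ^ (D.n + D.k₁ + D.k₀)) := by
  have hp1 : 1 ≤ p := by linarith [D.hp]
  have hp0 : 0 < p := by linarith
  have h1 := D.own u hu e hE
  have he : e.1.1 = D.n + D.k₁ + D.k₀ := hE.1
  have hC := D.C0
  have hM := D.M0
  calc eInt D.v e (fun x => D.gk x ^ p)
      ≤ eInt D.v e (fun x => ENNReal.ofReal (16 * W₄ D.toPD0) ^ p * (2 ^ (p - 1) *
          (D.G x + ENNReal.ofReal (D.M + D.C + 1) ^ p))) := by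
        refine eInt_mono_on fun x _ => ?_
        unfold gk
        rw [ENNReal.mul_rpow_of_nonneg _ _ hp0.le]
        gcongr
        refine (ENNReal.rpow_add_le_mul_rpow_add_rpow _ _ hp1).trans ?_
        gcongr
        rw [← ENNReal.rpow_mul, one_div, inv_mul_cancel₀ hp0.ne', ENNReal.rpow_one]
    _ = ENNReal.ofReal (16 * W₄ D.toPD0) ^ p * (2 ^ (p - 1) *
          (eInt D.v e D.G + ENNReal.ofReal (1 / 2 ^ e.1.1) *
            ENNReal.ofReal (D.M + D.C + 1) ^ p)) := by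
        rw [eInt_const_mul _ _ (ENNReal.rpow_ne_top_of_nonneg hp0.le ENNReal.ofReal_ne_top),
          eInt_const_mul _ _ (ENNReal.rpow_ne_top_of_nonneg (by linarith) (by norm_num)),
          eInt_add_cst]
    _ ≤ ENNReal.ofReal (16 * W₄ D.toPD0) ^ p * (2 ^ (p - 1) *
          (ENNReal.ofReal ((D.M ^ p + 1) / 2 ^ (D.n + D.k₁ + D.k₀)) +
            ENNReal.ofReal (1 / 2 ^ e.1.1) * ENNReal.ofReal (D.M + D.C + 1) ^ p)) := by gcongr
    _ = _ := by
        have e1 : ENNReal.ofReal ((D.M ^ p + 1) / 2 ^ (D.n + D.k₁ + D.k₀)) =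
            ENNReal.ofReal (D.M ^ p + 1) * ENNReal.ofReal (1 / 2 ^ (D.n + D.k₁ + D.k₀)) := by
          rw [← ENNReal.ofReal_mul (by positivity)]
          congr 1
          ring
        rw [he, e1]
        unfold Kk2
        generalize ENNReal.ofReal (1 / 2 ^ (D.n + D.k₁ + D.k₀)) = a
        generalize ENNReal.ofReal (16 * W₄ D.toPD0) ^ p = b
        generalize (2:ℝ≥0∞) ^ (p - 1) = c
        ring

/-- every edge of generation `N` in a good cell is an edge of a touching tile -/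
theorem own_gk' {z : Fin 3 → ℤ} (hz : z ∈ D.J) {e : Idx × Fin 3}
    (he : e.1.1 = D.n + D.k₁ + D.k₀) (hs : edge D.v e ⊆ dyc D.v D.n z) :
    eInt D.v e (fun x => D.gk x ^ p) ≤
      Kk2 D.toPD0 p * ENNReal.ofReal (1 / 2 ^ (D.n + D.k₁ + D.k₀)) := by
  have hE : EdgeOf e (D.n + D.k₁ + D.k₀, e.1.2) := ⟨he, rfl, fun _ _ => Or.inl rfl⟩
  obtain ⟨x, hx⟩ := H333.PD.edge_nonempty D.v e
  exact D.own_gk ⟨z, hz, x, Gr.edge_subset_dyc hE hx, hs hx⟩ hE

theorem edge_sub4 (R : RefOut Ω D.v D.n D.k₁ D.k₀ D.J D.Bg D.nf) {e : Idx × Fin 3}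
    (he : MinEdge D.v D.I e) : edge D.v e ⊆ Ω := by
  obtain ⟨⟨r, hr, her⟩, -⟩ := he
  exact (Gr.edge_subset_dyc her).trans (R.part.sub r hr)

/-- case E1 -/
theorem len_net4 {e : Idx × Fin 3} (hsub : edge D.v e ⊆ Ω)
    (h1 : ∃ r ∈ In2 D.toPD0 D.Bg D.nf, EdgeOf e r)
    (h2 : ∀ z ∈ D.J, Disjoint (edge D.v e) (interior (boxB D.v D.n D.k₁ z))) :
    len (onSeg D.h.toFun (segP D.v e)) (Icc 0 1) ≤
      16 * eInt D.v e (Ω.indicator fun x => ‖cl (F x)‖ₑ) + ENNReal.ofReal (2 * D.δe e) := by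
  refine (H687.len_onSeg_le D.h hsub).trans ?_
  have h3 := D.net.len e h1 h2
  have h4 : eInt D.v e (fun x => ENNReal.ofReal ‖cl (F x) (ev e.2)‖) ≤
      eInt D.v e (Ω.indicator fun x => ‖cl (F x)‖ₑ) := by
    refine eInt_mono_on fun x hx => ?_
    rw [indicator_of_mem (hsub hx)]
    exact clm_ev_le _ _
  calc 2 * eInt D.v e (fun x => ENNReal.ofReal ‖lineDeriv ℝ D.h.toFun x (ev e.2)‖)
      ≤ 2 * (8 * eInt D.v e (Ω.indicator fun x => ‖cl (F x)‖ₑ) + ENNReal.ofReal (D.δe e)) := by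
        gcongr
        refine h3.trans ?_
        gcongr
    _ = _ := by
        rw [ENNReal.ofReal_mul (by norm_num : (0:ℝ) ≤ 2), show ENNReal.ofReal 2 = 2 by simp]
        ring

/-- case E2 -/
theorem len_box4 {e : Idx × Fin 3} (hsub : edge D.v e ⊆ Ω) {z : Fin 3 → ℤ} (hz : z ∈ D.J)
    (h1 : edge D.v e ⊆ boxR D.v D.n D.k₁ z) :
    len (onSeg D.h.toFun (segP D.v e)) (Icc 0 1) ≤ 2 * eInt D.v e (fun _ => ‖D.L z‖ₑ) := by
  refine (H687.len_onSeg_le D.h hsub).trans ?_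
  gcongr
  have h2 : ∀ x ∈ edge D.v e, D.h.toFun x = D.A z x := fun x hx =>
    D.net.box z hz x (h1 hx)
  have h3 := H333.eInt_congr_edge h2 (fun _ w => ENNReal.ofReal ‖w‖)
  rw [h3]
  refine eInt_mono_on fun x _ => ?_
  have h4 : lineDeriv ℝ (D.A z) x (ev e.2) = D.L z (ev e.2) := by
    have h5 : (fun t : ℝ => D.A z (x + t • ev e.2)) = fun t => D.A z x + t • D.L z (ev e.2) := by
      funext t
      have := D.aff z x (x + t • ev e.2)
      rw [add_sub_cancel_left, map_smul] at this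
      rw [← this]; abel
    unfold lineDeriv
    rw [h5]
    have h6 : HasDerivAt (fun t : ℝ => D.A z x + t • D.L z (ev e.2))
        ((1:ℝ) • D.L z (ev e.2)) 0 := by
      exact ((hasDerivAt_id (0:ℝ)).smul_const _).const_add _
    rw [h6.deriv, one_smul]
  rw [h4]
  exact clm_ev_le _ _

/-- **divided edges** -/
theorem ell_div (R : RefOut Ω D.v D.n D.k₁ D.k₀ D.J D.Bg D.nf) {e : Idx × Fin 3}
    (he : MinEdge D.v D.I e) (hd : D.Div e)
    (hO : ∀ x ∈ edge D.v e, x ∈ Oc D.Bx D.A) : D.ell e ≤ eInt D.v e D.gD := by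
  have hp0 : 0 < p := by linarith [D.hp]
  have ha := D.a0
  have ha' : 0 ≤ 2 / D.a₁ := by positivity
  have hsub := D.edge_sub4 R he
  have hW : D.We e = 2 / D.a₁ * wst2 D.toPD0 f e := by unfold We; rw [if_pos hd]
  obtain ⟨⟨r, hr, her⟩, -⟩ := id he
  have hwst : 0 ≤ wst2 D.toPD0 f e := ENNReal.toReal_nonneg
  -- the weight
  have hw : ∀ x ∈ edge D.v e, ENNReal.ofReal (D.We e) ≤
      ENNReal.ofReal (2 / D.a₁) * (2178 * D.wg (D.fs x)) := fun x hx => by
    rw [hW, ENNReal.ofReal_mul ha']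
    gcongr
    exact D.wst_le hx
  unfold ell
  -- E2
  have E2 : ∀ z ∈ D.J, edge D.v e ⊆ boxR D.v D.n D.k₁ z →
      ENNReal.ofReal (D.We e) * len (onSeg D.h.toFun (segP D.v e)) (Icc 0 1) ≤
        eInt D.v e D.gD := by
    intro z hz h1
    calc ENNReal.ofReal (D.We e) * len (onSeg D.h.toFun (segP D.v e)) (Icc 0 1)
        ≤ ENNReal.ofReal (D.We e) * (2 * eInt D.v e (fun _ => ‖D.L z‖ₑ)) := by
          gcongr
          exact D.len_box4 hsub hz h1
      _ = eInt D.v e (fun _ => (ENNReal.ofReal (D.We e) * 2) * ‖D.L z‖ₑ) := by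
          rw [eInt_const_mul _ _ (ENNReal.mul_ne_top ENNReal.ofReal_ne_top (by norm_num))]
          ring
      _ ≤ _ := by
          refine eInt_mono_on fun x hx => ?_
          unfold gD
          have h2 : D.Gs p x ^ (1 / p) = ‖D.L z‖ₑ := by
            unfold PD0.Gs
            rw [H194.Gs_in hz (h1 hx), indicator_of_mem (hO x hx), ← ENNReal.rpow_mul,
              mul_one_div, div_self hp0.ne', ENNReal.rpow_one]
          rw [h2]
          refine le_trans ?_ le_self_add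
          calc ENNReal.ofReal (D.We e) * 2 * ‖D.L z‖ₑ
              ≤ ENNReal.ofReal (2 / D.a₁) * (2178 * D.wg (D.fs x)) * 16 * ‖D.L z‖ₑ := by
                gcongr
                · exact hw x hx
                · norm_num
            _ = _ := by
                unfold cK
                rw [show (34848:ℝ≥0∞) = 2178 * 16 by norm_num]
                ring
  rcases R.edge_inet e ⟨r, hr, her⟩ with ⟨h1, h2⟩ | ⟨z, hz, h1⟩ | ⟨h1, z, hz, h2, -⟩
  · -- E1
    have hout : ∀ x ∈ edge D.v e, ∀ z ∈ D.J, x ∉ boxR D.v D.n D.k₁ z := fun x hx z hz hxz =>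
      Set.disjoint_left.1 (h2 z hz) hx (boxR_sub_int _ _ _ _ hxz)
    calc ENNReal.ofReal (D.We e) * len (onSeg D.h.toFun (segP D.v e)) (Icc 0 1)
        ≤ ENNReal.ofReal (D.We e) * (16 * eInt D.v e (Ω.indicator fun x => ‖cl (F x)‖ₑ) +
            ENNReal.ofReal (2 * D.δe e)) := by
          gcongr
          exact D.len_net4 hsub h1 h2
      _ = eInt D.v e (fun x => (ENNReal.ofReal (D.We e) * 16) *
            (Ω.indicator (fun x => ‖cl (F x)‖ₑ) x)) +
            ENNReal.ofReal (D.We e * (2 * D.δe e)) := by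
          rw [eInt_const_mul _ _ (ENNReal.mul_ne_top ENNReal.ofReal_ne_top (by norm_num)),
            ENNReal.ofReal_mul (p := D.We e) (by rw [hW]; positivity)]
          ring
      _ ≤ eInt D.v e (fun x => (ENNReal.ofReal (D.We e) * 16) *
            (Ω.indicator (fun x => ‖cl (F x)‖ₑ) x)) +
            ENNReal.ofReal (1 / 2 ^ e.1.1) * ENNReal.ofReal D.β := by
          gcongr
          rw [← ENNReal.ofReal_mul (by positivity)]
          apply ENNReal.ofReal_le_ofReal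
          rw [hW]
          refine (D.δ2 e).trans (le_of_eq ?_)
          ring
      _ = eInt D.v e (fun x => (ENNReal.ofReal (D.We e) * 16) *
            (Ω.indicator (fun x => ‖cl (F x)‖ₑ) x) + ENNReal.ofReal D.β) := by
          rw [eInt_add_cst]
      _ ≤ eInt D.v e (fun x => cK D.a₁ * (D.wg (D.fs x) *
            (Ω.indicator (fun x => ‖cl (F x)‖ₑ) x)) + ENNReal.ofReal D.β) := by
          refine eInt_mono_on fun x hx => ?_
          gcongr ?_ + _
          calc ENNReal.ofReal (D.We e) * 16 * (Ω.indicator (fun x => ‖cl (F x)‖ₑ) x)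
              ≤ ENNReal.ofReal (2 / D.a₁) * (2178 * D.wg (D.fs x)) * 16 *
                  (Ω.indicator (fun x => ‖cl (F x)‖ₑ) x) := by
                gcongr
                exact hw x hx
            _ = _ := by
                unfold cK
                rw [show (34848:ℝ≥0∞) = 2178 * 16 by norm_num]
                ring
      _ = eInt D.v e (fun x => cK D.a₁ * (D.wg (D.fs x) * (D.G x ^ (1 / p))) +
            ENNReal.ofReal D.β) :=
          D.eInt_rep e (fun x a => cK D.a₁ * (D.wg (D.fs x) * a) + ENNReal.ofReal D.β)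
      _ ≤ _ := by
          refine eInt_mono_on fun x hx => ?_
          unfold gD
          have h3 : D.Gs p x = D.G x := by
            unfold PD0.Gs
            exact H194.Gs_out (hout x hx)
          rw [h3]
  · exact E2 z hz h1
  · -- E3
    obtain ⟨s, -, hes, q, hq, hsq⟩ := hd
    rcases D.fs_div R hq with ⟨h3, -⟩ | ⟨z', hz', h3, -⟩
    · exfalso
      obtain ⟨x, hx⟩ := H333.PD.edge_nonempty D.v e
      exact Set.disjoint_left.1 (h3 z hz) (hsq (hes hx))
        (P86.dyo_sub_dyc (boxB_sub_dyo _ _ _ _ (h2 hx)))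
    · exact E2 z' hz' fun x hx => h3 (hsq (hes hx))

end PE

end Vale.Agent.P073.H340
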