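import Vale.Agent.P073.H333.PEa2
import Vale.Agent.P073.H333.SpecPre
import Vale.Agent.P073.H234.Final2
import Vale.Agent.P073.H340.PEd

/-!
# P073, [PRE-2]: **SpecPre** for the exponent two, without hypotheses
-/

namespace Vale.Agent.P073.H333

theorem netInP2' : NetInP2' :=
  H234.netInP2'_of PA285.netOutN (H234.cellMod_of _root_.P073.H399.specCellE)

/-- **[E9-A]** -/
theorem specPEa : H340.SpecPEa 2 := specPEa_of netInP2'

/-- **SpecPre**, `p = 2` -/
theorem specPre_two : H73.SpecPre 2 := H340.specPre_of_a le_rfl (by norm_num) specPEa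

/-- **SpecPre**, `2 ≤ p < 3` -/
theorem specPre_all {p : ℝ} (hp : 2 ≤ p) (hp3 : p < 3) : H73.SpecPre p := by
  rcases hp.eq_or_lt with h | h
  · subst h
    exact specPre_two
  · exact specPre h hp3

end Vale.Agent.P073.H333
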