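import Vale.Agent.P073.H333.PreBeamA
import Vale.Agent.P073.H523.BeamDefs
import Vale.Agent.P073.H16.RectB
import Vale.Agent.P073.H439.EnerB
import Vale.Agent.P073.H687.TW
import Vale.Agent.P073.H761.SmTools
import Vale.Agent.P073.H83.BxLem

/-!
# P073, rank one, [PRE-BEAM]: the data `PreBeam` are built (helper333)
-/

namespace Vale.Agent.P073.H333

open MeasureTheory Set Filter Topology Metric Vale.Agent.P073.St Vale.Agent.P073.AB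
open Vale.Agent.P073.SQ (ev)
open Vale.Agent.P073.H73 (MinEdge segP onSeg ctr)
open Vale.Agent.P073.H194 (sInt Gen idx up RgN KRN FlatOut gW cW refine wH)
open Vale.Agent.P073.H235 (Bx bm fl Co Fr P1 cmpD cmp Kc measurable_tw surfM surfM_compl
  lintegral_surfM exists_pow_le half_pow_le isHomeo_comp exists_deep deep_image tile_of_deep
  gen_of_deep infDist_near eSum)
open Vale.Agent.P073.H253 (rectN redgeN ledge xL BVData PreBeam)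
open Vale.Agent.P073.H732 (upz XL lineM lineM_compl lintegral_lineM)
open Vale.Agent.P073.H471 (zt st)
open Vale.Agent.P073.H523 (POutB SpecBuildB)
open _root_.P073 (ConHomeo)
open _root_.P073.Net (len dyc dyo IsTile SizeFn)
open scoped ENNReal

set_option maxHeartbeats 1000000 in
/-- **the data are built** -/
theorem preBeam_build {p C θ₁ θ₂ ν₁ ν τ ε δ κ εP η b : ℝ} (hp : 1 ≤ p) (hp3 : p < 3)
    (hθ₁ : 0 < θ₁) (hθ₁4 : θ₁ ≤ 1 / 4) (hθ₂ : 0 < θ₂) (hθ₂4 : θ₂ ≤ 1 / 4) (hν₁ : 0 < ν₁)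
    (hν : 0 < ν) (hε : 0 < ε) (hδ : 0 < δ) (hη : 0 < η) (hb : 0 < b) (hb1 : b ≤ 1) (hκ : 0 < κ)
    {m₀ : ℕ} {Λ : Set V} {f : V → V} {F : V → Mat}
    (hΛ : St.IsBoundedDomain Λ) (hhom : St.IsHomeo (Bx (bm θ₁ θ₂)) Λ (cmp (bm θ₁ θ₂) f))
    (D : BVData p θ₁ θ₂ κ m₀ Λ f F) {α β : Fin 3 → ℤ} (hα : α 1 = D.B₁)
    (hlt : ∀ j, j ≠ 1 → α j < β j) (hRg : RgN 1 D.v m₀ α β ⊆ Bx (bm θ₁ θ₂))
    (hun : (β 0 - α 0 : ℝ) / 2 ^ m₀ ≤ 1) (hwd : (β 2 - α 2 : ℝ) / 2 ^ m₀ ≤ 2 * θ₂)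
    (hB₂ : D.B₂ ∈ Icc (α 2) (β 2))
    (hcov : ∀ x ∈ Bx (fl θ₂) ∩ Co (fl θ₂) (ν₁ / 2) {0, 2}, ∀ j, j ≠ 1 →
      D.v j + α j / 2 ^ m₀ ≤ x j ∧ x j ≤ D.v j + β j / 2 ^ m₀)
    (P : POutB D (α 0) (β 0) εP) (hmτ : 1 / 2 ^ m₀ ≤ τ)
    (N1 : cW p 8 * (36 * (Kc p 5 * (ENNReal.ofReal (2 ^ p) * (ENNReal.ofReal κ +
      ENNReal.ofReal (4 * θ₁ * θ₂)))) + ENNReal.ofReal η) ≤ ENNReal.ofReal (C * θ₁ * θ₂))
    (N2 : cW p 8 * (36 * (Kc p 5 * (ENNReal.ofReal (2 ^ p) * (ENNReal.ofReal κ +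
      ENNReal.ofReal (64 * ν₁ * θ₁ * θ₂)))) + ENNReal.ofReal η) ≤
      ENNReal.ofReal (C * ν₁ * θ₁ * θ₂))
    (N3 : 2 * cW p 8 * (Kc p 5 * (ENNReal.ofReal (2 ^ p) * (ENNReal.ofReal κ +
      ENNReal.ofReal (2 * θ₂))) + ENNReal.ofReal η) ≤ ENNReal.ofReal (C * θ₂))
    (N4 : 2 * cW p 8 * (Kc p 5 * (ENNReal.ofReal (2 ^ p) * (ENNReal.ofReal κ +
      ENNReal.ofReal (40 * ν * θ₂))) + ENNReal.ofReal η) ≤ ENNReal.ofReal (C * ν * θ₂))
    (N5 : cW p 8 * (Kc p 5 * (ENNReal.ofReal (2 ^ p) * (ENNReal.ofReal κ +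
      ENNReal.ofReal εP))) ≤ ENNReal.ofReal ε)
    (N6 : 4 ^ p * (κ + b) ≤ ε) (N7 : 1149984 ≤ C) :
    Nonempty (PreBeam p C θ₁ θ₂ ν₁ ν τ ε δ Λ f) := by
  classical
  obtain ⟨E1, E2, E3, E4, -, E6, E7⟩ :=
    H439.EN.specEnerB p θ₁ θ₂ κ m₀ Λ f F hp hθ₁ hθ₁4 hθ₂ hθ₂4 D
  have hUd : St.IsBoundedDomain (Bx (bm θ₁ θ₂)) := H761.isBoundedDomain_Bx fun i => by
    fin_cases i <;> simp [bm, hθ₁, hθ₂]
  set U : Set V := Bx (bm θ₁ θ₂) with hU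
  set fc : V → V := cmp (bm θ₁ θ₂) f with hfc
  set Fc : V → Mat := cmpD (bm θ₁ θ₂) F with hFc
  set G : V → ℝ≥0∞ := fun x => D.H x + H194.Bk 1 x with hG
  set v := D.v with hv
  -- the base partition
  obtain ⟨nθ, -, hnθ⟩ := exists_pow_le (show 0 < ν₁ * (2 * θ₂) by positivity) 0
  set n₀ := max m₀ nθ with hn₀
  obtain ⟨-, hI₀, hgen, -, -⟩ := AB.specTiles U n₀ v hUd.1 (AB.S293.isBounded_of hUd)
    hUd.2.1.nonempty
  set I₀ : Set Idx := tiles U n₀ v with hI₀def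
  have hm : ∀ q ∈ I₀, m₀ ≤ q.1 := fun q hq => (le_max_left _ _).trans (hgen q hq)
  have hKf : (KRN 1 v I₀ m₀ α β).Finite := H194.KRN_finite hI₀ hRg
  -- the good edges
  obtain ⟨nP, hP⟩ := P
  obtain ⟨nν, -, hnν⟩ := exists_pow_le hν 0
  obtain ⟨n₃, hn₃P, hn₃m, hn₃ν, hn₃q⟩ : ∃ n₃ : ℕ, nP ≤ n₃ ∧ m₀ ≤ n₃ ∧ nν ≤ n₃ ∧
      ∀ q ∈ KRN 1 v I₀ m₀ α β, q.1 ≤ n₃ := by
    refine ⟨max nP (max m₀ (max nν (hKf.toFinset.sup fun q : Idx => q.1))), le_max_left _ _,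
      (le_max_left _ _).trans (le_max_right _ _),
      ((le_max_left _ _).trans (le_max_right _ _)).trans (le_max_right _ _), fun q hq => ?_⟩
    have h1 := Finset.le_sup (f := fun q : Idx => q.1) ((Finite.mem_toFinset hKf).2 hq)
    exact h1.trans (((le_max_right _ _).trans (le_max_right _ _)).trans (le_max_right _ _))
  have hn₃ν' : (1:ℝ) / 2 ^ n₃ ≤ ν := (half_pow_le hn₃ν).trans hnν
  obtain ⟨G₃, mt₀, K, hKΛ, hK, hG₃, hG₃a, hT⟩ := hP n₃ hn₃P hn₃m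
  set R₃ := rectN 1 (up m₀ n₃ α) (up m₀ n₃ β) with hR₃
  set F₃ := R₃.filter fun k => v 0 + k 0 / 2 ^ n₃ ≤ 5 * ν ∨ 1 - 5 * ν ≤ v 0 + k 0 / 2 ^ n₃
    with hF₃
  have hF₃R : F₃ ⊆ R₃ := Finset.filter_subset _ _
  -- the corners of the rectangle
  have hcor : (fun j => if j = 1 then v 1 + α 1 / 2 ^ m₀ else v j + α j / 2 ^ m₀ : V) ∈
      RgN 1 v m₀ α β := by
    refine ⟨by simp, fun j hj => ?_⟩
    simp only [if_neg hj]
    refine ⟨le_rfl, ?_⟩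
    have h1 : (α j : ℝ) ≤ β j := by exact_mod_cast (hlt j hj).le
    have h2 : (α j : ℝ) / 2 ^ m₀ ≤ β j / 2 ^ m₀ := by gcongr
    linarith
  have hcor' : (fun j => if j = 1 then v 1 + α 1 / 2 ^ m₀ else v j + β j / 2 ^ m₀ : V) ∈
      RgN 1 v m₀ α β := by
    refine ⟨by simp, fun j hj => ?_⟩
    simp only [if_neg hj]
    refine ⟨?_, le_rfl⟩
    have h1 : (α j : ℝ) ≤ β j := by exact_mod_cast (hlt j hj).le
    have h2 : (α j : ℝ) / 2 ^ m₀ ≤ β j / 2 ^ m₀ := by gcongr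
    linarith
  have hα0 : 0 ≤ v 0 + α 0 / 2 ^ m₀ := by
    have := ((hRg hcor) 0).1
    simpa using this.le
  have hβ0 : v 0 + β 0 / 2 ^ m₀ ≤ 1 := by
    have := ((hRg hcor') 0).2
    have e : bm θ₁ θ₂ 0 = 1 := by simp [bm]
    rw [e] at this
    simpa using this.le
  obtain ⟨hc1, hc2, hc3⟩ := H16.specCountB v m₀ n₃ α β (2 * θ₂) hn₃m hlt hun hwd
  have hF₃c : (F₃.card : ℝ) / 4 ^ n₃ ≤ 40 * ν * θ₂ := by
    have := hc2 (5 * ν) (by linarith) hα0 hβ0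
    refine (le_trans ?_ this).trans (le_of_eq (by ring))
    exact le_rfl
  have hR₃U : ∀ k ∈ R₃, squ v ((n₃, k), 1) ⊆ U := fun k hk =>
    (H194.squ_sub_RgN (H194.sc_up hn₃m α β) hk).trans hRg
  -- the line
  set K₁ : ℤ := upz m₀ n₃ D.B₁ with hK₁
  set K₂ : ℤ := upz m₀ n₃ D.B₂ with hK₂
  set J₃ := Finset.Ico (upz m₀ n₃ (α 0)) (upz m₀ n₃ (β 0)) with hJ₃
  set bad := J₃ \ G₃ with hbad
  have hledge : ∀ n, m₀ ≤ n → ∀ k ∈ Finset.Ico (upz m₀ n (α 0)) (upz m₀ n (β 0)),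
      (![k, upz m₀ n D.B₁, upz m₀ n D.B₂] : Fin 3 → ℤ) ∈
        redgeN 1 (up m₀ n α) (up m₀ n β) 0 := by
    intro n hn k hk
    rw [H194.mem_redgeN (by decide)]
    rw [Finset.mem_Ico] at hk
    have h2 : (0:ℤ) ≤ 2 ^ (n - m₀) := by positivity
    refine ⟨?_, ?_, fun j hj hj' => ?_⟩
    · show upz m₀ n D.B₁ = 2 ^ (n - m₀) * α 1
      rw [hα]; rfl
    · exact hk
    · have hj2 : j = 2 := by
        fin_cases j
        · exact absurd rfl hj'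
        · exact absurd rfl hj
        · rfl
      subst hj2
      exact ⟨mul_le_mul_of_nonneg_left hB₂.1 h2, mul_le_mul_of_nonneg_left hB₂.2 h2⟩
  have hledgeR : ∀ n, m₀ ≤ n → ∀ k ∈ Finset.Ico (upz m₀ n (α 0)) (upz m₀ n (β 0)),
      edge v (ledge n (upz m₀ n D.B₁) (upz m₀ n D.B₂) k) ⊆ RgN 1 v m₀ α β := fun n hn k hk =>
    H194.edge_sub_RgN (H194.sc_up hn α β) (by decide) (hledge n hn k hk)
  have hJ₃U : ∀ k ∈ J₃, edge v (ledge n₃ K₁ K₂ k) ⊆ U := fun k hk =>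
    (hledgeR n₃ hn₃m k hk).trans hRg
  have hbadU : ∀ k ∈ bad, edge v (ledge n₃ K₁ K₂ k) ⊆ U := fun k hk =>
    hJ₃U k (Finset.sdiff_subset hk)
  have hupm : ∀ z, upz m₀ m₀ z = z := by
    intro z
    simp [upz]
  have hline₀ : ∀ k ∈ Finset.Ico (α 0) (β 0), edge v (ledge m₀ D.B₁ D.B₂ k) ⊆ U := by
    intro k hk
    have := hledgeR m₀ le_rfl k (by rw [hupm, hupm]; exact hk)
    rw [hupm, hupm] at this
    exact this.trans hRg
  have hJ₃c : (J₃.card : ℝ) / 2 ^ n₃ = (β 0 - α 0 : ℝ) / 2 ^ m₀ := by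
    obtain ⟨d, hd⟩ := Nat.exists_eq_add_of_le hn₃m
    have h2 : (0:ℤ) ≤ 2 ^ d := by positivity
    have h0 := hlt 0 (by decide)
    have h1 : ((J₃.card : ℤ) : ℝ) = 2 ^ d * (β 0 - α 0) := by
      rw [hJ₃, Int.card_Ico]
      have h3 : upz m₀ n₃ (β 0) - upz m₀ n₃ (α 0) = 2 ^ d * (β 0 - α 0) := by
        unfold upz
        rw [hd, Nat.add_sub_cancel_left]
        ring
      rw [h3, Int.toNat_of_nonneg (mul_nonneg h2 (by linarith))]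
      push_cast
      ring
    rw [Int.cast_natCast] at h1
    rw [h1, hd, pow_add]
    field_simp
  have hbadc : (bad.card : ℝ) / 2 ^ n₃ ≤ εP := by
    rw [hbad, Finset.card_sdiff_of_subset hG₃, Nat.cast_sub (Finset.card_le_card hG₃), sub_div,
      hJ₃c]
    exact hG₃a
  -- the compact set in the target
  have hfΛ : ∀ x ∈ U, fc x ∈ Λ := by
    obtain ⟨g, hg, -, -⟩ := hhom
    exact fun x hx => (hg.1 x hx).1
  have hfcc : ContinuousOn fc U := by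
    obtain ⟨g, -, hg, -⟩ := hhom
    exact hg
  obtain ⟨d, hd0, hdK⟩ := exists_deep hΛ (hK.union
    ((H194.isCompact_RgN 1 v m₀ α β).image_of_continuousOn (hfcc.mono hRg)))
    (union_subset hKΛ (by
      rintro _ ⟨x, hx, rfl⟩
      exact hfΛ x (hRg hx)))
  obtain ⟨mt, hmt₀, hmt⟩ := exists_pow_le (lt_min hε (show 0 < d / 8 by positivity)) mt₀
  have hmtε : (1:ℝ) / 2 ^ mt ≤ ε := hmt.trans (min_le_left _ _)
  have hmtd : 8 * ((1:ℝ) / 2 ^ mt) ≤ d := by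
    have := hmt.trans (min_le_right _ _)
    linarith
  obtain ⟨T, r, hr, hT1, hT2, hT3, hT4⟩ := hT mt hmt₀ (min δ (1 / 8)) (lt_min hδ (by norm_num))
  have hpm : (0:ℝ) < 1 / 2 ^ mt := by positivity
  -- the centres
  set ρ := rho Λ mt with hρd
  have hρ : SizeFn Λ ρ := (AB.specTiles Λ mt 0 hΛ.1 (AB.S293.isBounded_of hΛ)
    hΛ.2.1.nonempty).1
  have hfT := isHomeo_comp hhom T
  have hfTc : ContinuousOn (T.toFun ∘ fc) U := by
    obtain ⟨g, -, hg, -⟩ := hfT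
    exact hg
  have hGm : Measurable G := D.meas.add (H194.measurable_Bk 1)
  have hGf : ∫⁻ x, G x ≠ ⊤ := by
    rw [hG, lintegral_add_left D.meas]
    exact ENNReal.add_ne_top.2 ⟨D.fin, H194.lintegral_Bk 1⟩
  have hgood0 := H235.ae_goodC0 hp3 hUd.1 hΛ.1 hfT hGm hGf D.mono (D.gk 1).2
    (H235.planes_comp hhom T hT2 D.planes)
  set Rf : Set V := U ∩ Fr (bm θ₁ θ₂) (3 * (4 / 3 * ν₁)) {0, 2} with hRf
  have hUm : MeasurableSet U := hUd.1.measurableSet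
  have hRfm : MeasurableSet Rf := hUm.inter (H83.measurableSet_fr _ _ _)
  set μ : Fin 5 → Measure V := ![volume.restrict U, volume.restrict Rf, surfM v n₃ 1 R₃,
    surfM v n₃ 1 F₃, lineM v n₃ K₁ K₂ bad] with hμ
  have hμs : ∀ j, SFinite (μ j) := by
    intro j
    fin_cases j
    · show SFinite (volume.restrict U); infer_instance
    · show SFinite (volume.restrict Rf); infer_instance
    · show SFinite (surfM v n₃ 1 R₃); infer_instance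
    · show SFinite (surfM v n₃ 1 F₃); infer_instance
    · show SFinite (lineM v n₃ K₁ K₂ bad); infer_instance
  have hres : ∀ R ⊆ U, (volume.restrict R) Uᶜ = 0 := by
    intro R hR
    rw [Measure.restrict_apply hUm.compl]
    have : Uᶜ ∩ R = ∅ := by
      rw [Set.eq_empty_iff_forall_notMem]
      rintro x ⟨h1, h2⟩
      exact h1 (hR h2)
    rw [this, measure_empty]
  have hsC : ∀ Q ⊆ R₃, surfM v n₃ 1 Q Uᶜ = 0 := fun Q hQ =>
    surfM_compl hUm fun k hk => hR₃U k (hQ hk)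
  have hμ0 : ∀ j, μ j Uᶜ = 0 := by
    intro j
    fin_cases j
    · exact hres U subset_rfl
    · exact hres Rf inter_subset_left
    · exact hsC R₃ subset_rfl
    · exact hsC F₃ hF₃R
    · exact lineM_compl hUm hbadU
  obtain ⟨cc, hcc, hgood, hcb⟩ := H235.exists_centers_mu hρ (by linarith : (0:ℝ) ≤ p) μ hUm hμ0
    hfTc hGm hgood0
  rw [Fintype.card_fin] at hcb
  have hcb0 : ∫⁻ x in U, tw ρ cc ((T.toFun ∘ fc) x) ^ p * G x ≤ Kc p 5 * ∫⁻ x in U, G x := hcb 0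
  have hcb1 : ∫⁻ x in Rf, tw ρ cc ((T.toFun ∘ fc) x) ^ p * G x ≤ Kc p 5 * ∫⁻ x in Rf, G x :=
    hcb 1
  have hcbS : ∀ Q ⊆ R₃, (∫⁻ x, tw ρ cc ((T.toFun ∘ fc) x) ^ p * G x ∂(surfM v n₃ 1 Q) ≤
      Kc p 5 * ∫⁻ x, G x ∂(surfM v n₃ 1 Q)) →
      ∑ k ∈ Q, sInt v ((n₃, k), 1) (fun x => tw ρ cc ((T.toFun ∘ fc) x) ^ p * G x) ≤
      Kc p 5 * ∑ k ∈ Q, sInt v ((n₃, k), 1) G := by
    intro Q hQ h2
    have h1 : AEMeasurable (T.toFun ∘ fc) (surfM v n₃ 1 Q) :=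
      H235.aemeasurable_of_U hUm (hsC Q hQ) hfTc
    have h3 : AEMeasurable (fun x => tw ρ cc ((T.toFun ∘ fc) x) ^ p * G x)
      (surfM v n₃ 1 Q) :=
      (((measurable_tw ρ cc).comp_aemeasurable h1).pow_const p).mul hGm.aemeasurable
    rw [lintegral_surfM h3, lintegral_surfM hGm.aemeasurable] at h2
    exact h2
  have hcb2 := hcbS R₃ subset_rfl (hcb 2)
  have hcb3 := hcbS F₃ hF₃R (hcb 3)
  have hcb4 : ∑ k ∈ bad, eInt v (ledge n₃ K₁ K₂ k)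
      (fun x => tw ρ cc ((T.toFun ∘ fc) x) ^ p * G x) ≤
      Kc p 5 * ∑ k ∈ bad, eInt v (ledge n₃ K₁ K₂ k) G := by
    have h1 : AEMeasurable (T.toFun ∘ fc) (lineM v n₃ K₁ K₂ bad) :=
      H235.aemeasurable_of_U hUm (lineM_compl hUm hbadU) hfTc
    have h2 : ∫⁻ x, tw ρ cc ((T.toFun ∘ fc) x) ^ p * G x ∂(lineM v n₃ K₁ K₂ bad) ≤
      Kc p 5 * ∫⁻ x, G x ∂(lineM v n₃ K₁ K₂ bad) := hcb 4
    have h3 : AEMeasurable (fun x => tw ρ cc ((T.toFun ∘ fc) x) ^ p * G x)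
      (lineM v n₃ K₁ K₂ bad) :=
      (((measurable_tw ρ cc).comp_aemeasurable h1).pow_const p).mul hGm.aemeasurable
    rw [lintegral_lineM h3, lintegral_lineM hGm.aemeasurable] at h2
    exact h2
  -- the numbers `e q`
  obtain ⟨eq, heq0, heqs⟩ := ENNReal.exists_pos_sum_of_countable'
    (show ENNReal.ofReal η ≠ 0 from (ENNReal.ofReal_pos.2 hη).ne') Idx
  -- the list of squares
  set S : Finset ((Idx × Fin 3) × Fin 3) := (R₃ ×ˢ (Finset.univ.erase (1 : Fin 3))).image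
    fun kj => (((n₃, kj.1), 1), kj.2) with hS
  have hSm : ∀ k ∈ R₃, ∀ j, j ≠ 1 → ((((n₃, k), 1), j) : (Idx × Fin 3) × Fin 3) ∈ S := by
    intro k hk j hj
    rw [hS, Finset.mem_image]
    exact ⟨(k, j), Finset.mem_product.2 ⟨hk, Finset.mem_erase.2 ⟨hj, Finset.mem_univ _⟩⟩, rfl⟩
  have hSok : ∀ s ∈ S, s.2 ≠ s.1.2 ∧ ∃ q ∈ KRN 1 v I₀ m₀ α β, squ v s.1 ⊆ dyc v q.1 q.2 ∧
      ∀ q ∈ I₀, Disjoint (squ v s.1) (dyo v q.1 q.2) := by
    intro s hs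
    rw [hS, Finset.mem_image] at hs
    obtain ⟨⟨k, j⟩, hkj, rfl⟩ := hs
    obtain ⟨hk, hj⟩ := Finset.mem_product.1 hkj
    obtain ⟨⟨q, hq, h1⟩, h2⟩ := list_okN hI₀ hn₃m hRg hm hn₃q hk
    exact ⟨Finset.ne_of_mem_erase hj, q, hq, h1, h2⟩
  set δ₁ : ℝ≥0∞ := ENNReal.ofReal (η / (R₃.card + 1)) with hδ₁
  have hδ₁0 : δ₁ ≠ 0 := (ENNReal.ofReal_pos.2 (by positivity)).ne'
  have hδ₁s : ∀ Q ⊆ R₃, (Q.card : ℝ≥0∞) * δ₁ ≤ ENNReal.ofReal η := by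
    intro Q hQ
    have h1 : (Q.card : ℝ) ≤ R₃.card := by exact_mod_cast Finset.card_le_card hQ
    rw [hδ₁, ← ENNReal.ofReal_natCast, ← ENNReal.ofReal_mul (Nat.cast_nonneg _)]
    apply ENNReal.ofReal_le_ofReal
    rw [mul_div_assoc', div_le_iff₀ (by positivity)]
    nlinarith [(Nat.cast_nonneg Q.card : (0:ℝ) ≤ Q.card)]
  -- the mesh
  obtain ⟨nε, -, hnε⟩ := exists_pow_le hε 0
  obtain ⟨B, τm, nf, nS, h₀, hN, hth, H, hclose, hr0, hbd, hder, hlen⟩ :=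
    H235.exists_mesh hp hUd hΛ hhom D.mono D.rat hGm hGf (D.gk 1).1
      (A := fun x => D.H x ^ (1 / p)) (fun e he => H235.edge_dens hp D.rep D.eq D.gen.efin e he)
      hT2 hK hKΛ hT1 hρ hcc hgood hI₀ hδ (fun q => (heq0 q).ne') hKf
      (fun q hq => hq.1) hSok hδ₁0 (lt_min hr hpm) hb hb1 (fun _ => 0) (max nε n₃)
  have hn₃S : n₃ ≤ nS := (le_max_right _ _).trans hN
  have hmS : m₀ ≤ nS := hn₃m.trans hn₃S
  have hfine : (1:ℝ) / 2 ^ nS ≤ ε := (half_pow_le ((le_max_left _ _).trans hN)).trans hnε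
  set a := up m₀ nS α with ha
  set bb := up m₀ nS β with hbb
  set m₂ : ℤ := upz m₀ nS D.B₂ with hm₂
  have ha1 : a 1 = upz m₀ nS D.B₁ := by
    show 2 ^ (nS - m₀) * α 1 = _
    rw [hα]; rfl
  have ha0 : a 0 = upz m₀ nS (α 0) := rfl
  have hb0 : bb 0 = upz m₀ nS (β 0) := rfl
  set I := refine v I₀ ∅ B nf with hI
  have hminE : ∀ i, i ≠ 1 → ∀ k ∈ redgeN 1 a bb i, MinEdge v I ((nS, k), i) :=
    fun i hi k hk => H.minEN hRg hm hmS hi hk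
  -- the errors on the line
  have hXl := H732.specXL p θ₁ θ₂ κ m₀ Λ f F hp hκ D (α 0) (β 0) (hlt 0 (by decide)) hun hline₀
    nS hmS h₀ T b hb hb1 hT3 (fun k hk => hder (ledge nS _ _ k)
      (hminE 0 (by decide) _ (hledge nS hmS k hk)).1)
  obtain ⟨hX1, hX2⟩ := hXl
  -- the sums over the cells
  have hp0 : p ≠ 0 := by linarith
  have hAG : ∀ x ∈ U, (D.H x ^ (1 / p)) ^ p + (1 : ℝ≥0∞) ^ p ≤ G x := by
    intro x hx
    rw [one_div, ENNReal.rpow_inv_rpow hp0, ENNReal.one_rpow]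
    show D.H x + 1 ≤ D.H x + H194.Bk 1 x
    rw [E2 x hx]
  have hHI : ∀ R ⊆ U, MeasurableSet R → ∀ g : ℝ, volume R ≤ ENNReal.ofReal g →
      ∫⁻ x in R, G x ≤ ENNReal.ofReal (2 ^ p) * (ENNReal.ofReal κ + ENNReal.ofReal g) := by
    intro R hR hRm g hg
    refine (E1 R hR hRm).trans ?_
    gcongr
    exact (lintegral_mono_set hR).trans D.small
  have hes : ∑' q, eq q ≤ ENNReal.ofReal η := heqs.le
  have h8 : (8 : ℝ≥0∞) ≠ ⊤ := by norm_num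
  set ℓ : Idx × Fin 3 → ℝ≥0∞ := fun e' => eInt v e' (gW ρ cc (T.toFun ∘ fc) 8
    (fun x => D.H x ^ (1 / p)) 1) with hℓ
  have hbulk : eSum p v I ℓ univ ≤ ENNReal.ofReal (C * θ₁ * θ₂) :=
    (H235.eSum_bound H hp hUd.1 hI₀ h8 hAG (H235.union_univ hI₀) hcb0
      (hHI U subset_rfl hUm _ E3) hes).trans N1
  have hframe : eSum p v I ℓ (Fr (bm θ₁ θ₂) (3 * ν₁) {0, 2}) ≤
      ENNReal.ofReal (C * ν₁ * θ₁ * θ₂) := by
    refine (H235.eSum_bound H hp hUd.1 hI₀ h8 hAG (union_frameB hI₀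
      (fun q hq => (le_max_right _ _).trans (hgen q hq)) hν₁ hθ₂4 hnθ) hcb1
      (hHI Rf inter_subset_left hRfm (64 * ν₁ * θ₁ * θ₂) ?_) hes).trans N2
    refine (E4 (4 / 3 * ν₁) (by positivity)).trans (le_of_eq ?_)
    congr 1
    ring
  -- the sums on the plane
  have hplane : ∀ (Q : Finset (Fin 3 → ℤ)) (g : ℝ), Q ⊆ R₃ → (Q.card : ℝ) / 4 ^ n₃ ≤ g →
      ∑ k ∈ Q, sInt v ((n₃, k), 1) G ≤
        ENNReal.ofReal (2 ^ p) * (ENNReal.ofReal κ + ENNReal.ofReal g) := by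
    intro Q g hQ hg
    refine (E6 n₃ Q fun k hk => hR₃U k (hQ hk)).trans ?_
    gcongr
    calc ∑ k ∈ Q, sInt v ((n₃, k), 1) D.H₁ ≤ ∑ k ∈ R₃, sInt v ((n₃, k), 1) D.H₁ :=
          Finset.sum_le_sum_of_subset hQ
      _ = ∑ k ∈ rectN 1 α β, sInt v ((m₀, k), 1) D.H₁ := hc3 _ D.meas₁
      _ ≤ _ := D.slice _ fun k hk => ⟨by rw [(H194.mem_rectN.1 hk).1, hα],
          (H194.squ_sub_RgN (a := α) (b := β) ⟨le_rfl, by simp, by simp⟩ hk).trans hRg⟩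
  have hSc : H194.Sc n₃ nS (up m₀ n₃ α) (up m₀ n₃ β) a bb := by
    rw [ha, hbb, up_trans hn₃m hn₃S α, up_trans hn₃m hn₃S β]
    exact H194.sc_up hn₃S _ _
  have hlt₃ : ∀ j, j ≠ 1 → up m₀ n₃ α j < up m₀ n₃ β j := fun j hj =>
    mul_lt_mul_of_pos_left (hlt j hj) (by positivity)
  have hTU : ∀ i, i ≠ 1 → ∀ k ∈ redgeN 1 a bb i, edge v ((nS, k), i) ⊆ U := fun i hi k hk =>
    (H194.edge_sub_RgN (H194.sc_up hmS α β) hi hk).trans hRg
  have hplB : ∑ i ∈ Finset.univ.erase (1 : Fin 3), ∑ k ∈ redgeN 1 a bb i,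
      ENNReal.ofReal (1 / 2 ^ nS) * (ENNReal.ofReal ((1 / 2 ^ nS) ^ (1 - p)) *
        ℓ ((nS, k), i) ^ p) ≤ ENNReal.ofReal (C * θ₂) := by
    refine (plane_bound H hp h8 hAG (T := fun i => redgeN 1 a bb i) (Q := R₃) hTU
      (fun i hi k hk => H194.redge_cover hSc hi hlt₃ hk)
      (fun i hi κ' hκ' => hSm κ' hκ' i hi) hcb2).trans (le_trans ?_ N3)
    gcongr
    · exact hplane R₃ (2 * θ₂) subset_rfl hc1
    · exact hδ₁s R₃ subset_rfl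
  have hplF : ∑ i ∈ Finset.univ.erase (1 : Fin 3), ∑ k ∈ redgeN 1 a bb i with
      v 0 + k 0 / 2 ^ nS ≤ 4 * ν ∨ 1 - 4 * ν ≤ v 0 + k 0 / 2 ^ nS,
      ENNReal.ofReal (1 / 2 ^ nS) * (ENNReal.ofReal ((1 / 2 ^ nS) ^ (1 - p)) *
        ℓ ((nS, k), i) ^ p) ≤ ENNReal.ofReal (C * ν * θ₂) := by
    refine (plane_bound H hp h8 hAG (T := fun i => (redgeN 1 a bb i).filter fun k =>
      v 0 + k 0 / 2 ^ nS ≤ 4 * ν ∨ 1 - 4 * ν ≤ v 0 + k 0 / 2 ^ nS) (Q := F₃)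
      (fun i hi k hk => hTU i hi k (Finset.filter_subset _ _ hk))
      (fun i hi k hk => ?_)
      (fun i hi κ' hκ' => hSm κ' (hF₃R hκ') i hi) hcb3).trans (le_trans ?_ N4)
    · obtain ⟨hk1, hk2⟩ := Finset.mem_filter.1 hk
      obtain ⟨κ', hκ', hk3⟩ := H194.redge_cover hSc hi hlt₃ hk1
      exact ⟨κ', Finset.mem_filter.2 ⟨hκ', strip_cover hn₃ν' hn₃S (by decide) hk3 hk2⟩, hk3⟩
    · gcongr
      · exact hplane F₃ (40 * ν * θ₂) hF₃R hF₃c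
      · exact hδ₁s F₃ hF₃R
  -- the parents on the line
  set Gd := (Finset.Ico (a 0) (bb 0)).filter fun k => k / 2 ^ (nS - n₃) ∈ G₃ with hGd
  have hpar : ∀ k ∈ Finset.Ico (a 0) (bb 0), k / 2 ^ (nS - n₃) ∈ J₃ := by
    intro k hk
    rw [ha0, hb0, upz_trans hn₃m hn₃S, upz_trans hn₃m hn₃S] at hk
    exact H16.mem_Ico_up.1 hk
  have hparE : ∀ k, edge v (ledge nS (a 1) m₂ k) ⊆
      edge v (ledge n₃ K₁ K₂ (k / 2 ^ (nS - n₃))) := by
    intro k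
    obtain ⟨d', hd'⟩ := Nat.exists_eq_add_of_le hn₃S
    have h1 := H16.ledge_sub (v := v) (m := n₃) (d := d') (k₁ := K₁) (k₂ := K₂) (k := k) rfl
    rw [ha1, hm₂, upz_trans hn₃m hn₃S, upz_trans hn₃m hn₃S]
    have h2 : nS - n₃ = d' := by omega
    rw [h2, hd']
    exact h1
  have hbadsum : ∑ k ∈ Finset.Ico (a 0) (bb 0) \ Gd,
      ENNReal.ofReal ((1 / 2 ^ nS) ^ (1 - p)) * ℓ (ledge nS (a 1) m₂ k) ^ p ≤
      ENNReal.ofReal ε := by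
    have h1 := line_bound hp h8 hUd.1 hfTc hGm hAG hn₃S hbadU
      (T := Finset.Ico (a 0) (bb 0) \ Gd) (fun k hk => by
        rw [Finset.mem_sdiff, hGd, Finset.mem_filter] at hk
        exact Finset.mem_sdiff.2 ⟨hpar k hk.1, fun h3 => hk.2 ⟨hk.1, h3⟩⟩) hcb4
    have h2 : ∑ k ∈ bad, eInt v (ledge n₃ K₁ K₂ k) G ≤
        ENNReal.ofReal (2 ^ p) * (ENNReal.ofReal κ + ENNReal.ofReal εP) := by
      refine ((E7 n₃ K₁ K₂ bad hbadU).1).trans ?_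
      gcongr
      obtain ⟨d', hd'⟩ := Nat.exists_eq_add_of_le hn₃m
      have h3 := H732.sum_ledge v m₀ d' D.B₁ D.B₂ (α 0) (β 0) D.meas₁
      have h4 : ∀ z, upz m₀ n₃ z = 2 ^ d' * z := by
        intro z
        unfold upz
        rw [hd', Nat.add_sub_cancel_left]
      calc ∑ k ∈ bad, eInt v (ledge n₃ K₁ K₂ k) D.H₁
          ≤ ∑ k ∈ J₃, eInt v (ledge n₃ K₁ K₂ k) D.H₁ :=
            Finset.sum_le_sum_of_subset Finset.sdiff_subset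
        _ = ∑ z ∈ Finset.Ico (α 0) (β 0), eInt v (ledge m₀ D.B₁ D.B₂ z) D.H₁ := by
            rw [← h3, hJ₃, hK₁, hK₂, h4, h4, h4, h4, hd']
        _ ≤ _ := D.line _ hline₀
    refine le_trans ?_ (h1.trans (le_trans ?_ N5))
    · rw [ha1, hm₂, upz_trans hn₃m hn₃S D.B₁, upz_trans hn₃m hn₃S D.B₂]
    · gcongr
  -- the target
  have hdeep : ∀ x ∈ RgN 1 v m₀ α β, ∀ y ∈ Λ, ‖y - fc x‖ ≤ 1 / 2 ^ mt →
      d - 1 / 2 ^ mt ≤ infDist (T.toFun y) Λᶜ := fun x hx y hy hyx =>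
    deep_image T hKΛ hT1 hpm.le hdK hy (mem_image_of_mem _ hx) hyx
  have hsub : ∀ k ∈ Finset.Ico (a 0) (bb 0), edge v (ledge nS (a 1) m₂ k) ⊆
      RgN 1 v m₀ α β := by
    intro k hk
    rw [ha1]
    exact hledgeR nS hmS k hk
  have htile : ∀ k ∈ Finset.Ico (a 0) (bb 0), ∀ x ∈ edge v (ledge nS (a 1) m₂ k),
      ∀ z : Fin 3 → ℤ, (∃ y ∈ dyc 0 mt z, ‖(h₀.trans T).toFun x - y‖ ≤ 4 / 2 ^ mt) →
        IsTile ρ 0 mt z := by
    rintro k hk x hx z ⟨y, hy, hxy⟩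
    have hxR := hsub k hk hx
    have hxU := hRg hxR
    have h1 := hdeep x hxR _ (h₀.mapsTo hxU) ((hr0 x hxU).trans (min_le_right _ _))
    have h2 := infDist_near (x := y) (b := 4 / 2 ^ mt) h1 (by rw [norm_sub_rev]; exact hxy)
    refine tile_of_deep hΛ hy le_rfl (le_trans ?_ h2)
    have e1 : (2:ℝ) / 2 ^ mt = 2 * (1 / 2 ^ mt) := by ring
    have e2 : (4:ℝ) / 2 ^ mt = 4 * (1 / 2 ^ mt) := by ring
    rw [e1, e2]
    linarith
  have htube : ∀ k ∈ Gd, ∃ t : Fin 3 → ℤ, ∀ x ∈ edge v (ledge nS (a 1) m₂ k), ∀ j, j ≠ 0 →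
      |(h₀.trans T).toFun x j - t j / 2 ^ mt| ≤ δ / 2 ^ mt := by
    intro k hk
    rw [hGd, Finset.mem_filter] at hk
    obtain ⟨t, ht⟩ := hT4 _ hk.2
    refine ⟨t, fun x hx j hj => ?_⟩
    have hxU := hRg (hsub k hk.1 hx)
    refine (ht x (hparE k hx) (h₀.toFun x) (h₀.mapsTo hxU)
      ((hr0 x hxU).trans (min_le_left _ _)) j hj).trans ?_
    gcongr
    exact min_le_left _ _
  have hgd : ∀ k ∈ Gd, ℓ (ledge nS (a 1) m₂ k) ≤ ENNReal.ofReal C *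
      (ENNReal.ofReal (1 / 2 ^ nS) + XL θ₁ θ₂ v F b (ledge nS (a 1) m₂ k)) := by
    intro k hk
    rw [hGd, Finset.mem_filter] at hk
    obtain ⟨t, ht⟩ := hT4 _ hk.2
    have h1 : ∀ x ∈ edge v (ledge nS (a 1) m₂ k), tw ρ cc ((T.toFun ∘ fc) x) ≤ 33 := by
      intro x hx
      have hxR := hsub k hk.1 hx
      have hxU := hRg hxR
      have h2 := ht x (hparE k hx) (fc x) (hfΛ x hxU) (by
        rw [hfc, sub_self, norm_zero]; exact hr.le) 1 (by decide)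
      have h3 := hdeep x hxR (fc x) (hfΛ x hxU) (by rw [sub_self, norm_zero]; exact hpm.le)
      refine H687.tw_near (t := t 1) hρ hcc (fun m z hz hyz => gen_of_deep hΛ hz hyz
        (a := d - 1 / 2 ^ mt) ?_ h3) 1 (h2.trans ?_)
      · have e1 : (2:ℝ) / 2 ^ mt = 2 * (1 / 2 ^ mt) := by ring
        rw [e1]; linarith
      · gcongr
        exact min_le_right _ _
    refine (H235.gW_bound h1).trans ?_
    have h2 := (hX1 k hk.1).2.2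
    rw [← ha1, ← hm₂] at h2
    calc 574992 * eInt v (ledge nS (a 1) m₂ k) (fun x => D.H x ^ (1 / p) + 1)
        ≤ 574992 * (2 * (ENNReal.ofReal (1 / 2 ^ nS) +
            XL θ₁ θ₂ v F b (ledge nS (a 1) m₂ k))) := by gcongr
      _ = 1149984 * (ENNReal.ofReal (1 / 2 ^ nS) +
            XL θ₁ θ₂ v F b (ledge nS (a 1) m₂ k)) := by
          rw [← mul_assoc]; norm_num
      _ ≤ _ := by
          gcongr
          calc (1149984 : ℝ≥0∞) = ENNReal.ofReal 1149984 := by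
                rw [ENNReal.ofReal_ofNat]
            _ ≤ _ := ENNReal.ofReal_le_ofReal N7
  have hdiv1 : v 1 + (a 1 : ℝ) / 2 ^ nS = v 1 + D.B₁ / 2 ^ m₀ := by
    rw [ha, (H194.sc_up hmS α β).div_a 1, hα]
  have hdiv2 : v 2 + (m₂ : ℝ) / 2 ^ nS = v 2 + D.B₂ / 2 ^ m₀ := by
    obtain ⟨d', hd'⟩ := Nat.exists_eq_add_of_le hmS
    rw [hm₂]
    unfold upz
    rw [hd', Nat.add_sub_cancel_left, pow_add]
    push_cast
    field_simp
  exact ⟨{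
    v := v
    ρ := ρ
    size := hρ
    c := cc
    cmem := hcc
    I := I
    part := H.part
    h := h₀.trans T
    bd := hbd
    cond := H.cond hclose
    ℓ := ℓ
    len := H.len_le hUd.1 hclose h8 hlen
    bulk := hbulk
    frame := hframe
    nS := nS
    fine := hfine
    a := a
    b := bb
    alt := fun i hi => by
      show 2 ^ (nS - m₀) * α i < 2 ^ (nS - m₀) * β i
      exact mul_lt_mul_of_pos_left (hlt i hi) (by positivity)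
    unit := by
      rw [sub_div, ha, hbb, (H194.sc_up hmS α β).div_a 0, (H194.sc_up hmS α β).div_b 0, ← sub_div]
      exact hun
    mid₁ := by rw [hdiv1]; exact D.mid₁.trans hmτ
    plane := fun q hq x hx => H.planeN hm hmS hq hx
    minS := fun k hk => H.minSN hRg hm hmS hk
    minE := hminE
    cov := fun x hx => H194.cov_rectN (H194.sc_up hmS α β) x hlt (hcov x hx)
    plBulk := hplB
    plFrame := hplF
    m₂ := m₂
    m₂mem := by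
      have h2 : (0:ℤ) ≤ 2 ^ (nS - m₀) := by positivity
      exact ⟨mul_le_mul_of_nonneg_left hB₂.1 h2, mul_le_mul_of_nonneg_left hB₂.2 h2⟩
    mid₂ := by rw [hdiv2]; exact D.mid₂.trans hmτ
    mt := mt
    mtε := hmtε
    tile := htile
    G := Gd
    Gsub := Finset.filter_subset _ _
    tube := htube
    bad := hbadsum
    X := fun k => XL θ₁ θ₂ v F b (ledge nS (a 1) m₂ k)
    near := fun k hk => by
      have := (hX1 k hk).2.1
      rw [← ha1, ← hm₂] at this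
      exact this
    good := hgd
    close := by
      have := hX2.trans (ENNReal.ofReal_le_ofReal N6)
      rw [← ha1, ← hm₂] at this
      exact this }⟩

/-- **[BUILD-B]** -/
theorem specBuildB {p : ℝ} (hp : 1 ≤ p) (hp3 : p < 3) : SpecBuildB p := by
  intro C θ₁ θ₂ ν₁ ν τ ε δ κ εP η b hθ₁ hθ₁4 hθ₂ hθ₂4 hν₁ hν₁ν hν hν4 hε hδ hη hb hb1 hκ m₀ Λ f F
    hΛ hhom D α β hα hlt hRg hun hwd hB₂ _ hcov P hmτ N1 N2 N3 N4 N5 N6 N7
  refine preBeam_build hp hp3 hθ₁ hθ₁4 hθ₂ hθ₂4 hν₁ hν hε hδ hη hb hb1 hκ hΛ hhom D hα hlt hRg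
    hun hwd hB₂ hcov P hmτ N1 N2 (le_trans ?_ N3) (le_trans ?_ N4) (le_trans ?_ N5) N6 N7
  · gcongr
    norm_num
  · gcongr
    · norm_num
    · norm_num
  · calc cW p 8 * (Kc p 5 * (ENNReal.ofReal (2 ^ p) * (ENNReal.ofReal κ + ENNReal.ofReal εP)))
        ≤ cW p 8 * (Kc p 5 * (ENNReal.ofReal (2 ^ p) * (ENNReal.ofReal κ +
          ENNReal.ofReal εP)) + ENNReal.ofReal η) := by
          gcongr
          exact le_self_add
      _ ≤ 4 * cW p 8 * (Kc p 5 * (ENNReal.ofReal (2 ^ p) * (ENNReal.ofReal κ +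
          ENNReal.ofReal εP)) + ENNReal.ofReal η) := by
          gcongr
          exact le_mul_of_one_le_left zero_le (by norm_num)

end Vale.Agent.P073.H333
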