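import Vale.Agent.P073.H333.ChoiceD
import Vale.Agent.P073.H333.NetIn2
import Vale.Agent.P073.H73.PreSpec
import Vale.Agent.P073.H194.MeshDefs
import Vale.Agent.P073.H471.TileSt

/-!
# P073, block A15-PRE: common definitions

* `lay`, `gap`, `core`, `out`, `base`: the base partition;
* `inet`: the partition for `NetIn2`;
* `tw`: the weight at a point of the target;
* `Hs`: the weighted energy density.
-/

namespace Vale.Agent.P073.H333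

open MeasureTheory Set Filter Topology Metric Vale.Agent.P073.St Vale.Agent.P073.AB
open Vale.Agent.P073.SQ (ev)
open _root_.P073 (ConHomeo)
open _root_.P073.Net (dyc dyo IsTile SizeFn)
open Vale.Agent.P073.H194 (refine Big)
open Vale.Agent.P073.H73 (MinEdge Bix)
open scoped ENNReal

/-- fine layer of the good cells -/
def lay (v : V) (n k₁ k₀ : ℕ) (J : Finset (Fin 3 → ℤ)) : Set Idx :=
  {r | r.1 = n + k₁ + k₀ ∧ ∃ z ∈ J, dyc v r.1 r.2 ⊆ dyc v n z ∧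
    ¬ dyc v r.1 r.2 ⊆ boxB v n k₁ z}

/-- the gap -/
def gap (v : V) (n k₁ : ℕ) (J : Finset (Fin 3 → ℤ)) : Set Idx :=
  {r | r.1 = n + k₁ ∧ ∃ z ∈ J, dyc v r.1 r.2 ⊆ boxB v n k₁ z ∧ ¬ dyc v r.1 r.2 ⊆ boxR v n k₁ z}

/-- the exact part -/
def core (v : V) (n k₁ : ℕ) (J : Finset (Fin 3 → ℤ)) : Set Idx :=
  {r | r.1 = n + k₁ ∧ ∃ z ∈ J, dyc v r.1 r.2 ⊆ boxR v n k₁ z}

/-- outside of the good cells -/
def out (Ω : Set V) (v : V) (n k₁ k₀ : ℕ) (J : Finset (Fin 3 → ℤ)) : Set Idx :=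
  {r | r ∈ tiles Ω (n + k₁ + k₀) v ∧ ∀ z ∈ J, ¬ dyc v r.1 r.2 ⊆ dyc v n z}

/-- the base partition -/
def base (Ω : Set V) (v : V) (n k₁ k₀ : ℕ) (J : Finset (Fin 3 → ℤ)) : Set Idx :=
  out Ω v n k₁ k₀ J ∪ lay v n k₁ k₀ J ∪ gap v n k₁ J ∪ core v n k₁ J

/-- the partition for `NetIn2` -/
def inet (Ω : Set V) (v : V) (n k₁ k₀ : ℕ) (J : Finset (Fin 3 → ℤ)) (I : Set Idx) : Set Idx :=
  {r | r ∈ tiles Ω (n + k₁ + k₀) v ∧ ∃ z ∈ J, dyc v r.1 r.2 ⊆ dyc v n z} ∪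
    {r | r ∈ I ∧ ∀ z ∈ J, ¬ dyc v r.1 r.2 ⊆ dyc v n z}

/-- the weight at a point of the target -/
noncomputable def tw (ρ : V → ℝ) (c : ℕ → (Fin 3 → ℤ) → V) (y : V) : ℝ≥0∞ :=
  H471.wgt (H471.zt ρ 0) (H471.st ρ 0) (fun i => c i.1.1 i.1.2) y

/-- the energy density: weighted energy of `f` outside of the open boxes `B`, weighted energy of
`A z` in the boxes `R`, the constant `D` in between -/
noncomputable def Hs (p : ℝ) (D : ℝ≥0∞) (ρ : V → ℝ) (c : ℕ → (Fin 3 → ℤ) → V) (v : V) (n k₁ : ℕ)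
    (J : Finset (Fin 3 → ℤ)) (A : (Fin 3 → ℤ) → V → V) (L : (Fin 3 → ℤ) → V →L[ℝ] V) (f : V → V)
    (F : V → Mat) (x : V) : ℝ≥0∞ := by
  classical
  exact if h : ∃ z ∈ J, x ∈ boxR v n k₁ z then (tw ρ c (A h.choose x) * ‖L h.choose‖ₑ) ^ p
    else if ∃ z ∈ J, x ∈ interior (boxB v n k₁ z) then D
    else (tw ρ c (f x) * ‖cl (F x)‖ₑ) ^ p

end Vale.Agent.P073.H333
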