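import Vale.Agent.P073.H333.ChoiceD
import Vale.Agent.P073.H83.Gen
import Vale.Agent.P073.H83.AeRep
import Vale.Agent.P073.PK.Choice5

/-!
# P073, block A15-PRE: the generic origin
-/

namespace Vale.Agent.P073.H333

open MeasureTheory Set Filter Topology Metric Vale.Agent.P073.St Vale.Agent.P073.AB
open Vale.Agent.P073.SQ (ev)
open _root_.P073.Net (dyc dyo)
open Vale.Agent.P073.H79 (EdgeLeb)
open Vale.Agent.P073.H194 (idx Gen GenPt sInt)
open Vale.Agent.P073.H83 (GenB)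
open scoped ENNReal

theorem gen_comp {v : V} {nn : ℕ → ℕ} {H : V → ℝ≥0∞} (h : Gen v nn H) {φ : ℕ → ℕ}
    (hφ : StrictMono φ) : Gen v (fun l => nn (φ l)) H :=
  ⟨h.efin, h.sfin, fun q k δ hδ => hφ.tendsto_atTop.eventually (h.cube q k δ hδ),
    fun s k hk δ hδ => hφ.tendsto_atTop.eventually (h.square s k hk δ hδ)⟩

theorem genB_comp {v : V} {nn : ℕ → ℕ} {H : V → ℝ≥0∞} (h : GenB v nn H) {φ : ℕ → ℕ}
    (hφ : StrictMono φ) : GenB v (fun l => nn (φ l)) H :=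
  ⟨h.efin, h.sfin, fun s k hk δ hδ => hφ.tendsto_atTop.eventually (h.square s k hk δ hδ),
    fun q δ hδ => hφ.tendsto_atTop.eventually (h.faces q δ hδ)⟩

/-- everything that is needed from the origin -/
structure Generic (p : ℝ) (Ω : Set V) (f : V → V) (F : V → Mat) (G : V → ℝ≥0∞) (nn : ℕ → ℕ)
    (v : V) : Prop where
  rat : RatGood v Ω f F
  eleb : ∀ᵐ x : V, EdgeLeb v nn (Ω.indicator fun x => cl (F x)) x
  plebs : ∀ᵐ x : V, EdgeLeb v nn (Ω.indicator fun x => ‖cl (F x)‖ ^ p) x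
  gen : Gen v nn G
  genB : GenB v nn G
  ball : ∀ k : ℕ, Gen v nn ((closedBall (0:V) k).indicator fun _ => 1) ∧
    GenB v nn ((closedBall (0:V) k).indicator fun _ => 1)
  rep : ∀ A A' : V → ℝ≥0∞, (∀ x, (Ω.indicator fun x => ‖cl (F x)‖ₑ ^ p) x = G x → A x = A' x) →
    (∀ e, eInt v e A = eInt v e A') ∧ ∀ s, sInt v s A = sInt v s A'

theorem exists_generic' {p : ℝ} (hp : 1 ≤ p) {Ω Λ : Set V} (hΩ : St.IsBoundedDomain Ω)
    {f : V → V} {F : V → Mat} (hf : St.IsHomeo Ω Λ f) (hF : St.IsSobolev p Ω f F)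
    {P : V → Prop} (hP : ∀ᵐ v : V, P v) :
    ∃ G : V → ℝ≥0∞, Measurable G ∧ ∫⁻ x, G x ≠ ⊤ ∧
      (∀ᵐ x, (Ω.indicator fun x => ‖cl (F x)‖ₑ ^ p) x = G x) ∧
      ∃ nn : ℕ → ℕ, StrictMono nn ∧ ∃ v : V, P v ∧ Generic p Ω f F G nn v := by
  have hp0 : 0 < p := by linarith
  have hv := PK.volume_ne_top_of_domain hΩ
  have hfc : ContinuousOn f Ω := by obtain ⟨g, -, h, -⟩ := hf; exact h
  set G₀ : V → ℝ≥0∞ := Ω.indicator fun x => ‖cl (F x)‖ₑ ^ p with hG₀
  have hm0 : AEMeasurable G₀ := by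
    rw [hG₀, aemeasurable_indicator_iff hΩ.1.measurableSet]
    exact (PK.IsSob.aesm hF).enorm.pow_const p
  set G := hm0.mk G₀ with hG
  have hGm : Measurable G := hm0.measurable_mk
  have hGG : ∀ᵐ x, G₀ x = G x := hm0.ae_eq_mk
  have hint : ∫⁻ x, G x ≠ ⊤ := by
    rw [← lintegral_congr_ae hGG, hG₀, lintegral_indicator hΩ.1.measurableSet]
    exact PK.IsSob.lintegral_ne_top hp hF
  refine ⟨G, hGm, hint, hGG, ?_⟩
  -- the countable family
  let H : Option ℕ → V → ℝ≥0∞ := fun o => match o with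
    | none => G
    | some k => (closedBall (0:V) k).indicator fun _ => 1
  obtain ⟨φ₁, hφ₁, h1⟩ := H83.exists_gen (κ := Empty) H ∅ (fun k => k.elim)
    (by
      rintro (_ | k)
      · exact hGm
      · exact measurable_const.indicator measurableSet_closedBall)
    (by
      rintro (_ | k)
      · exact hint
      · show ∫⁻ x, (closedBall (0:V) k).indicator (fun _ => (1:ℝ≥0∞)) x ≠ ⊤
        rw [lintegral_indicator measurableSet_closedBall, setLIntegral_const, one_mul]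
        exact (isCompact_closedBall (0:V) (k:ℝ)).measure_lt_top.ne)
    countable_empty (fun k => k.elim) (fun k => k.elim) strictMono_id
  obtain ⟨φ₂, hφ₂, h2⟩ := H79.exists_edge_leb_sobolev hp hΩ hF hφ₁
  have hint1 : Integrable (Ω.indicator fun x => ‖cl (F x)‖ ^ p) := by
    rw [integrable_indicator_iff hΩ.1.measurableSet]
    have h3 := (PK.IsSob.memLp_cl hF).integrable_norm_rpow (by simpa using hp0)
      ENNReal.ofReal_ne_top
    rwa [ENNReal.toReal_ofReal hp0.le] at h3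
  obtain ⟨φ₃, hφ₃, h3⟩ := H79.exists_edge_leb hint1 (hφ₁.comp hφ₂)
  refine ⟨fun l => φ₁ (φ₂ (φ₃ l)), (hφ₁.comp hφ₂).comp hφ₃, ?_⟩
  have h4 := ae_restrict_of_ae (s := Icc (0:V) 1) (PK.ae_ratGood hp hΩ.1 hv hfc hF)
  have h5 := ae_restrict_of_ae (s := Icc (0:V) 1) (H83.ae_rep (N := {x | ¬ G₀ x = G x}) hGG)
  have h6 := ae_restrict_of_ae (s := Icc (0:V) 1) hP
  have hpos : (volume.restrict (Icc (0:V) 1)) ≠ 0 := by
    rw [Ne, Measure.restrict_eq_zero]
    have : volume (Icc (0:V) 1) = 1 := by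
      rw [Real.volume_Icc_pi]; simp
    rw [this]; exact one_ne_zero
  have : (ae (volume.restrict (Icc (0:V) 1))).NeBot := ae_neBot.2 hpos
  obtain ⟨v, h1, h2, h3, h4, h5, h6⟩ :=
    (h1.and (h2.and (h3.and (h4.and (h5.and h6))))).exists
  refine ⟨v, h6, h4, ?_, ?_, ?_, ?_, fun k => ⟨?_, ?_⟩, ?_⟩
  · filter_upwards [h2] with x hx
    exact hx.comp hφ₃
  · exact h3
  · exact gen_comp (h1.1 none) (hφ₂.comp hφ₃)
  · exact genB_comp (h1.2.1 none) (hφ₂.comp hφ₃)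
  · exact gen_comp (h1.1 (some k)) (hφ₂.comp hφ₃)
  · exact genB_comp (h1.2.1 (some k)) (hφ₂.comp hφ₃)
  · intro A A' hAA
    exact h5 A A' fun x hx => hAA x (by
      by_contra hcon
      exact hx hcon)

theorem exists_generic {p : ℝ} (hp : 1 ≤ p) {Ω Λ : Set V} (hΩ : St.IsBoundedDomain Ω)
    {f : V → V} {F : V → Mat} (hf : St.IsHomeo Ω Λ f) (hF : St.IsSobolev p Ω f F) :
    ∃ G : V → ℝ≥0∞, Measurable G ∧ ∫⁻ x, G x ≠ ⊤ ∧
      (∀ᵐ x, (Ω.indicator fun x => ‖cl (F x)‖ₑ ^ p) x = G x) ∧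
      ∃ nn : ℕ → ℕ, StrictMono nn ∧ ∃ v : V, Generic p Ω f F G nn v := by
  obtain ⟨G, h1, h2, h3, nn, h4, v, -, h5⟩ := exists_generic' hp hΩ hf hF
    (P := fun _ => True) (Eventually.of_forall fun _ => trivial)
  exact ⟨G, h1, h2, h3, nn, h4, v, h5⟩

/-- edges of the fine generation: the energy -/
theorem Generic.own {p : ℝ} {Ω : Set V} {f : V → V} {F : V → Mat} {G : V → ℝ≥0∞}
    {nn : ℕ → ℕ} {v : V} (h : Generic p Ω f F G nn v) (hp : 1 ≤ p) (hΩ : IsOpen Ω)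
    (hnn : StrictMono nn) (j : ℕ) : ∀ᵐ x : V, x ∈ Ω → ∀ᶠ l in atTop,
      ∀ e : Idx × Fin 3, e.1.1 = nn l + j → edge v e ⊆ dyc v (nn l) (idx v (nn l) x) →
        eInt v e G ≤ ENNReal.ofReal ((‖cl (F x)‖ ^ p + 1) / 2 ^ (nn l + j)) := by
  filter_upwards [h.plebs] with x hx hxΩ
  have hδ : ENNReal.ofReal (1 / 2 ^ j) ≠ 0 := by
    rw [Ne, ENNReal.ofReal_eq_zero, not_le]; positivity
  filter_upwards [hx j _ hδ, H79.eventually_dyc_subset hΩ hxΩ v hnn] with l hl hsub e he hes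
  have h1 := hl e he hes
  rw [← ENNReal.ofReal_mul (by positivity)] at h1
  have e1 : (1 / 2 ^ j * (1 / 2 ^ nn l) : ℝ) = 1 / 2 ^ (nn l + j) := by
    rw [pow_add]; field_simp
  rw [e1] at h1
  rw [← (h.rep _ G fun y hy => hy).1 e]
  have h2 : eInt v e (Ω.indicator fun x => ‖cl (F x)‖ₑ ^ p) ≤
      eInt v e (fun y => ‖(Ω.indicator (fun x => ‖cl (F x)‖ ^ p) y) -
        (Ω.indicator (fun x => ‖cl (F x)‖ ^ p) x)‖ₑ + ENNReal.ofReal (‖cl (F x)‖ ^ p)) := by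
    refine eInt_mono' v e fun y => ?_
    by_cases hy : y ∈ Ω
    · rw [indicator_of_mem hy, indicator_of_mem hy, indicator_of_mem hxΩ]
      have e2 : ‖cl (F y)‖ₑ ^ p = ENNReal.ofReal (‖cl (F y)‖ ^ p) := by
        rw [← ENNReal.ofReal_rpow_of_nonneg (norm_nonneg _) (by linarith), ofReal_norm]
      rw [e2, ← ofReal_norm, ← ENNReal.ofReal_add (norm_nonneg _) (by positivity)]
      apply ENNReal.ofReal_le_ofReal
      have := le_abs_self (‖cl (F y)‖ ^ p - ‖cl (F x)‖ ^ p)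
      rw [Real.norm_eq_abs]
      linarith
    · rw [indicator_of_notMem hy]
      exact zero_le
  refine h2.trans ?_
  rw [S293.eInt_add _ _ _ _ aemeasurable_const, S293.eInt_const, he,
    ← ENNReal.ofReal_mul (by positivity)]
  refine (add_le_add_left h1 _).trans ?_
  rw [← ENNReal.ofReal_add (by positivity) (by positivity)]
  apply ENNReal.ofReal_le_ofReal
  exact le_of_eq (by ring)

end Vale.Agent.P073.H333
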