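import Vale.Agent.P073.H333.PDref

/-!
# P073, block A15-PRE: [PD3] lengths of the edges
-/

namespace Vale.Agent.P073.H333

open MeasureTheory Set Filter Topology Metric Vale.Agent.P073.St Vale.Agent.P073.AB
open Vale.Agent.P073.SQ (ev)
open _root_.P073 (ConHomeo)
open _root_.P073.Net (dyc dyo IsTile SizeFn len)
open Vale.Agent.P073.H73 (MinEdge Bix ctr WLe segP onSeg)
open Vale.Agent.P073.H194 (refine Big wH zo so co MeshOut bInt Oc cellT)
open Vale.Agent.P073.H471 (wgt)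
open Vale.Agent.P073.H83 (CellsG gB grho)
open scoped ENNReal

theorem norm_ev (i : Fin 3) : ‖(ev i : V)‖ = 1 := H83.norm_ev' i

theorem clm_ev_le (T : V →L[ℝ] V) (i : Fin 3) : ENNReal.ofReal ‖T (ev i)‖ ≤ ‖T‖ₑ := by
  rw [← ofReal_norm]
  apply ENNReal.ofReal_le_ofReal
  have := T.le_opNorm (ev i)
  rwa [norm_ev, mul_one] at this

theorem eInt_cst (v : V) (e : Idx × Fin 3) (a : ℝ≥0∞) :
    eInt v e (fun _ => a) = ENNReal.ofReal (1 / 2 ^ e.1.1) * a := by
  unfold eInt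
  simp

theorem eInt_add_cst (v : V) (e : Idx × Fin 3) (H : V → ℝ≥0∞) (a : ℝ≥0∞) :
    eInt v e (fun x => H x + a) = eInt v e H + ENNReal.ofReal (1 / 2 ^ e.1.1) * a := by
  rw [← eInt_cst v e a]
  unfold eInt
  rw [← mul_add]
  congr 1
  exact lintegral_add_right _ measurable_const

/-- the weight over the tiles outside of the boxes is smaller -/
theorem wgt_OT_le (ρ : V → ℝ) (c : ℕ → (Fin 3 → ℤ) → V) (Bx : Finset Bix) (y : V) :
    wgt (zo ρ Bx) (so ρ Bx) (co ρ Bx c) y ≤ tw ρ c y := by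
  unfold tw wgt
  gcongr
  exact ENNReal.tsum_comp_le_tsum_of_injective
    (f := fun i : H194.OT ρ Bx => i.1) Subtype.val_injective _

namespace PD

variable {p ε δ : ℝ} {Φ : ℕ → Finset (Fin 3 → ℤ) → ((Fin 3 → ℤ) → V → V) → ℝ}
  {Ω Λ : Set V} {f : V → V} {F : V → Mat} (D : PD p ε δ Φ Ω Λ f F)

theorem edge_sub {e : Idx × Fin 3} (he : MinEdge D.v D.I e) : edge D.v e ⊆ Ω := by
  obtain ⟨⟨r, hr, her⟩, -⟩ := he
  exact (Gr.edge_subset_dyc her).trans (D.part.sub r hr)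

/-- case E1 -/
theorem len_net {e : Idx × Fin 3} (hsub : edge D.v e ⊆ Ω)
    (h1 : ∃ r ∈ D.In D.Bg D.nf, EdgeOf e r)
    (h2 : ∀ z ∈ D.J, Disjoint (edge D.v e) (interior (boxB D.v D.n D.k₁ z))) :
    len (onSeg D.h.toFun (segP D.v e)) (Icc 0 1) ≤
      2 * (eInt D.v e (Ω.indicator fun x => ‖cl (F x)‖ₑ) + ENNReal.ofReal (D.δe e)) := by
  refine (H687.len_onSeg_le D.h hsub).trans ?_
  gcongr
  have h3 := D.net.edges e h1 (by
    rintro ⟨n', z⟩ ⟨hn, hz⟩
    have hn' : n' = D.n := hn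
    subst hn'
    exact h2 z hz)
  refine (eInt_line_le D.rat hsub (D.δ0 e).le (D.efin e hsub) h3.2).trans ?_
  gcongr
  refine eInt_mono_on fun x hx => ?_
  rw [indicator_of_mem (hsub hx)]
  exact clm_ev_le _ _

/-- case E2 -/
theorem len_box {e : Idx × Fin 3} (hsub : edge D.v e ⊆ Ω) {z : Fin 3 → ℤ} (hz : z ∈ D.J)
    (h1 : edge D.v e ⊆ boxR D.v D.n D.k₁ z) :
    len (onSeg D.h.toFun (segP D.v e)) (Icc 0 1) ≤ 2 * eInt D.v e (fun _ => ‖D.L z‖ₑ) := by
  refine (H687.len_onSeg_le D.h hsub).trans ?_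
  gcongr
  have h2 : ∀ x ∈ edge D.v e, D.h.toFun x = D.A z x := fun x hx =>
    D.net.box (D.n, z) ⟨rfl, hz⟩ x (h1 hx)
  have h3 := eInt_congr_edge h2 (fun _ w => ENNReal.ofReal ‖w‖)
  rw [h3]
  refine eInt_mono_on fun x _ => ?_
  have h4 : lineDeriv ℝ (D.A z) x (ev e.2) = D.L z (ev e.2) := by
    have h5 : (fun t : ℝ => D.A z (x + t • ev e.2)) = fun t => D.A z x + t • D.L z (ev e.2) := by
      funext t
      have := D.aff z x (x + t • ev e.2)
      rw [add_sub_cancel_left, map_smul] at this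
      rw [← this]; abel
    unfold lineDeriv
    rw [h5]
    have h6 : HasDerivAt (fun t : ℝ => D.A z x + t • D.L z (ev e.2))
        ((1:ℝ) • D.L z (ev e.2)) 0 := by
      exact ((hasDerivAt_id (0:ℝ)).smul_const _).const_add _
    rw [h6.deriv, one_smul]
  rw [h4]
  exact clm_ev_le _ _

theorem enorm_L_le {z : Fin 3 → ℤ} (hz : z ∈ D.J) : ‖D.L z‖ₑ ≤ ENNReal.ofReal D.M := by
  rw [← ofReal_norm]
  exact ENNReal.ofReal_le_ofReal
    ((D.L z).opNorm_le_bound D.M0.le (D.H.above z hz))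

/-- case E3 -/
theorem len_gap {e : Idx × Fin 3} (hsub : edge D.v e ⊆ Ω) {z : Fin 3 → ℤ} (hz : z ∈ D.J)
    (h1 : e.1.1 = D.n + D.k₁) (h2 : edge D.v e ⊆ boxB D.v D.n D.k₁ z) :
    len (onSeg D.h.toFun (segP D.v e)) (Icc 0 1) ≤
      2 * ENNReal.ofReal (D.C / 2 ^ (D.n + D.k₁)) := by
  refine (H687.len_onSeg_le D.h hsub).trans ?_
  gcongr
  exact D.net.gap (D.n, z) ⟨rfl, hz⟩ e h1 h2

/-- the length of every minimal edge -/
theorem len_all {e : Idx × Fin 3} (he : MinEdge D.v D.I e) :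
    len (onSeg D.h.toFun (segP D.v e)) (Icc 0 1) ≤
      2 * eInt D.v e (fun x => (Ω.indicator (fun x => ‖cl (F x)‖ₑ) x) +
        ENNReal.ofReal (D.M + D.C + 1)) := by
  have hsub := D.edge_sub he
  obtain ⟨⟨r, hr, her⟩, -⟩ := id he
  have hpos : (0:ℝ) < 1 / 2 ^ e.1.1 := by positivity
  have hM := D.M0
  have hC := D.C0
  rcases D.ref.edge_inet hr her with ⟨h1, h2⟩ | ⟨z, hz, h1⟩ | ⟨h1, z, hz, h2, -⟩
  · refine (D.len_net hsub h1 h2).trans ?_
    rw [eInt_add_cst]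
    gcongr
    rw [← ENNReal.ofReal_mul hpos.le]
    apply ENNReal.ofReal_le_ofReal
    have h3 := D.δ1 e
    have h4 : 1 / 2 ^ e.1.1 * 1 ≤ 1 / 2 ^ e.1.1 * (D.M + D.C + 1) := by
      apply mul_le_mul_of_nonneg_left _ hpos.le
      linarith
    linarith
  · refine (D.len_box hsub hz h1).trans ?_
    gcongr
    refine eInt_mono_on fun x _ => ?_
    refine (D.enorm_L_le hz).trans (le_trans ?_ le_add_self)
    apply ENNReal.ofReal_le_ofReal
    linarith
  · refine (D.len_gap hsub hz h1 h2).trans ?_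
    gcongr
    rw [eInt_add_cst]
    refine le_trans ?_ le_add_self
    rw [← ENNReal.ofReal_mul hpos.le, h1]
    apply ENNReal.ofReal_le_ofReal
    rw [div_eq_mul_one_div, mul_comm]
    rw [h1] at hpos
    apply mul_le_mul_of_nonneg_left _ hpos.le
    linarith

/-- the density of the energy -/
theorem eInt_rep (e : Idx × Fin 3) (Ψ : V → ℝ≥0∞ → ℝ≥0∞) :
    eInt D.v e (fun x => Ψ x (Ω.indicator (fun x => ‖cl (F x)‖ₑ) x)) =
      eInt D.v e (fun x => Ψ x (D.G x ^ (1 / p))) := by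
  have hp : 0 < p := by linarith [D.hp]
  refine (D.rep _ _ fun x hx => ?_).1 e
  rw [← hx]
  by_cases h : x ∈ Ω
  · rw [indicator_of_mem h, indicator_of_mem h, ← ENNReal.rpow_mul, mul_one_div,
      div_self hp.ne', ENNReal.rpow_one]
  · rw [indicator_of_notMem h, indicator_of_notMem h,
      ENNReal.zero_rpow_of_pos (by positivity)]

/-- in the zone of the kept cubes all centres are far from the affine image -/
theorem far' {m : ℕ} {zz : Fin 3 → ℤ} (ht : IsTile D.ρ 0 m zz) {z : Fin 3 → ℤ} (hz : z ∈ D.J)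
    {x : V} (hx : x ∈ dyc D.v D.n z) (hx' : x ∉ interior (boxR D.v D.n D.k₁ z)) :
    D.a₁ / 2 ^ D.m₁ ≤ ‖D.c m zz - D.A z x‖ :=
  far_ctr (D.H.continuous hz) (fun y hy hy' => D.far m zz ht z hz y hy hy') hx hx'

theorem κ_le (D : PD p ε δ Φ Ω Λ f F) :
    D.κ / 2 ^ (D.n + D.k₁ + D.k₀) ≤ D.C / 2 ^ (D.n + D.k₁) := by
  have h1 := D.κC
  have h2 := D.C0
  exact div_le_div₀ h2.le h1 (by positivity) (pow_le_pow_right₀ (by norm_num) (by omega))

/-- the weight in the kept zone, for points near the affine image -/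
theorem wg_le {z : Fin 3 → ℤ} (hz : z ∈ D.J) {x : V} (hx : x ∈ dyc D.v D.n z)
    (hx' : x ∉ interior (boxR D.v D.n D.k₁ z)) {y : V}
    (hy : ‖y - D.A z x‖ ≤ D.C / 2 ^ (D.n + D.k₁)) :
    D.wg y ≤ ENNReal.ofReal (1 + 4 * (2 / D.a₁)) := by
  refine (wgt_OT_le _ _ _ _).trans ?_
  refine tw_kept D.size (fun m z h => H83.gen_le_of_tile h) D.a0 fun m zz ht => ?_
  exact far_of_near (D.far' ht hz hx hx') hy D.η1

end PD

end Vale.Agent.P073.H333
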