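import Vale.Agent.P073.H333.PDb
import Vale.Agent.P073.H333.PD3

/-!
# P073, block A15-PRE: [PD6] second stage: grid, centres, mesh
-/

namespace Vale.Agent.P073.H333

open MeasureTheory Set Filter Topology Metric Vale.Agent.P073.St Vale.Agent.P073.AB
open Vale.Agent.P073.SQ (ev)
open _root_.P073 (ConHomeo)
open _root_.P073.Net (dyc dyo IsTile SizeFn len)
open Vale.Agent.P073.H73 (MinEdge Bix ctr WLe segP onSeg)
open Vale.Agent.P073.H194 (refine Big wH zo so co MeshOut bInt Oc cellT Bk GoodC idx)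
open Vale.Agent.P073.H471 (wgt)
open Vale.Agent.P073.H83 (CellsG gB grho GenB)
open scoped ENNReal

theorem thin_of {T a θ : ℝ} {n k ks : ℕ} (h1 : T * (a / θ) ≤ 1 / 2)
    (h2 : T * (1 / 2 ^ k) ≤ 1 / 2 / 2 ^ ks) :
    T * (1 / 2 ^ (n + k) + a / 2 ^ (n + ks) / θ) ≤ 1 / 2 ^ (n + ks) := by
  have hn : (0:ℝ) < 1 / 2 ^ n := by positivity
  have hs : (0:ℝ) < 1 / 2 ^ (n + ks) := by positivity
  have e1 : T * (1 / 2 ^ (n + k)) = T * (1 / 2 ^ k) * (1 / 2 ^ n) := by rw [pow_add]; ring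
  have e2 : (1 / 2 / 2 ^ ks * (1 / 2 ^ n) : ℝ) = 1 / 2 * (1 / 2 ^ (n + ks)) := by
    rw [pow_add]; ring
  have e3 : T * (a / 2 ^ (n + ks) / θ) = T * (a / θ) * (1 / 2 ^ (n + ks)) := by ring
  have h3 := mul_le_mul_of_nonneg_right h2 hn.le
  have h4 := mul_le_mul_of_nonneg_right h1 hs.le
  rw [e2] at h3
  rw [mul_add, e1, e3]
  linarith

theorem rpow_le_one_add {p : ℝ} (hp : 1 ≤ p) (a : ℝ≥0∞) : a ^ (1 / p) ≤ 1 + a := by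
  have hp0 : 0 < p := by linarith
  rcases le_total a 1 with h | h
  · exact (ENNReal.rpow_le_one h (by positivity)).trans le_self_add
  · refine le_trans ?_ le_add_self
    calc a ^ (1 / p) ≤ a ^ (1:ℝ) := ENNReal.rpow_le_rpow_of_exponent_le h (by
          rw [div_le_one hp0]; exact hp)
      _ = a := ENNReal.rpow_one a

theorem efin_of {p : ℝ} (hp : 1 ≤ p) {Ω : Set V} {f : V → V} {F : V → Mat} {G : V → ℝ≥0∞}
    {nn : ℕ → ℕ} {v : V} (D : Generic p Ω f F G nn v) {e : Idx × Fin 3} (he : edge v e ⊆ Ω) :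
    eInt v e (fun x => ENNReal.ofReal ‖cl (F x) (ev e.2)‖) ≠ ⊤ := by
  have hp0 : 0 < p := by linarith
  have h1 : eInt v e (fun x => ENNReal.ofReal ‖cl (F x) (ev e.2)‖) ≤
      eInt v e (fun x => ((Ω.indicator fun x => ‖cl (F x)‖ₑ ^ p) x) ^ (1 / p)) := by
    refine eInt_mono_on fun x hx => ?_
    rw [indicator_of_mem (he hx), ← ENNReal.rpow_mul, mul_one_div, div_self hp0.ne',
      ENNReal.rpow_one]
    exact clm_ev_le _ _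
  have h2 := (D.rep (fun x => ((Ω.indicator fun x => ‖cl (F x)‖ₑ ^ p) x) ^ (1 / p))
    (fun x => G x ^ (1 / p)) fun x hx => by
      show ((Ω.indicator fun x => ‖cl (F x)‖ₑ ^ p) x) ^ (1 / p) = G x ^ (1 / p)
      rw [hx]).1 e
  rw [h2] at h1
  have h3 : eInt v e (fun x => G x ^ (1 / p)) ≤ eInt v e (fun x => G x + 1) := by
    refine eInt_mono_on fun x _ => ?_
    rw [add_comm]
    exact rpow_le_one_add hp _
  rw [eInt_add_cst] at h3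
  refine ne_top_of_le_ne_top ?_ (h1.trans h3)
  exact ENNReal.add_ne_top.2 ⟨D.gen.efin e, by simp⟩

/-- the statement of `SpecCtrs`, with the constant -/
def CtrsW (p : ℝ) (CC : ℝ≥0∞) : Prop :=
  ∀ (θ M κ' r₁ : ℝ) (m₁ n k₁ k₀ mt m' : ℕ) (Ω Λ : Set V) (f : V → V)
    (G : V → ℝ≥0∞) (v : V) (nn : ℕ → ℕ) (J : Finset (Fin 3 → ℤ)) (A : (Fin 3 → ℤ) → V → V)
    (L : (Fin 3 → ℤ) → V →L[ℝ] V) (H : CellsG θ M κ' m₁ n k₁ Ω Λ f v J A L),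
    St.IsBoundedDomain Ω → St.IsBoundedDomain Λ → St.IsHomeo Ω Λ f → StrictMono nn →
    H669.Fine Ω v n k₁ k₀ J → (∀ z x y, A z y - A z x = L z (y - x)) →
    2 ≤ m₁ → n ≤ m₁ → m₁ + 2 ≤ mt → mt ≤ m' → 0 < r₁ → r₁ ≤ 1 / 2 / 2 ^ m₁ →
    H83.tauC θ M * (1 / 2 ^ (n + k₁) + r₁ / θ) ≤ 1 / 2 ^ m₁ →
    Measurable G → ∫⁻ x, G x ≠ ⊤ → GenB v nn G → (∀ k, GenB v nn (Bk k)) →
    (∀ᵐ c : V, ∀ x ∈ Ω, f x = c → ∀ m, x ∈ dyo v m (H194.idx v m x)) →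
    ∃ c : ℕ → (Fin 3 → ℤ) → V,
      Mid (grho 0 v n k₁ m₁ mt m' J A Λ) c ∧
      (∀ m zz, IsTile (grho 0 v n k₁ m₁ mt m' J A Λ) 0 m zz → ∀ z ∈ J, ∀ x ∈ dyc v n z,
        x ∉ boxR v n k₁ z → r₁ ≤ ‖c m zz - A z x‖) ∧
      (∀ m zz, IsTile (grho 0 v n k₁ m₁ mt m' J A Λ) 0 m zz →
        GoodC p Ω f G v nn J A (c m zz)) ∧
      ∫⁻ x in ⋃ q ∈ base Ω v n k₁ k₀ J \ (lay v n k₁ k₀ J ∪ gap v n k₁ J), dyc v q.1 q.2,
        wH p (zo (grho 0 v n k₁ m₁ mt m' J A Λ) (gB H mt))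
          (so (grho 0 v n k₁ m₁ mt m' J A Λ) (gB H mt))
          (co (grho 0 v n k₁ m₁ mt m' J A Λ) (gB H mt) c) (H194.fs v n k₁ J A f)
          (H194.Gs p v n k₁ J A L (gB H mt) G) x ≤
      CC * ((∫⁻ x in Ω \ ⋃ z ∈ J, dyc v n z, G x) + ENNReal.ofReal M ^ p *
        ∑ z ∈ J, volume (dyc v n z \ ⋃ b ∈ {b | b ∈ gB H mt ∧ b.1 = z}, b.cell A))

theorem ctrsW_of {p : ℝ} (h : SpecCtrs p) : ∃ CC : ℝ≥0∞, CC ≠ ⊤ ∧ CtrsW p CC := h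

namespace PDa

variable {p ε δ : ℝ} {CC : ℝ≥0∞} {Cf : ℝ → ℝ → ℝ} {Kf : ℝ → ℝ → ℕ → ℕ}
  {κf : ℝ → ℝ → ℕ → ℝ} {Ω Λ : Set V} {f : V → V} {F : V → Mat}

/-- the first data -/
noncomputable def pd0 (D : PDa p ε δ CC Cf Kf κf Ω Λ f F) (m' : ℕ)
    (c : ℕ → (Fin 3 → ℤ) → V) : PD0 Ω Λ f where
  θ := D.θ
  M := D.M
  C := Cf D.θ D.M
  κ := kap Cf κf D.θ D.M D.k₁
  a₁ := D.a₁
  β := D.β
  k₁ := D.k₁
  k₀ := Kf D.θ D.M D.k₁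
  n := D.n
  m₁ := D.n + D.ks
  mt := D.n + D.ks + D.kt
  m' := m'
  v := D.v
  J := D.J
  A := D.A
  L := D.L
  c := c
  G := D.G
  H := D.H

/-- volume which is not covered -/
noncomputable def ef (D : PDa p ε δ CC Cf Kf κf Ω Λ f F) : ℝ≥0∞ :=
  ENNReal.ofReal (12 / 2 ^ D.k₁ + 24 / (D.θ * 2 ^ D.ks) + 6 / 2 ^ D.kt) * volume Ω

theorem fill (D : PDa p ε δ CC Cf Kf κf Ω Λ f F) (hS : SpecFill) :
    ∑ z ∈ D.J, volume (dyc D.v D.n z \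
      ⋃ b ∈ {b | b ∈ gB D.H (D.n + D.ks + D.kt) ∧ b.1 = z}, b.cell D.A) ≤ D.ef := by
  refine (hS _ _ _ _ _ _ (D.n + D.ks + D.kt) _ _ _ _ _ _ _ D.H).trans (le_of_eq ?_)
  unfold ef
  congr 2
  have h0 : D.θ ≠ 0 := D.H.θ0.ne'
  have e1 : 24 * 2 ^ D.n / (D.θ * 2 ^ (D.n + D.ks)) = 24 / (D.θ * 2 ^ D.ks) := by
    rw [pow_add]; field_simp
  have e2 : (6 * 2 ^ (D.n + D.ks) / 2 ^ (D.n + D.ks + D.kt) : ℝ) = 6 / 2 ^ D.kt := by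
    rw [pow_add _ (D.n + D.ks)]; field_simp
  rw [e1, e2]

theorem intG (D : PDa p ε δ CC Cf Kf κf Ω Λ f F) (hΩ : IsOpen Ω) :
    ∫⁻ x in Ω \ ⋃ z ∈ D.J, dyc D.v D.n z, D.G x ≤ D.εc := by
  refine le_trans (le_of_eq ?_) D.es2
  have hm : MeasurableSet (Ω \ ⋃ z ∈ D.J, dyc D.v D.n z) := by
    refine hΩ.measurableSet.diff ?_
    exact Finset.measurableSet_biUnion _ fun z _ => (P86.isCompact_dyc _ _ _).measurableSet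
  refine setLIntegral_congr_fun_ae hm ?_
  filter_upwards [D.rp] with x hx hxS
  rw [← hx, indicator_of_mem hxS.1]

/-- **the centres** -/
theorem exists_c (D : PDa p ε δ CC Cf Kf κf Ω Λ f F)
    (hΩ : St.IsBoundedDomain Ω) (hΛ : St.IsBoundedDomain Λ) (hf : St.IsHomeo Ω Λ f)
    (hS : SpecFill)
    (hC : CtrsW p CC)
    {m' : ℕ} (hm' : D.n + D.ks + D.kt ≤ m') :
    ∃ c : ℕ → (Fin 3 → ℤ) → V, Mid (D.pd0 m' c).ρ c ∧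
      (∀ m zz, IsTile (D.pd0 m' c).ρ 0 m zz → ∀ z ∈ D.J, ∀ x ∈ dyc D.v D.n z,
        x ∉ boxR D.v D.n D.k₁ z → D.a₁ / 2 ^ (D.n + D.ks) ≤ ‖c m zz - D.A z x‖) ∧
      (∀ m zz, IsTile (D.pd0 m' c).ρ 0 m zz → GoodC p Ω f D.G D.v D.nn D.J D.A (c m zz)) ∧
      ∫⁻ x in ⋃ q ∈ (D.pd0 m' c).Ib \ (D.pd0 m' c).P, dyc D.v q.1 q.2, (D.pd0 m' c).Hw p x ≤
        CC * (D.εc + ENNReal.ofReal D.M ^ p * D.ef) := by
  have ha0 := D.a0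
  have ha1 := D.a1
  obtain ⟨c, h1, h2, h3, h4⟩ := hC D.θ D.M _ (D.a₁ / 2 ^ (D.n + D.ks)) (D.n + D.ks) D.n D.k₁
    (Kf D.θ D.M D.k₁) (D.n + D.ks + D.kt) m' Ω Λ f D.G D.v D.nn D.J D.A D.L D.H hΩ hΛ hf D.nm
    D.fine D.aff D.m2 (by omega) (by have := D.kt2; omega) hm' (by positivity)
    (by gcongr) (thin_of D.T1 D.T2) D.Gm D.Gfin D.gen.genB (fun k => (D.gen.ball k).2) D.pl
  refine ⟨c, h1, h2, h3, h4.trans ?_⟩
  gcongr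
  · exact D.intG hΩ.1
  · exact D.fill hS

end PDa

end Vale.Agent.P073.H333
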