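import Vale.Agent.P073.H333.PD

/-!
# P073, block A15-PRE: the two leaves used by the choice of the constants
-/

namespace Vale.Agent.P073.H333

open MeasureTheory Set Filter Topology Metric Vale.Agent.P073.St Vale.Agent.P073.AB
open Vale.Agent.P073.SQ (ev)
open _root_.P073 (ConHomeo)
open _root_.P073.Net (dyc dyo IsTile SizeFn len)
open Vale.Agent.P073.H73 (MinEdge Bix ctr WLe segP onSeg)
open Vale.Agent.P073.H194 (refine Big wH zo so co MeshOut bInt Oc cellT Bk GoodC)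
open Vale.Agent.P073.H471 (wgt)
open Vale.Agent.P073.H83 (CellsG gB grho GenB)
open scoped ENNReal

/-- **[PD5]** the centres -/
def SpecCtrs (p : ℝ) : Prop :=
  ∃ CC : ℝ≥0∞, CC ≠ ⊤ ∧ ∀ (θ M κ' r₁ : ℝ) (m₁ n k₁ k₀ mt m' : ℕ) (Ω Λ : Set V) (f : V → V)
    (G : V → ℝ≥0∞) (v : V) (nn : ℕ → ℕ) (J : Finset (Fin 3 → ℤ)) (A : (Fin 3 → ℤ) → V → V)
    (L : (Fin 3 → ℤ) → V →L[ℝ] V) (H : CellsG θ M κ' m₁ n k₁ Ω Λ f v J A L),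
    St.IsBoundedDomain Ω → St.IsBoundedDomain Λ → St.IsHomeo Ω Λ f → StrictMono nn →
    H669.Fine Ω v n k₁ k₀ J → (∀ z x y, A z y - A z x = L z (y - x)) →
    2 ≤ m₁ → n ≤ m₁ → m₁ + 2 ≤ mt → mt ≤ m' → 0 < r₁ → r₁ ≤ 1 / 2 / 2 ^ m₁ →
    H83.tauC θ M * (1 / 2 ^ (n + k₁) + r₁ / θ) ≤ 1 / 2 ^ m₁ →
    Measurable G → ∫⁻ x, G x ≠ ⊤ → GenB v nn G → (∀ k, GenB v nn (Bk k)) →
    (∀ᵐ c : V, ∀ x ∈ Ω, f x = c → ∀ m, x ∈ dyo v m (H194.idx v m x)) →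
    ∃ c : ℕ → (Fin 3 → ℤ) → V,
      Mid (grho 0 v n k₁ m₁ mt m' J A Λ) c ∧
      (∀ m zz, IsTile (grho 0 v n k₁ m₁ mt m' J A Λ) 0 m zz → ∀ z ∈ J, ∀ x ∈ dyc v n z,
        x ∉ boxR v n k₁ z → r₁ ≤ ‖c m zz - A z x‖) ∧
      (∀ m zz, IsTile (grho 0 v n k₁ m₁ mt m' J A Λ) 0 m zz →
        GoodC p Ω f G v nn J A (c m zz)) ∧
      ∫⁻ x in ⋃ q ∈ base Ω v n k₁ k₀ J \ (lay v n k₁ k₀ J ∪ gap v n k₁ J), dyc v q.1 q.2,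
        wH p (zo (grho 0 v n k₁ m₁ mt m' J A Λ) (gB H mt))
          (so (grho 0 v n k₁ m₁ mt m' J A Λ) (gB H mt))
          (co (grho 0 v n k₁ m₁ mt m' J A Λ) (gB H mt) c) (H194.fs v n k₁ J A f)
          (H194.Gs p v n k₁ J A L (gB H mt) G) x ≤
      CC * ((∫⁻ x in Ω \ ⋃ z ∈ J, dyc v n z, G x) + ENNReal.ofReal M ^ p *
        ∑ z ∈ J, volume (dyc v n z \ ⋃ b ∈ {b | b ∈ gB H mt ∧ b.1 = z}, b.cell A))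

/-- **[PD1]**, last part: the cells fill the cubes -/
def SpecFill : Prop :=
  ∀ (θ M κ' : ℝ) (m₁ n k₁ mt : ℕ) (Ω Λ : Set V) (f : V → V) (v : V)
    (J : Finset (Fin 3 → ℤ)) (A : (Fin 3 → ℤ) → V → V) (L : (Fin 3 → ℤ) → V →L[ℝ] V)
    (H : CellsG θ M κ' m₁ n k₁ Ω Λ f v J A L),
    ∑ z ∈ J, volume (dyc v n z \ ⋃ b ∈ {b | b ∈ gB H mt ∧ b.1 = z}, b.cell A) ≤
      ENNReal.ofReal (12 / 2 ^ k₁ + 24 * 2 ^ n / (θ * 2 ^ m₁) + 6 * 2 ^ m₁ / 2 ^ mt) * volume Ω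

end Vale.Agent.P073.H333
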