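import Vale.Agent.P073.H79.EdgeLeb2
import Vale.Agent.P073.H989.GSet
import Vale.Agent.P073.PK.Choice5

/-!
# P073, block A15-CHOICE: the good cells for exponents above two

`BigCell`: a dyadic cube on which `f` is close to its differential at a point `x`, in the uniform
norm on a neighbourhood, in `L^p`, and in `L¹` along the edges of generation `n + j`.
`choice_core`: for large generations the energy outside of the big cells is small.
-/

namespace Vale.Agent.P073.H333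

open MeasureTheory Set Filter Topology Metric Vale.Agent.P073.St Vale.Agent.P073.AB
open Vale.Agent.P073.SQ (ev)
open _root_.P073.Net (dyc dyo)
open Vale.Agent.P073.H79 (EdgeLeb)
open Vale.Agent.P073.H194 (idx)
open Vale.Agent.P073.H989 (GoodPt)
open scoped ENNReal

/-- a good cube `z` of generation `n`, at the point `x`; the fine generation is `n + j` -/
structure BigCell (p θ M κ : ℝ) (j : ℕ) (Ω : Set V) (f : V → V) (F : V → Mat) (v : V) (n : ℕ)
    (z : Fin 3 → ℤ) (x : V) : Prop where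
  mem : x ∈ dyc v n z
  good : GoodPt p Ω f F x
  below : ∀ w, θ * ‖w‖ ≤ ‖cl (F x) w‖
  above : ∀ w, ‖cl (F x) w‖ ≤ M * ‖w‖
  near : ∀ y, ‖y - x‖ ≤ 4 / 2 ^ n → y ∈ Ω ∧
    ‖f y - f x - cl (F x) (y - x)‖ ≤ κ / 2 ^ (n + j)
  own : ∀ e : Idx × Fin 3, e.1.1 = n + j → edge v e ⊆ dyc v n z →
    eInt v e (fun y => ENNReal.ofReal ‖cl (F y) (ev e.2) - cl (F x) (ev e.2)‖) ≤
      ENNReal.ofReal (κ / 2 ^ (n + j))
  leb : ∫⁻ y in dyc v n z, ‖cl (F y) - cl (F x)‖ₑ ^ p ≤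
    ENNReal.ofReal κ * volume (dyc v n z)

theorem idx_mem (v : V) (n : ℕ) (x : V) : x ∈ dyc v n (idx v n x) := by
  intro i
  have hp : (0:ℝ) < 2 ^ n := by positivity
  have h1 := Int.floor_le (2 ^ n * (x i - v i))
  have h2 := (Int.lt_floor_add_one (2 ^ n * (x i - v i))).le
  have e1 : (idx v n x i : ℝ) / 2 ^ n ≤ x i - v i := by
    rw [div_le_iff₀ hp, mul_comm]
    exact h1
  have e2 : x i - v i ≤ ((idx v n x i : ℝ) + 1) / 2 ^ n := by
    rw [le_div_iff₀ hp, mul_comm]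
    exact h2
  constructor <;> linarith

theorem tendsto_pow_half {nn : ℕ → ℕ} (hnn : StrictMono nn) :
    Tendsto (fun l => (1 / 2 ^ nn l : ℝ)) atTop (𝓝 0) := by
  have h4 : Tendsto (fun n : ℕ => (1 / 2 ^ n : ℝ)) atTop (𝓝 0) := by
    have := tendsto_pow_atTop_nhds_zero_of_lt_one (r := (1 / 2 : ℝ)) (by norm_num) (by norm_num)
    simpa [one_div_pow] using this
  exact h4.comp hnn.tendsto_atTop

/-- at a good point, the cubes of large generation of the sequence are big cells -/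
theorem eventually_bigCell {p θ M κ : ℝ} {j : ℕ} {Ω : Set V} {f : V → V} {F : V → Mat} {v x : V}
    {nn : ℕ → ℕ} (hΩ : IsOpen Ω) (hx : GoodPt p Ω f F x)
    (below : ∀ w, θ * ‖w‖ ≤ ‖cl (F x) w‖) (above : ∀ w, ‖cl (F x) w‖ ≤ M * ‖w‖) (hκ : 0 < κ)
    (hnn : StrictMono nn) (hE : EdgeLeb v nn (Ω.indicator fun x => cl (F x)) x) :
    ∀ᶠ l in atTop, BigCell p θ M κ j Ω f F v (nn l) (idx v (nn l) x) x := by
  -- differentiability
  have hd := hx.der.isLittleO
  rw [Asymptotics.isLittleO_iff] at hd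
  have hc : (0:ℝ) < κ / 2 ^ j / 4 := by positivity
  have h1 := hd hc
  obtain ⟨r, hr, hball⟩ := Metric.eventually_nhds_iff.1
    ((hΩ.eventually_mem hx.mem).and h1)
  have h2 : ∀ᶠ l in atTop, (1 / 2 ^ nn l : ℝ) < r / 4 :=
    (tendsto_pow_half hnn).eventually_lt_const (by positivity)
  obtain ⟨m₀, hm₀⟩ := hx.exists_gen (η := ENNReal.ofReal κ) (ENNReal.ofReal_pos.2 hκ).ne'
  have h3 : ∀ᶠ l in atTop, m₀ ≤ nn l := hnn.tendsto_atTop.eventually_ge_atTop m₀
  filter_upwards [h2, h3, hE.own hΩ hx.mem hnn j hκ] with l h2 h3 h4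
  refine ⟨idx_mem v (nn l) x, hx, below, above, ?_, h4.2, ?_⟩
  · intro y hy
    have h5 : dist y x < r := by
      rw [dist_eq_norm]
      have : (4 / 2 ^ nn l : ℝ) = 4 * (1 / 2 ^ nn l) := by ring
      rw [this] at hy
      linarith
    obtain ⟨h6, h7⟩ := hball h5
    refine ⟨h6, h7.trans ?_⟩
    calc κ / 2 ^ j / 4 * ‖y - x‖ ≤ κ / 2 ^ j / 4 * (4 / 2 ^ nn l) := by gcongr
      _ = κ / 2 ^ (nn l + j) := by
        rw [pow_add]
        field_simp
  · exact (hm₀ _ h3 v _ (idx_mem v (nn l) x)).2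

/-- the bounds hold at every point with an invertible derivative -/
theorem exists_bounds {A : Mat} (hA : NonSing A) : ∃ n : ℕ,
    (∀ w, (1 / ((n:ℝ) + 1)) * ‖w‖ ≤ ‖cl A w‖) ∧ ∀ w, ‖cl A w‖ ≤ ((n:ℝ) + 1) * ‖w‖ := by
  have hdet : (cl A).det ≠ 0 := fun h0 => (H726.det_cl_eq_zero_iff _).1 h0 hA
  have hunit : IsUnit (LinearMap.det ((cl A : V →L[ℝ] V) : V →ₗ[ℝ] V)) := by
    rw [isUnit_iff_ne_zero]
    exact hdet
  set e := LinearMap.equivOfDetNeZero ((cl A : V →L[ℝ] V) : V →ₗ[ℝ] V) hunit.ne_zero with he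
  set e' : V ≃L[ℝ] V := e.toContinuousLinearEquiv with he'
  have hee : ∀ w, e' w = cl A w := fun w => rfl
  obtain ⟨n, hn⟩ := exists_nat_ge (max ‖cl A‖ ‖(e'.symm : V →L[ℝ] V)‖)
  refine ⟨n, fun w => ?_, fun w => ?_⟩
  · have h1 : ‖w‖ ≤ ‖(e'.symm : V →L[ℝ] V)‖ * ‖cl A w‖ := by
      have h2 : e'.symm (cl A w) = w := by rw [← hee, e'.symm_apply_apply]
      calc ‖w‖ = ‖(e'.symm : V →L[ℝ] V) (cl A w)‖ := by
            rw [ContinuousLinearEquiv.coe_coe, h2]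
        _ ≤ _ := ContinuousLinearMap.le_opNorm _ _
    have h3 : ‖(e'.symm : V →L[ℝ] V)‖ ≤ (n:ℝ) + 1 := by
      have := (le_max_right ‖cl A‖ ‖(e'.symm : V →L[ℝ] V)‖).trans hn
      linarith
    have h4 : ‖w‖ ≤ ((n:ℝ) + 1) * ‖cl A w‖ := h1.trans (by gcongr)
    rw [one_div, inv_mul_le_iff₀ (by positivity)]
    exact h4
  · have h3 : ‖cl A‖ ≤ (n:ℝ) + 1 := by
      have := (le_max_left ‖cl A‖ ‖(e'.symm : V →L[ℝ] V)‖).trans hn
      linarith
    exact (ContinuousLinearMap.le_opNorm _ _).trans (by gcongr)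

end Vale.Agent.P073.H333
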