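import Vale.Agent.P073.H333.ChoiceA

/-!
# P073, block A15-CHOICE: the energy outside of the big cells
-/

namespace Vale.Agent.P073.H333

open MeasureTheory Set Filter Topology Metric Vale.Agent.P073.St Vale.Agent.P073.AB
open Vale.Agent.P073.SQ (ev)
open _root_.P073.Net (dyc dyo)
open Vale.Agent.P073.H79 (EdgeLeb)
open Vale.Agent.P073.H194 (idx)
open Vale.Agent.P073.H989 (GoodPt)
open scoped ENNReal

/-- continuity from below, without measurability -/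
theorem exists_le_add {α : Type*} [MeasurableSpace α] {μ : Measure α} [IsFiniteMeasure μ]
    {S : ℕ → Set α} (hS : Monotone S) {A : Set α} (hA : ∀ᵐ x ∂μ, x ∈ A → x ∈ ⋃ n, S n)
    {ε : ℝ≥0∞} (hε : ε ≠ 0) : ∃ n, μ A ≤ μ (S n) + ε := by
  by_contra hcon
  push Not at hcon
  have h1 : μ A ≤ μ (⋃ n, S n) := measure_mono_ae hA
  rw [hS.directed_le.measure_iUnion] at h1
  have h2 : (⨆ n, μ (S n)) + ε ≤ μ A := by
    rw [ENNReal.iSup_add]
    exact iSup_le fun n => (hcon n).le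
  have h3 : (⨆ n, μ (S n)) ≠ ⊤ := by
    refine ne_top_of_le_ne_top (measure_ne_top μ univ) (iSup_le fun n => measure_mono (subset_univ _))
  have h4 : (⨆ n, μ (S n)) + ε ≤ ⨆ n, μ (S n) := h2.trans h1
  refine hε ?_
  have h6 : (⨆ n, μ (S n)) + ε ≤ (⨆ n, μ (S n)) + 0 := by rw [add_zero]; exact h4
  exact le_zero_iff.1 ((ENNReal.add_le_add_iff_left h3).1 h6)

theorem finite_idx (v : V) (n : ℕ) {K : Set V} (hK : Bornology.IsBounded K) :
    (idx v n '' K).Finite := by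
  obtain ⟨R, hR⟩ := hK.exists_norm_le
  refine (Set.finite_Icc (fun k => ⌊2 ^ n * (-R - v k)⌋ : Fin 3 → ℤ)
    (fun k => ⌊2 ^ n * (R - v k)⌋)).subset ?_
  rintro _ ⟨x, hx, rfl⟩
  have h1 := hR x hx
  have h2 : ∀ k, |x k| ≤ R := fun k => by
    have := norm_le_pi_norm x k
    rw [Real.norm_eq_abs] at this
    linarith
  have hp : (0:ℝ) < 2 ^ n := by positivity
  constructor
  · intro k
    have := (abs_le.1 (h2 k)).1
    exact Int.floor_le_floor (by nlinarith)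
  · intro k
    have := (abs_le.1 (h2 k)).2
    exact Int.floor_le_floor (by nlinarith)

theorem nonSing_of_below {A : Mat} {θ : ℝ} (hθ : 0 < θ) (h : ∀ w, θ * ‖w‖ ≤ ‖cl A w‖) :
    NonSing A := by
  intro w hw
  have h1 : cl A w = 0 := by
    rw [← hw]
    funext i
    rw [PK.cl_apply]
    rfl
  have h2 := h w
  rw [h1, norm_zero] at h2
  have h3 : ‖w‖ ≤ 0 := by
    by_contra hcon
    push Not at hcon
    nlinarith
  exact norm_le_zero_iff.1 h3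

theorem isClosed_dycB (v : V) (m : ℕ) (z : Fin 3 → ℤ) : IsClosed (dyc v m z) := by
  have : dyc v m z = ⋂ k, {x : V | v k + z k / 2 ^ m ≤ x k ∧ x k ≤ v k + (z k + 1) / 2 ^ m} := by
    ext x
    simp [dyc]
  rw [this]
  refine isClosed_iInter fun k => ?_
  exact (isClosed_le continuous_const (continuous_apply k)).inter
    (isClosed_le (continuous_apply k) continuous_const)

/-- **The core of the choice**, with a free predicate `Q`. -/
theorem choice_coreQ {p : ℝ} (hp : 2 < p) {Ω Λ : Set V} (hΩ : St.IsBoundedDomain Ω)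
    (hΛ : St.IsBoundedDomain Λ) {f : V → V} {F : V → Mat} (hf : St.IsHomeo Ω Λ f)
    (hF : St.IsSobolev p Ω f F) (hFD : FinDist Ω F) {ε : ℝ≥0∞} (hε : ε ≠ 0) :
    ∃ θ > 0, ∃ M > 0, ∃ K₀ ⊆ Ω, IsCompact K₀ ∧ ∀ (κ : ℝ) (j : ℕ) (v : V) (nn : ℕ → ℕ)
      (Q : ℕ → V → Prop), 0 < κ →
      StrictMono nn → (∀ᵐ x, EdgeLeb v nn (Ω.indicator fun x => cl (F x)) x) →
      (∀ᵐ x ∂(volume : Measure V), x ∈ Ω → NonSing (F x) → ∀ᶠ l in atTop, Q l x) →
      ∀ᶠ l in atTop, ∃ (Z : Finset (Fin 3 → ℤ)) (x : (Fin 3 → ℤ) → V),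
        (∀ z ∈ Z, x z ∈ K₀ ∧ BigCell p θ M κ j Ω f F v (nn l) z (x z) ∧ Q l (x z) ∧
          idx v (nn l) (x z) = z) ∧
        ∫⁻ y in Ω \ ⋃ z ∈ Z, dyc v (nn l) z, ‖cl (F y)‖ₑ ^ p ≤ ε := by
  classical
  have hp1 : 1 ≤ p := by linarith
  have hp0 : 0 < p := by linarith
  have hv := PK.volume_ne_top_of_domain hΩ
  have hb := PK.isBounded_of_domain hΩ
  have hm : AEMeasurable (fun x => ‖cl (F x)‖ₑ ^ p) (volume.restrict Ω) :=
    (PK.IsSob.aesm hF).enorm.pow_const p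
  set μ : Measure V := (volume.restrict Ω).withDensity (fun x => ‖cl (F x)‖ₑ ^ p) with hμ
  have hμt : μ univ = ∫⁻ x in Ω, ‖cl (F x)‖ₑ ^ p := by
    rw [hμ, withDensity_apply _ MeasurableSet.univ, Measure.restrict_univ]
  have : IsFiniteMeasure μ := ⟨by
    rw [hμt]; exact (PK.IsSob.lintegral_ne_top hp1 hF).lt_top⟩
  have hac : ∀ {q : V → Prop}, (∀ᵐ x ∂(volume.restrict Ω), q x) → ∀ᵐ x ∂μ, q x := fun h =>
    (withDensity_absolutelyContinuous _ _).ae_le h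
  have hε2 : ε / 2 ≠ 0 := (ENNReal.half_pos hε).ne'
  -- the exhaustion
  let E : ℕ → Set V := fun n => {x | x ∈ closedBall (0:V) n ∧ 1 / ((n:ℝ) + 1) ≤ infDist x Ωᶜ ∧
    GoodPt p Ω f F x ∧ (∀ w, (1 / ((n:ℝ) + 1)) * ‖w‖ ≤ ‖cl (F x) w‖) ∧
    ∀ w, ‖cl (F x) w‖ ≤ ((n:ℝ) + 1) * ‖w‖}
  have hEmono : Monotone E := by
    intro m n hmn x hx
    obtain ⟨h1, h2, h3, h4, h5⟩ := hx
    have hmn' : (m:ℝ) ≤ n := by exact_mod_cast hmn
    have h6 : 1 / ((n:ℝ) + 1) ≤ 1 / ((m:ℝ) + 1) :=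
      one_div_le_one_div_of_le (by positivity) (by linarith)
    refine ⟨closedBall_subset_closedBall hmn' h1, h6.trans h2, h3, fun w => ?_, fun w => ?_⟩
    · exact (mul_le_mul_of_nonneg_right h6 (norm_nonneg _)).trans (h4 w)
    · exact (h5 w).trans (mul_le_mul_of_nonneg_right (by linarith) (norm_nonneg _))
  have hΩc : (Ωᶜ).Nonempty := by
    by_contra hcon
    rw [not_nonempty_iff_eq_empty, compl_empty_iff] at hcon
    rw [hcon] at hb
    exact (NormedSpace.unbounded_univ ℝ V) hb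
  have hcover : ∀ᵐ x ∂μ, x ∈ (univ : Set V) → x ∈ ⋃ n, E n := by
    -- points with vanishing derivative do not count
    have h0 : μ {x | x ∈ Ω ∧ (∀ i j, F x i j = 0)} = 0 := by
      rw [hμ, withDensity_apply_eq_zero' hm]
      refine measure_mono_null (t := ∅) ?_ measure_empty
      rintro x ⟨h1, -, h2⟩
      refine h1 ?_
      have h3 : cl (F x) = 0 := by
        ext w i
        have : F x = 0 := by
          funext i j; exact h2 i j
        simp [cl, this]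
      show ‖cl (F x)‖ₑ ^ p = 0
      have h4 : ‖cl (F x)‖ₑ = 0 := by
        rw [h3]
        show ((‖(0 : V →L[ℝ] V)‖₊ : NNReal) : ℝ≥0∞) = 0
        rw [nnnorm_zero]; rfl
      rw [h4, ENNReal.zero_rpow_of_pos hp0]
    have h1 : ∀ᵐ x ∂μ, x ∈ Ω ∧ ((∀ i j, F x i j = 0) ∨ NonSing (F x)) := by
      apply hac
      rw [ae_restrict_iff' hΩ.1.measurableSet]
      filter_upwards [hFD] with x hx hxΩ
      exact ⟨hxΩ, hx hxΩ⟩
    have h2 : ∀ᵐ x ∂μ, x ∈ Ω → NonSing (F x) → GoodPt p Ω f F x := by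
      apply hac
      exact ae_restrict_of_ae (H989.ae_goodPt hp hΩ.1 hv hΛ.1 hf hF)
    have h0' : ∀ᵐ x ∂μ, ¬ (x ∈ Ω ∧ ∀ i j, F x i j = 0) := by
      rw [ae_iff]
      simpa using h0
    filter_upwards [h0', h1, h2] with x g0 g1 g2 _
    obtain ⟨hxΩ, hx⟩ := g1
    have hns : NonSing (F x) := by
      rcases hx with hx | hx
      · exact absurd ⟨hxΩ, hx⟩ g0
      · exact hx
    obtain ⟨n₁, hn₁, hn₁'⟩ := exists_bounds hns
    obtain ⟨n₂, hn₂⟩ := exists_nat_ge ‖x‖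
    have hd : 0 < infDist x Ωᶜ := (hΩ.1.isClosed_compl.notMem_iff_infDist_pos hΩc).1 fun h => h hxΩ
    obtain ⟨n₃, hn₃⟩ := exists_nat_one_div_lt hd
    set n := max n₁ (max n₂ n₃) with hn
    have a1 : (n₁:ℝ) ≤ n := by exact_mod_cast le_max_left _ _
    have a2 : (n₂:ℝ) ≤ n := by exact_mod_cast (le_max_left _ _).trans (le_max_right _ _)
    have a3 : (n₃:ℝ) ≤ n := by exact_mod_cast (le_max_right _ _).trans (le_max_right _ _)
    have b1 : 1 / ((n:ℝ) + 1) ≤ 1 / ((n₁:ℝ) + 1) :=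
      one_div_le_one_div_of_le (by positivity) (by linarith)
    have b3 : 1 / ((n:ℝ) + 1) ≤ 1 / ((n₃:ℝ) + 1) :=
      one_div_le_one_div_of_le (by positivity) (by linarith)
    refine mem_iUnion.2 ⟨n, ?_, b3.trans hn₃.le, g2 hxΩ hns, fun w => ?_, fun w => ?_⟩
    · rw [mem_closedBall, dist_zero_right]; linarith
    · exact (mul_le_mul_of_nonneg_right b1 (norm_nonneg _)).trans (hn₁ w)
    · exact (hn₁' w).trans (mul_le_mul_of_nonneg_right (by linarith) (norm_nonneg _))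
  obtain ⟨n, hn⟩ := exists_le_add hEmono hcover hε2
  set K₀ : Set V := closedBall (0:V) n ∩ {x | 1 / ((n:ℝ) + 1) ≤ infDist x Ωᶜ} with hK₀
  have hK₀Ω : K₀ ⊆ Ω := by
    intro x hx
    by_contra hcon
    have h2 : infDist x Ωᶜ = 0 := infDist_zero_of_mem hcon
    have h3 : 1 / ((n:ℝ) + 1) ≤ infDist x Ωᶜ := hx.2
    have h4 : (0:ℝ) < 1 / ((n:ℝ) + 1) := by positivity
    linarith
  have hK₀c : IsCompact K₀ := (isCompact_closedBall (0:V) (n:ℝ)).inter_right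
    (isClosed_le continuous_const (continuous_infDist_pt _))
  refine ⟨1 / ((n:ℝ) + 1), by positivity, (n:ℝ) + 1, by positivity, K₀, hK₀Ω, hK₀c, ?_⟩
  intro κ j v nn Q hκ hnn hEL hQ
  let T : ℕ → Set V := fun L => {x | x ∈ E n ∧ ∀ l ≥ L,
    BigCell p (1 / ((n:ℝ) + 1)) ((n:ℝ) + 1) κ j Ω f F v (nn l) (idx v (nn l) x) x ∧ Q l x}
  have hTmono : Monotone T := fun a b hab x hx => ⟨hx.1, fun l hl => hx.2 l (hab.trans hl)⟩
  have hTcov : ∀ᵐ x ∂μ, x ∈ E n → x ∈ ⋃ L, T L := by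
    filter_upwards [hac (ae_restrict_of_ae hEL), hac (ae_restrict_of_ae hQ)] with x hx hxQ hxE
    obtain ⟨L, hL⟩ := eventually_atTop.1 ((eventually_bigCell (κ := κ) (j := j) hΩ.1 hxE.2.2.1
      hxE.2.2.2.1 hxE.2.2.2.2 hκ hnn hx).and (hxQ hxE.2.2.1.mem (nonSing_of_below
        (by positivity) hxE.2.2.2.1)))
    exact mem_iUnion.2 ⟨L, hxE, hL⟩
  obtain ⟨L, hL⟩ := exists_le_add hTmono hTcov hε2
  have hTL : μ univ ≤ μ (T L) + ε := by
    calc μ univ ≤ μ (E n) + ε / 2 := hn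
      _ ≤ μ (T L) + ε / 2 + ε / 2 := by gcongr
      _ = μ (T L) + ε := by rw [add_assoc, ENNReal.add_halves]
  filter_upwards [eventually_ge_atTop L] with l hl
  have hTb : Bornology.IsBounded (T L) := isBounded_closedBall.subset fun x hx => hx.1.1
  have hfin := finite_idx v (nn l) hTb
  have hex : ∀ z, ∃ x, z ∈ hfin.toFinset → x ∈ T L ∧ idx v (nn l) x = z := by
    intro z
    by_cases hz : z ∈ hfin.toFinset
    · obtain ⟨x, hx, hxz⟩ := hfin.mem_toFinset.1 hz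
      exact ⟨x, fun _ => ⟨hx, hxz⟩⟩
    · exact ⟨0, fun h => absurd h hz⟩
  choose x hx using hex
  refine ⟨hfin.toFinset, x, fun z hz => ?_, ?_⟩
  · obtain ⟨h1, h2⟩ := hx z hz
    refine ⟨⟨h1.1.1, h1.1.2.1⟩, ?_⟩
    have h3 := h1.2 l hl
    rw [h2] at h3
    exact ⟨h3.1, h3.2, h2⟩
  · set U : Set V := ⋃ z ∈ hfin.toFinset, dyc v (nn l) z with hU
    have hUm : MeasurableSet U := Finset.measurableSet_biUnion _ fun z _ =>
      (isClosed_dycB v (nn l) z).measurableSet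
    have hTU : T L ⊆ U := by
      intro y hy
      exact mem_iUnion₂.2 ⟨idx v (nn l) y, hfin.mem_toFinset.2 ⟨y, hy, rfl⟩, idx_mem v (nn l) y⟩
    have h1 : ∫⁻ y in Ω \ U, ‖cl (F y)‖ₑ ^ p = μ Uᶜ := by
      rw [hμ, withDensity_apply _ hUm.compl, Measure.restrict_restrict hUm.compl,
        Set.sdiff_eq, inter_comm]
    rw [h1]
    have h2 : μ univ = μ U + μ Uᶜ := (measure_add_measure_compl hUm).symm
    have h3 : μ U + μ Uᶜ ≤ μ U + ε := by
      rw [← h2]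
      exact hTL.trans (by gcongr)
    exact (ENNReal.add_le_add_iff_left (measure_ne_top μ U)).1 h3

/-- **The core of the choice.** -/
theorem choice_core {p : ℝ} (hp : 2 < p) {Ω Λ : Set V} (hΩ : St.IsBoundedDomain Ω)
    (hΛ : St.IsBoundedDomain Λ) {f : V → V} {F : V → Mat} (hf : St.IsHomeo Ω Λ f)
    (hF : St.IsSobolev p Ω f F) (hFD : FinDist Ω F) {ε : ℝ≥0∞} (hε : ε ≠ 0) :
    ∃ θ > 0, ∃ M > 0, ∃ K₀ ⊆ Ω, IsCompact K₀ ∧ ∀ (κ : ℝ) (j : ℕ) (v : V) (nn : ℕ → ℕ), 0 < κ →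
      StrictMono nn → (∀ᵐ x, EdgeLeb v nn (Ω.indicator fun x => cl (F x)) x) →
      ∀ᶠ l in atTop, ∃ (Z : Finset (Fin 3 → ℤ)) (x : (Fin 3 → ℤ) → V),
        (∀ z ∈ Z, x z ∈ K₀ ∧ BigCell p θ M κ j Ω f F v (nn l) z (x z)) ∧
        ∫⁻ y in Ω \ ⋃ z ∈ Z, dyc v (nn l) z, ‖cl (F y)‖ₑ ^ p ≤ ε := by
  obtain ⟨θ, hθ, M, hM, K₀, hK₀, hK₀c, h⟩ := choice_coreQ hp hΩ hΛ hf hF hFD hε
  refine ⟨θ, hθ, M, hM, K₀, hK₀, hK₀c, fun κ j v nn hκ hnn hE => ?_⟩
  refine (h κ j v nn (fun _ _ => True) hκ hnn hE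
    (Eventually.of_forall fun x _ _ => Eventually.of_forall fun _ => trivial)).mono ?_
  rintro l ⟨Z, x, h1, h2⟩
  exact ⟨Z, x, fun z hz => ⟨(h1 z hz).1, (h1 z hz).2.1⟩, h2⟩

end Vale.Agent.P073.H333
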