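import Vale.Agent.P073.H333.NetInA
import Vale.Agent.P073.GBM.CellLa
import Vale.Agent.P073.AB.Sum293b
import Vale.Agent.P073.AB.Sum308b
import Vale.Agent.P073.Gauge.Of407d

/-!
# P073, block A04-NETIN: edges, local finiteness, tolerances
-/

namespace Vale.Agent.P073.H333

open MeasureTheory Set Filter Topology Metric Vale.Agent.P073.St Vale.Agent.P073.AB
open Vale.Agent.P073.SQ (ev)
open _root_.P073.Net (dyc dyo)
open _root_.P073.Gauge (CellHyp CellOut gam dvar)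
open _root_.P073 (ConHomeo)
open _root_.P073.Gauge.C110
open _root_.P073.Gauge.O407 (jInt eInt_eq deriv_gam dvar_eq dvar_zero exists_pos_le eInt_le_sum)
open scoped ENNReal

theorem lineDeriv_congr_edge {h h' : V → V} {v : V} {e : Idx × Fin 3}
    (H : ∀ x ∈ edge v e, h' x = h x) {t : ℝ} (ht : t ∈ Ioo (0:ℝ) 1) :
    lineDeriv ℝ h' (gam v e t) (ev e.2) = lineDeriv ℝ h (gam v e t) (ev e.2) := by
  have h1 : (fun s => h' (gam v e s)) =ᶠ[𝓝 t] fun s => h (gam v e s) := by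
    filter_upwards [isOpen_Ioo.mem_nhds ht] with s hs
    exact H _ (mem_edge_iff.2 ⟨s, Ioo_subset_Icc_self hs, rfl⟩)
  have h2 := h1.deriv_eq
  rw [deriv_gam, deriv_gam] at h2
  exact smul_right_injective V (show (1 / 2 ^ e.1.1 : ℝ) ≠ 0 by positivity) h2

/-- the energy of a map on an edge depends on its values on the edge only -/
theorem eInt_congr_edge {h h' : V → V} {v : V} {e : Idx × Fin 3}
    (H : ∀ x ∈ edge v e, h' x = h x) (Φ : V → V → ℝ≥0∞) :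
    eInt v e (fun x => Φ x (lineDeriv ℝ h' x (ev e.2))) =
      eInt v e (fun x => Φ x (lineDeriv ℝ h x (ev e.2))) := by
  rw [eInt_eq, eInt_eq]
  congr 1
  show ∫⁻ t in Icc (0:ℝ) 1, Φ (gam v e t) (lineDeriv ℝ h' (gam v e t) (ev e.2)) =
    ∫⁻ t in Icc (0:ℝ) 1, Φ (gam v e t) (lineDeriv ℝ h (gam v e t) (ev e.2))
  rw [← restrict_Ioo_eq_restrict_Icc]
  apply setLIntegral_congr_fun measurableSet_Ioo
  intro t ht
  show Φ (gam v e t) (lineDeriv ℝ h' (gam v e t) (ev e.2)) =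
    Φ (gam v e t) (lineDeriv ℝ h (gam v e t) (ev e.2))
  rw [lineDeriv_congr_edge H ht]

/-- `dvar` with exponent one is the integral over the edge -/
theorem dvar_one (h : V → V) (v : V) (e : Idx × Fin 3) (w : V) :
    dvar 1 h v e ((1 / 2 ^ e.1.1 : ℝ) • w) =
      eInt v e (fun x => ENNReal.ofReal ‖lineDeriv ℝ h x (ev e.2) - w‖) := by
  rw [dvar_eq, eInt_eq, Real.rpow_one]
  simp_rw [Real.rpow_one]

theorem dvar_one_zero (h : V → V) (v : V) (e : Idx × Fin 3) :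
    dvar 1 h v e 0 = eInt v e (fun x => ENNReal.ofReal ‖lineDeriv ℝ h x (ev e.2)‖) := by
  rw [dvar_zero, eInt_eq, Real.rpow_one]
  simp_rw [Real.rpow_one]

theorem eInt_mono' (v : V) (e : Idx × Fin 3) {H K : V → ℝ≥0∞} (h : ∀ x, H x ≤ K x) :
    eInt v e H ≤ eInt v e K := by
  rw [eInt_eq, eInt_eq]
  gcongr
  exact lintegral_mono fun t => h _

/-- triangle inequality on an edge -/
theorem eInt_tri {v : V} {e : Idx × Fin 3} {Ω : Set V} {f : V → V} {F : V → Mat}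
    (rat : RatGood v Ω f F) (he : edge v e ⊆ Ω) (h : V → V) (w : V) {a b : ℝ} (ha : 0 ≤ a)
    (hb : 0 ≤ b)
    (h1 : eInt v e (fun x => ENNReal.ofReal ‖lineDeriv ℝ h x (ev e.2) - cl (F x) (ev e.2)‖) ≤
      ENNReal.ofReal a)
    (h2 : eInt v e (fun x => ENNReal.ofReal ‖cl (F x) (ev e.2) - w‖) ≤ ENNReal.ofReal b) :
    eInt v e (fun x => ENNReal.ofReal ‖lineDeriv ℝ h x (ev e.2) - w‖) ≤
      ENNReal.ofReal (a + b) := by
  have h3 : eInt v e (fun x => ENNReal.ofReal ‖lineDeriv ℝ h x (ev e.2) - w‖) ≤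
      eInt v e (fun x => ENNReal.ofReal ‖lineDeriv ℝ h x (ev e.2) - cl (F x) (ev e.2)‖ +
        ENNReal.ofReal ‖cl (F x) (ev e.2) - w‖) := by
    refine eInt_mono' v e fun x => ?_
    rw [← ENNReal.ofReal_add (norm_nonneg _) (norm_nonneg _)]
    exact ENNReal.ofReal_le_ofReal (norm_sub_le_norm_sub_add_norm_sub _ _ _)
  refine h3.trans ?_
  rw [S293.eInt_add]
  · rw [ENNReal.ofReal_add ha hb]
    exact add_le_add h1 h2
  · have := S293.aemeas_pow rat he w 1 1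
    simpa using this

/-- an edge of generation `N` through an inner point of a box of the grid `N` -/
theorem edge_sub_gbox {v : V} {N : ℕ} {a b : Fin 3 → ℤ} {e : Idx × Fin 3} (he : e.1.1 = N) {x : V}
    (hx : x ∈ edge v e) (hx' : x ∈ S308.obox v N a b) : edge v e ⊆ S308.gbox v N a b := by
  subst he
  intro y hy k
  obtain ⟨a1, a2, a3⟩ := Gr.mem_edge.1 hx
  obtain ⟨b1, b2, b3⟩ := Gr.mem_edge.1 hy
  obtain ⟨c1, c2⟩ := hx' k
  by_cases hk : k = e.2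
  · subst hk
    have d1 : a e.2 ≤ e.1.2 e.2 := by
      have : (a e.2 : ℝ) / 2 ^ e.1.1 < ((e.1.2 e.2 + 1 : ℤ) : ℝ) / 2 ^ e.1.1 := by
        push_cast; linarith
      have := S308.cast_div_lt.1 this
      omega
    have d2 : e.1.2 e.2 + 1 ≤ b e.2 := by
      have : ((e.1.2 e.2 : ℤ) : ℝ) / 2 ^ e.1.1 < (b e.2 : ℝ) / 2 ^ e.1.1 := by
        linarith
      have := S308.cast_div_lt.1 this
      omega
    have d3 := (S308.cast_div_le (N := e.1.1)).2 d1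
    have d4 := (S308.cast_div_le (N := e.1.1)).2 d2
    push_cast at d4
    constructor <;> linarith
  · rw [a1 k hk] at c1 c2
    rw [b1 k hk]
    exact ⟨c1.le, c2.le⟩

/-- the good cells which meet a compact set are finite in number -/
theorem finite_cells {Ω : Set V} {v : V} {I J : Set Idx} (hI : Part Ω v I) {N : Idx → ℕ}
    (hN : ∀ q ∈ J, q.1 ≤ N q)
    (fine : ∀ q ∈ J, ∀ z', (dyc v (N q) z' ∩ dyc v q.1 q.2).Nonempty → ((N q, z') : Idx) ∈ I)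
    (hJ : ∀ q ∈ J, ∀ q' ∈ J, q ≠ q' → Disjoint (dyo v q.1 q.2) (dyo v q'.1 q'.2))
    {K : Set V} (hK : K ⊆ Ω) (hKc : IsCompact K) :
    {q | q ∈ J ∧ (dyc v q.1 q.2 ∩ K).Nonempty}.Finite := by
  classical
  have hex : ∀ q, ∃ r : Idx, q ∈ J ∧ (dyc v q.1 q.2 ∩ K).Nonempty →
      r ∈ I ∧ (dyc v r.1 r.2 ∩ K).Nonempty ∧ dyc v r.1 r.2 ⊆ dyc v q.1 q.2 := by
    intro q
    by_cases hq : q ∈ J ∧ (dyc v q.1 q.2 ∩ K).Nonempty
    · obtain ⟨hqJ, x, hx, hxK⟩ := hq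
      obtain ⟨d, hd⟩ := Nat.exists_eq_add_of_le (hN q hqJ)
      obtain ⟨w, h1, h2⟩ := _root_.P073.Cell.exists_descendant d hx
      refine ⟨(N q, w), fun _ => ⟨fine q hqJ w ⟨x, ?_, hx⟩, ⟨x, ?_, hxK⟩, ?_⟩⟩
      · rw [hd]; exact h1
      · show x ∈ dyc v (N q) w
        rw [hd]; exact h1
      · show dyc v (N q) w ⊆ _
        rw [hd]; exact h2
    · exact ⟨q, fun h => absurd h hq⟩
  choose r hr using hex
  refine Set.Finite.of_finite_image (f := r) ((hI.fin K hK hKc).subset ?_) ?_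
  · rintro _ ⟨q, hq, rfl⟩
    exact ⟨(hr q hq).1, (hr q hq).2.1⟩
  · intro q hq q' hq' hrr
    by_contra hne
    have h1 := (hr q hq).2.2
    have h2 := (hr q' hq').2.2
    have hrr' : r q = r q' := hrr
    rw [← hrr'] at h2
    have h3 := P86.cen_mem v (r q).1 (r q).2
    have h4 := interior_mono h1
    have h5 := interior_mono h2
    rw [interior_dyc, interior_dyc] at h4 h5
    exact Set.disjoint_left.1 (hJ q hq.1 q' hq'.1 hne) (h4 h3) (h5 h3)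

/-- a continuous positive function below `σ` and below given numbers on the cells of `J` -/
theorem exists_gauge {Ω : Set V} (hΩ : IsOpen Ω) {v : V} {J : Set Idx}
    (hfin : ∀ K ⊆ Ω, IsCompact K → {q | q ∈ J ∧ (dyc v q.1 q.2 ∩ K).Nonempty}.Finite)
    {σ : V → ℝ} (hσ : ContinuousOn σ Ω) (hσ0 : ∀ x ∈ Ω, 0 < σ x) {a : Idx → ℝ}
    (ha : ∀ q ∈ J, 0 < a q) :
    ∃ m : V → ℝ, ContinuousOn m Ω ∧ (∀ x ∈ Ω, 0 < m x) ∧ (∀ x ∈ Ω, m x ≤ σ x) ∧
      ∀ q ∈ J, ∀ x ∈ Ω, x ∈ dyc v q.1 q.2 → m x ≤ a q := by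
  obtain ⟨m, h1, h2⟩ := Vale.Agent.P073.SMV.exists_cont_radius (Ω := Ω)
    (P := fun x m => m ≤ σ x ∧ ∀ q ∈ J, x ∈ dyc v q.1 q.2 → m ≤ a q)
    (fun x m m' _ h ⟨b, c⟩ => ⟨h.trans b, fun q hq hx => h.trans (c q hq hx)⟩) (by
      intro x hx
      obtain ⟨ρ, hρ, hb⟩ := Metric.nhds_basis_closedBall.mem_iff.1 (hΩ.mem_nhds hx)
      have hF := hfin _ hb (isCompact_closedBall x ρ)
      obtain ⟨ε, hε, hε'⟩ := exists_pos_le hF a (fun q hq => ha q hq.1)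
      refine ⟨min (σ x / 2) ε, lt_min (half_pos (hσ0 x hx)) hε, ?_⟩
      have h3 : ∀ᶠ y in 𝓝[Ω] x, σ x / 2 < σ y :=
        (hσ x hx).eventually (lt_mem_nhds (half_lt_self (hσ0 x hx)))
      filter_upwards [h3, mem_nhdsWithin_of_mem_nhds (closedBall_mem_nhds x hρ)] with y hy hy'
      refine ⟨(min_le_left _ _).trans hy.le, fun q hq hyq => (min_le_right _ _).trans ?_⟩
      exact hε' q ⟨hq, ⟨y, hyq, hy'⟩⟩)
  exact ⟨m, h1, fun x hx => (h2 x hx).1, fun x hx => (h2 x hx).2.1,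
    fun q hq x hx hxq => (h2 x hx).2.2 q hq hxq⟩

/-- tolerances for the edges -/
theorem exists_tol_edge {Ω : Set V} {v : V} {J : Set Idx}
    (hfin : ∀ K ⊆ Ω, IsCompact K → {q | q ∈ J ∧ (dyc v q.1 q.2 ∩ K).Nonempty}.Finite)
    {a : Idx → ℝ} (ha : ∀ q ∈ J, 0 < a q) {δ : Idx × Fin 3 → ℝ} (hδ : ∀ e, 0 < δ e) :
    ∃ δ' : Idx × Fin 3 → ℝ, (∀ e, 0 < δ' e) ∧ (∀ e, δ' e ≤ δ e) ∧
      ∀ e, edge v e ⊆ Ω → ∀ q ∈ J, (dyc v q.1 q.2 ∩ edge v e).Nonempty → δ' e ≤ a q := by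
  have h : ∀ e : Idx × Fin 3, ∃ r > 0, edge v e ⊆ Ω → ∀ q ∈ J,
      (dyc v q.1 q.2 ∩ edge v e).Nonempty → r ≤ a q := by
    intro e
    by_cases he : edge v e ⊆ Ω
    · obtain ⟨ε, hε, hε'⟩ := exists_pos_le (hfin _ he (Gr.isCompact_edge v e)) a
        (fun q hq => ha q hq.1)
      exact ⟨ε, hε, fun _ q hq hne => hε' q ⟨hq, hne⟩⟩
    · exact ⟨1, one_pos, fun h => absurd h he⟩
  choose r hr0 hr using h
  exact ⟨fun e => min (δ e) (r e), fun e => lt_min (hδ e) (hr0 e), fun e => min_le_left _ _,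
    fun e he q hq hne => (min_le_right _ _).trans (hr e he q hq hne)⟩

end Vale.Agent.P073.H333
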