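import Vale.Agent.P073.H333.ChoiceB
import Vale.Agent.P073.H333.NetInB
import Vale.Agent.P073.AB.Tiles907
import Vale.Agent.P073.H73.Final3C

/-!
# P073, block A15-CHOICE: tools

* `shrink_sub_image'`: a map which is close to an affine map covers the shrunk parallelepiped;
* `exists_round`: affine maps with dyadic coefficients;
* `eventually_osc`: small oscillation on a compact set.
-/

namespace Vale.Agent.P073.H333

open MeasureTheory Set Filter Topology Metric Vale.Agent.P073.St Vale.Agent.P073.AB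
open Vale.Agent.P073.SQ (ev)
open _root_.P073.Net (dyc dyo)
open Vale.Agent.P073.H79 (EdgeLeb)
open Vale.Agent.P073.H194 (idx)
open Vale.Agent.P073.H989 (GoodPt)
open _root_.P073.Gauge.C110
open scoped ENNReal

/-- `f` is close to the affine map `A` on the closed cube, hence the image of the open cube contains
the image under `A` of the shrunk cube. -/
theorem shrink_sub_image' {f : V → V} {v : V} {n : ℕ} {z : Fin 3 → ℤ}
    (hcont : ContinuousOn f (dyc v n z)) (hinjf : InjOn f (dyc v n z)) {A : V → V}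
    {L : V →L[ℝ] V} {θ η δ : ℝ} (hθ : 0 < θ)
    (aff : ∀ x y, A y - A x = L (y - x)) (below : ∀ w, θ * ‖w‖ ≤ ‖L w‖)
    (hclose : ∀ x ∈ dyc v n z, ‖f x - A x‖ ≤ η) (hη : η < θ * δ) (hδ : 4 * δ ≤ 1 / 2 ^ n) :
    A '' shrink v n z δ ⊆ f '' dyo v n z := by
  have hη0 : 0 ≤ η := by
    have hc : pt v n z ∈ dyc v n z := fun k => by
      simp only [pt]
      have h2 : (z k : ℝ) / 2 ^ n ≤ (z k + 1) / 2 ^ n := by gcongr; linarith
      constructor <;> linarith
    exact (norm_nonneg _).trans (hclose _ hc)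
  have hδ0 : 0 < δ := by
    by_contra hcon
    have : θ * δ ≤ 0 := mul_nonpos_of_nonneg_of_nonpos hθ.le (not_lt.1 hcon)
    linarith
  have hAc : Continuous A := by
    have : A = fun y => A 0 + L y := by
      funext y
      have := aff 0 y
      rw [sub_zero] at this
      rw [← this]; abel
    rw [this]
    fun_prop
  have hnear : ∀ x y, ‖f x - A x‖ ≤ η → f x = A y → ‖y - x‖ < δ := by
    intro x y h1 h2
    have h3 : ‖A y - A x‖ ≤ η := by rw [← h2]; exact h1
    rw [aff x y] at h3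
    have h4 := below (y - x)
    have h5 : θ * ‖y - x‖ < θ * δ := by linarith
    exact lt_of_mul_lt_mul_left h5 hθ.le
  have hconv : Convex ℝ (shrink v n z δ) := by
    intro x hx y hy a b ha hb hab k
    have h1 := hx k
    have h2 := hy k
    have hb' : b = 1 - a := by linarith
    subst hb'
    simp only [Pi.add_apply, Pi.smul_apply, smul_eq_mul]
    constructor <;> nlinarith [h1.1, h1.2, h2.1, h2.2]
  have hpre : IsPreconnected (A '' shrink v n z δ) :=
    hconv.isPreconnected.image _ hAc.continuousOn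
  have hU : IsOpen (f '' dyo v n z) :=
    Sep.isOpen_image_of_injOn (isOpen_dyo v n z)
      (hcont.mono (by rw [← interior_dyc]; exact interior_subset))
      (hinjf.mono (by rw [← interior_dyc]; exact interior_subset))
  have hW : IsOpen (f '' dyc v n z)ᶜ :=
    ((P86.isCompact_dyc v n z).image_of_continuousOn hcont).isClosed.isOpen_compl
  have hcov : A '' shrink v n z δ ⊆ f '' dyo v n z ∪ (f '' dyc v n z)ᶜ := by
    rintro _ ⟨y, hy, rfl⟩
    by_cases hin : A y ∈ f '' dyc v n z
    · left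
      obtain ⟨x, hx, hxy⟩ := hin
      refine ⟨x, ?_, hxy⟩
      have h1 := hnear x y (hclose x hx) hxy
      intro k
      have h2 := hy k
      have h3 : |y k - x k| < δ := by
        have := norm_le_pi_norm (y - x) k
        rw [Pi.sub_apply, Real.norm_eq_abs] at this
        linarith
      rw [abs_lt] at h3
      constructor <;> linarith [h2.1, h2.2, h3.1, h3.2]
    · exact Or.inr hin
  refine hpre.subset_left_of_subset_union hU hW ?_ hcov ?_
  · rw [Set.disjoint_left]
    rintro _ ⟨x, hx, rfl⟩ hcon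
    exact hcon ⟨x, fun k => ⟨(hx k).1.le, (hx k).2.le⟩, rfl⟩
  · -- the centre
    set c : V := fun k => v k + (z k + 1 / 2) / 2 ^ n with hc
    have hn : (0:ℝ) < 1 / 2 ^ n := by positivity
    have hcd : c ∈ dyo v n z := by
      intro k
      simp only [hc]
      have e1 : (z k + 1 / 2 : ℝ) / 2 ^ n = z k / 2 ^ n + 1 / 2 ^ n / 2 := by ring
      have e2 : (z k + 1 : ℝ) / 2 ^ n = z k / 2 ^ n + 1 / 2 ^ n := by ring
      rw [e1, e2]
      constructor <;> linarith
    have hcc : c ∈ dyc v n z := fun k => ⟨(hcd k).1.le, (hcd k).2.le⟩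
    have hinj : Function.Injective L := by
      intro a b hab
      have h1 := below (a - b)
      rw [map_sub, hab, sub_self, norm_zero] at h1
      have h2 : ‖a - b‖ ≤ 0 := by
        by_contra hcon
        have := mul_pos hθ (not_le.1 hcon)
        linarith
      exact sub_eq_zero.1 (norm_le_zero_iff.1 h2)
    have hsurj : Function.Surjective L := by
      have := (LinearMap.injective_iff_surjective (f := (L : V →ₗ[ℝ] V))).1 hinj
      exact this
    obtain ⟨w, hw⟩ := hsurj (f c - A c)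
    have hy : A (c + w) = f c := by
      have h1 := aff c (c + w)
      rw [add_sub_cancel_left, hw] at h1
      exact sub_left_injective h1
    have h1 := hnear c (c + w) (hclose c hcc) hy.symm
    rw [add_sub_cancel_left] at h1
    refine ⟨f c, ⟨c + w, ?_, hy⟩, c, hcd, rfl⟩
    intro k
    have h3 : |w k| < δ := by
      have := norm_le_pi_norm w k
      rw [Real.norm_eq_abs] at this
      linarith
    rw [abs_lt] at h3
    have h4 : (0:ℝ) < 2 ^ n := by positivity
    simp only [hc, Pi.add_apply]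
    have e1 : (z k + 1 / 2 : ℝ) / 2 ^ n = z k / 2 ^ n + 1 / 2 ^ n / 2 := by ring
    have e2 : (z k + 1 : ℝ) / 2 ^ n = z k / 2 ^ n + 1 / 2 ^ n := by ring
    rw [e1, e2]
    constructor <;> linarith [h3.1, h3.2]

theorem sum_ev (w : V) : w = ∑ j, w j • (ev j : V) := by
  funext i
  rw [Finset.sum_apply]
  simp [ev, Pi.single_apply]

/-- rounding of an affine map -/
theorem exists_round (N : ℕ) (L : V →L[ℝ] V) (x₀ y₀ v : V) :
    ∃ (A' : V → V) (L' : V →L[ℝ] V), (∀ x y, A' y - A' x = L' (y - x)) ∧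
      (∀ w, ‖L' w - L w‖ ≤ 3 / 2 ^ N * ‖w‖) ∧ ‖A' x₀ - y₀‖ ≤ 1 / 2 ^ N ∧
      (∀ i j, ∃ a : ℤ, L' (ev j) i = a / 2 ^ N) ∧ ∀ i, ∃ b : ℤ, A' v i = b / 2 ^ N := by
  have hN : (0:ℝ) < 2 ^ N := by positivity
  have hfl : ∀ t : ℝ, |(⌊2 ^ N * t⌋ : ℝ) / 2 ^ N - t| ≤ 1 / 2 ^ N := by
    intro t
    have h1 := Int.floor_le (2 ^ N * t)
    have h2 := (Int.lt_floor_add_one (2 ^ N * t)).le
    rw [abs_le]
    constructor
    · rw [neg_le_sub_iff_le_add, ← add_div, le_div_iff₀ hN]; linarith
    · have : (⌊2 ^ N * t⌋ : ℝ) / 2 ^ N ≤ t := by rw [div_le_iff₀ hN]; linarith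
      have h3 : (0:ℝ) < 1 / 2 ^ N := by positivity
      linarith
  set B : Mat := fun i j => (⌊2 ^ N * L (ev j) i⌋ : ℝ) / 2 ^ N with hB
  have hBe : ∀ i j, cl B (ev j) i = B i j := by
    intro i j
    rw [PK.cl_apply]
    simp [ev, Pi.single_apply]
  have hLw : ∀ w i, L w i = ∑ j, L (ev j) i * w j := by
    intro w i
    conv_lhs => rw [sum_ev w]
    rw [map_sum, Finset.sum_apply]
    refine Finset.sum_congr rfl fun j _ => ?_
    rw [map_smul, Pi.smul_apply, smul_eq_mul, mul_comm]
  set b : V := fun i => (⌊2 ^ N * (y₀ + cl B (v - x₀)) i⌋ : ℝ) / 2 ^ N with hb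
  refine ⟨fun x => b + cl B (x - v), cl B, fun x y => ?_, fun w => ?_, ?_, fun i j => ?_,
    fun i => ?_⟩
  · simp only [map_sub]; abel
  · rw [pi_norm_le_iff_of_nonneg (by positivity)]
    intro i
    rw [Pi.sub_apply, PK.cl_apply, hLw, ← Finset.sum_sub_distrib, Real.norm_eq_abs]
    calc |∑ j, (B i j * w j - L (ev j) i * w j)|
        ≤ ∑ j, |B i j * w j - L (ev j) i * w j| := Finset.abs_sum_le_sum_abs _ _
      _ ≤ ∑ _j : Fin 3, 1 / 2 ^ N * ‖w‖ := by
          refine Finset.sum_le_sum fun j _ => ?_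
          rw [← sub_mul, abs_mul]
          have h1 : |B i j - L (ev j) i| ≤ 1 / 2 ^ N := hfl _
          have h2 : |w j| ≤ ‖w‖ := by
            rw [← Real.norm_eq_abs]; exact norm_le_pi_norm w j
          exact mul_le_mul h1 h2 (abs_nonneg _) (by positivity)
      _ = 3 / 2 ^ N * ‖w‖ := by
          rw [Finset.sum_const, Finset.card_univ, Fintype.card_fin]
          simp only [nsmul_eq_mul]
          push_cast
          ring
  · have h1 : (b + cl B (x₀ - v)) - y₀ = b - (y₀ + cl B (v - x₀)) := by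
      have : x₀ - v = -(v - x₀) := by abel
      rw [this, map_neg]; abel
    show ‖b + cl B (x₀ - v) - y₀‖ ≤ _
    rw [h1, pi_norm_le_iff_of_nonneg (by positivity)]
    intro i
    rw [Pi.sub_apply, Real.norm_eq_abs]
    exact hfl _
  · exact ⟨⌊2 ^ N * L (ev j) i⌋, hBe i j⟩
  · refine ⟨⌊2 ^ N * (y₀ + cl B (v - x₀)) i⌋, ?_⟩
    simp [hb]

/-- small oscillation near a compact set -/
theorem eventually_osc {Ω Λ : Set V} {f : V → V} (hΩ : IsOpen Ω) (hf : St.IsHomeo Ω Λ f)
    {K : Set V} (hK : K ⊆ Ω) (hKc : IsCompact K) {nn : ℕ → ℕ} (hnn : StrictMono nn) (C : ℝ)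
    {ε : ℝ} (hε : 0 < ε) :
    ∀ᶠ l in atTop, ∀ x ∈ K, ∀ y, ‖y - x‖ ≤ C / 2 ^ nn l → y ∈ Ω ∧ ‖f y - f x‖ ≤ ε := by
  obtain ⟨g, -, hfc, -⟩ := hf
  obtain ⟨r, hr, hKr⟩ := hKc.exists_cthickening_subset_open hΩ hK
  have hKrc : IsCompact (cthickening r K) := hKc.cthickening
  have huc := hKrc.uniformContinuousOn_of_continuous (hfc.mono hKr)
  obtain ⟨δ, hδ, hd⟩ := Metric.uniformContinuousOn_iff.1 huc ε hε
  have h1 : Tendsto (fun l => C * (1 / 2 ^ nn l : ℝ)) atTop (𝓝 0) := by
    have := (tendsto_pow_half hnn).const_mul C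
    simpa using this
  filter_upwards [h1.eventually_lt_const (lt_min hr hδ)] with l hl x hx y hy
  have h2 : dist y x < min r δ := by
    rw [dist_eq_norm]
    refine lt_of_le_of_lt hy ?_
    rw [div_eq_mul_one_div]; exact hl
  have h3 : y ∈ cthickening r K :=
    mem_cthickening_of_dist_le y x r K hx (h2.le.trans (min_le_left _ _))
  refine ⟨hKr h3, ?_⟩
  have h4 := hd y h3 x (self_subset_cthickening _ hx) (h2.trans_le (min_le_right _ _))
  rw [dist_eq_norm] at h4
  exact h4.le

end Vale.Agent.P073.H333
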