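import Vale.Agent.P073.H333.ChoiceC
import Vale.Agent.P073.H989.GensA

/-!
# P073, block A15-CHOICE: the good cells of one generation, exponent above two

`Cells3`: the cells, with affine maps with dyadic coefficients.
`exists_cells3`: they exist for all large generations of a generic sequence.
-/

namespace Vale.Agent.P073.H333

open MeasureTheory Set Filter Topology Metric Vale.Agent.P073.St Vale.Agent.P073.AB
open Vale.Agent.P073.SQ (ev)
open _root_.P073.Net (dyc dyo)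
open Vale.Agent.P073.H79 (EdgeLeb)
open Vale.Agent.P073.H194 (idx)
open Vale.Agent.P073.H989 (GoodPt)
open _root_.P073.Gauge.C110
open scoped ENNReal

/-- **The good cells of generation `n`**; fine generation `n + k₁ + k₀`. `K` is a compact subset
of `Ω`, `Q` is a free predicate. -/
structure Cells3 (p : ℝ) (ε : ℝ≥0∞) (θ M κ c₀ : ℝ) (k₁ k₀ : ℕ) (Ω Λ : Set V) (f : V → V)
    (F : V → Mat) (K : Set V) (Q : V → Prop) (v : V) (n : ℕ) where
  /-- the good cells -/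
  J : Finset (Fin 3 → ℤ)
  /-- good points -/
  x : (Fin 3 → ℤ) → V
  /-- affine maps -/
  A : (Fin 3 → ℤ) → V → V
  /-- their linear parts -/
  L : (Fin 3 → ℤ) → V →L[ℝ] V
  aff : ∀ z x y, A z y - A z x = L z (y - x)
  idx : ∀ z ∈ J, H194.idx v n (x z) = z
  memK : ∀ z ∈ J, x z ∈ K
  mem : ∀ z ∈ J, x z ∈ dyc v n z
  good : ∀ z ∈ J, GoodPt p Ω f F (x z)
  Fx : ∀ z ∈ J, ‖cl (F (x z))‖ ≤ M
  pred : ∀ z ∈ J, Q (x z)
  cell : ∀ z ∈ J, GoodCell θ M κ k₁ k₀ v (tiles Ω (n + k₁ + k₀) v) f F (n, z) (A z) (L z)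
  /-- closeness and distance to the boundaries, on a neighbourhood of the cell -/
  near : ∀ z ∈ J, ∀ y, ‖y - x z‖ ≤ 4 / 2 ^ n → y ∈ Ω ∧ c₀ ≤ infDist y Ωᶜ ∧
    c₀ ≤ infDist (f y) Λᶜ ∧ c₀ ≤ infDist (A z y) Λᶜ ∧ ‖f y - A z y‖ ≤ κ / 2 ^ (n + k₁ + k₀)
  /-- dyadic coefficients -/
  dyad : ∃ N : ℕ, ∀ z ∈ J, (∀ i j, ∃ a : ℤ, L z (ev j) i = a / 2 ^ N) ∧
    ∀ i, ∃ b : ℤ, A z v i = b / 2 ^ N
  /-- the shrunk parallelepiped is in the image of the open cell -/
  sub : ∀ z ∈ J, A z '' shrink v n z (1 / 2 ^ (n + k₁ + k₀)) ⊆ f '' dyo v n z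
  s1 : ∑ z ∈ J, ∫⁻ y in dyc v n z, ‖cl (F y) - L z‖ₑ ^ p ≤ ε
  s2 : ∫⁻ y in Ω \ ⋃ z ∈ J, dyc v n z, ‖cl (F y)‖ₑ ^ p ≤ ε

theorem volume_dyo_eq (v : V) (n : ℕ) (z : Fin 3 → ℤ) :
    volume (dyo v n z) = volume (dyc v n z) := by
  rw [H989.volume_dyo', H989.volume_dyc]

theorem sum_volume_le {Ω : Set V} {v : V} {n : ℕ} {J : Finset (Fin 3 → ℤ)}
    (h : ∀ z ∈ J, dyc v n z ⊆ Ω) : ∑ z ∈ J, volume (dyc v n z) ≤ volume Ω := by
  calc ∑ z ∈ J, volume (dyc v n z) = ∑ z ∈ J, volume (dyo v n z) :=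
        Finset.sum_congr rfl fun z _ => (volume_dyo_eq v n z).symm
    _ = volume (⋃ z ∈ J, dyo v n z) := by
        refine (measure_biUnion_finset ?_ fun z _ => (isOpen_dyo v n z).measurableSet).symm
        intro z _ z' _ hzz
        rw [Function.onFun, Set.disjoint_left]
        intro x hx hx'
        apply hzz
        funext k
        obtain ⟨h1, h2⟩ := hx k
        obtain ⟨h3, h4⟩ := hx' k
        have hp : (0:ℝ) < 2 ^ n := by positivity
        have h5 : (z k : ℝ) / 2 ^ n < (z' k + 1) / 2 ^ n := by linarith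
        have h6 : (z' k : ℝ) / 2 ^ n < (z k + 1) / 2 ^ n := by linarith
        rw [div_lt_div_iff_of_pos_right hp] at h5 h6
        have h7 : z k < z' k + 1 := by exact_mod_cast h5
        have h8 : z' k < z k + 1 := by exact_mod_cast h6
        omega
    _ ≤ volume Ω := by
        refine measure_mono (iUnion₂_subset fun z hz => Subset.trans ?_ (h z hz))
        exact fun x hx k => ⟨(hx k).1.le, (hx k).2.le⟩

/-- distance of a compact subset to the complement -/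
theorem exists_infDist {Ω K : Set V} (hΩ : IsOpen Ω) (hb : Bornology.IsBounded Ω) (hK : K ⊆ Ω)
    (hKc : IsCompact K) : ∃ d > 0, ∀ x ∈ K, d ≤ infDist x Ωᶜ := by
  have hne : (Ωᶜ).Nonempty := by
    by_contra hcon
    rw [not_nonempty_iff_eq_empty, compl_empty_iff] at hcon
    rw [hcon] at hb
    exact (NormedSpace.unbounded_univ ℝ V) hb
  obtain ⟨r, hr, h⟩ := hKc.exists_cthickening_subset_open hΩ hK
  refine ⟨r, hr, fun x hx => ?_⟩
  rw [le_infDist hne]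
  intro y hy
  by_contra hcon
  push Not at hcon
  refine hy (h (mem_cthickening_of_dist_le y x r K hx ?_))
  rw [dist_comm]; exact hcon.le

theorem dyc_near {v : V} {n : ℕ} {z : Fin 3 → ℤ} {x y : V} (hx : x ∈ dyc v n z)
    (hy : y ∈ dyc v n z) : ‖y - x‖ ≤ 1 / 2 ^ n := by
  rw [pi_norm_le_iff_of_nonneg (by positivity)]
  intro k
  have h1 := hx k
  have h2 := hy k
  have e : ((z k : ℝ) + 1) / 2 ^ n = z k / 2 ^ n + 1 / 2 ^ n := by ring
  rw [e] at h1 h2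
  rw [Pi.sub_apply, Real.norm_eq_abs, abs_le]
  constructor <;> linarith [h1.1, h1.2, h2.1, h2.2]

/-- the energy of a constant perturbation -/
theorem lintegral_pert {p : ℝ} (hp : 1 ≤ p) {S : Set V} {G : V → V →L[ℝ] V}
    {L L' : V →L[ℝ] V} {τ : ℝ≥0∞} (h1 : ∫⁻ y in S, ‖G y - L‖ₑ ^ p ≤ τ * volume S)
    (h2 : ‖L - L'‖ₑ ^ p ≤ τ) :
    ∫⁻ y in S, ‖G y - L'‖ₑ ^ p ≤ 2 ^ (p - 1) * (2 * τ) * volume S := by
  have h3 : ∀ y, ‖G y - L'‖ₑ ^ p ≤ 2 ^ (p - 1) * (‖G y - L‖ₑ ^ p + τ) := by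
    intro y
    have e : G y - L' = (G y - L) + (L - L') := by abel
    calc ‖G y - L'‖ₑ ^ p ≤ (‖G y - L‖ₑ + ‖L - L'‖ₑ) ^ p := by
          rw [e]
          refine ENNReal.rpow_le_rpow ?_ (by linarith)
          show ((‖(G y - L) + (L - L')‖₊ : NNReal) : ℝ≥0∞) ≤ (‖G y - L‖₊ : ℝ≥0∞) + ‖L - L'‖₊
          exact_mod_cast nnnorm_add_le _ _
      _ ≤ 2 ^ (p - 1) * (‖G y - L‖ₑ ^ p + ‖L - L'‖ₑ ^ p) :=
          ENNReal.rpow_add_le_mul_rpow_add_rpow _ _ hp
      _ ≤ _ := by gcongr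
  calc ∫⁻ y in S, ‖G y - L'‖ₑ ^ p ≤ ∫⁻ y in S, 2 ^ (p - 1) * (‖G y - L‖ₑ ^ p + τ) :=
        lintegral_mono h3
    _ = 2 ^ (p - 1) * ((∫⁻ y in S, ‖G y - L‖ₑ ^ p) + τ * volume S) := by
        rw [lintegral_const_mul' _ _ H880.two_rpow_ne_top, lintegral_add_right' _ (by fun_prop),
          setLIntegral_const]
    _ ≤ 2 ^ (p - 1) * (τ * volume S + τ * volume S) := by gcongr
    _ = _ := by ring

/-- **(A15-CHOICE)** -/
theorem exists_cells3 {p : ℝ} (hp : 2 < p) {Ω Λ : Set V} (hΩ : St.IsBoundedDomain Ω)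
    (hΛ : St.IsBoundedDomain Λ) {f : V → V} {F : V → Mat} (hf : St.IsHomeo Ω Λ f)
    (hF : St.IsSobolev p Ω f F) (hFD : FinDist Ω F) {ε : ℝ≥0∞} (hε : ε ≠ 0) :
    ∃ θ > 0, ∃ M > 0, ∃ c₀ > 0, ∃ K ⊆ Ω, IsCompact K ∧ volume (Ω \ K) ≤ ε ∧
      ∀ (κ : ℝ) (k₁ k₀ : ℕ) (v : V) (nn : ℕ → ℕ) (Q : ℕ → V → Prop), 0 < κ → 2 ≤ k₁ →
      StrictMono nn → (∀ᵐ x, EdgeLeb v nn (Ω.indicator fun x => cl (F x)) x) →
      (∀ᵐ x ∂(volume : Measure V), x ∈ Ω → NonSing (F x) → ∀ᶠ l in atTop, Q l x) →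
      ∀ᶠ l in atTop, Nonempty (Cells3 p ε θ M κ c₀ k₁ k₀ Ω Λ f F K (Q l) v (nn l)) := by
  classical
  have hp1 : 1 ≤ p := by linarith
  have hv := PK.volume_ne_top_of_domain hΩ
  have hb := PK.isBounded_of_domain hΩ
  have hbΛ := PK.isBounded_of_domain hΛ
  obtain ⟨θ₀, hθ₀, M₀, hM₀, K₀, hK₀, hK₀c, hcore⟩ := choice_coreQ hp hΩ hΛ hf hF hFD hε
  -- the compact set
  obtain ⟨K₁, hK₁, hK₁c, hK₁v⟩ := hΩ.1.measurableSet.exists_isCompact_sdiff_lt hv hε
  have hfc : ContinuousOn f Ω := by obtain ⟨g, -, h, -⟩ := hf; exact h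
  have hinj : InjOn f Ω := by
    obtain ⟨g, h, -, -⟩ := hf
    intro a ha b hb hab
    rw [← (h.1 a ha).2, hab, (h.1 b hb).2]
  have hmaps : ∀ x ∈ Ω, f x ∈ Λ := by
    obtain ⟨g, h, -, -⟩ := hf
    exact fun x hx => (h.1 x hx).1
  obtain ⟨d₁, hd₁, hd₁'⟩ := exists_infDist hΩ.1 hb hK₀ hK₀c
  obtain ⟨d₂, hd₂, hd₂'⟩ := exists_infDist (K := f '' K₀) hΛ.1 hbΛ
    (by rintro _ ⟨x, hx, rfl⟩; exact hmaps x (hK₀ hx)) (hK₀c.image_of_continuousOn (hfc.mono hK₀))
  set c₀ : ℝ := min d₁ d₂ / 2 with hc₀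
  have hc₀0 : 0 < c₀ := by
    have := lt_min hd₁ hd₂
    positivity
  have hc₁ : 2 * c₀ ≤ d₁ := by rw [hc₀]; linarith [min_le_left d₁ d₂]
  have hc₂ : 2 * c₀ ≤ d₂ := by rw [hc₀]; linarith [min_le_right d₁ d₂]
  refine ⟨θ₀ / 2, by positivity, M₀ + θ₀, by positivity, c₀, hc₀0, K₀ ∪ K₁,
    union_subset hK₀ hK₁, hK₀c.union hK₁c, ?_, ?_⟩
  · exact (measure_mono (sdiff_subset_sdiff_right subset_union_right)).trans hK₁v.le
  intro κ k₁ k₀ v nn Q hκ hk₁ hnn hE hQ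
  -- the tolerance
  obtain ⟨t, ht0, ht⟩ := H73.exists_small (c := 2 ^ (p - 1) * 2 * volume Ω)
    (ENNReal.mul_ne_top (ENNReal.mul_ne_top H880.two_rpow_ne_top (by norm_num)) hv) hε
  set τ : ℝ := min (min κ (θ₀ / 4)) (min t 1) / 2 with hτ
  have hτ0 : 0 < τ := by
    have : 0 < min (min κ (θ₀ / 4)) (min t 1) :=
      lt_min (lt_min hκ (by positivity)) (lt_min ht0 one_pos)
    positivity
  have hm1 : min (min κ (θ₀ / 4)) (min t 1) ≤ κ := (min_le_left _ _).trans (min_le_left _ _)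
  have hm2 : min (min κ (θ₀ / 4)) (min t 1) ≤ θ₀ / 4 := (min_le_left _ _).trans (min_le_right _ _)
  have hm3 : min (min κ (θ₀ / 4)) (min t 1) ≤ t := (min_le_right _ _).trans (min_le_left _ _)
  have hm4 : min (min κ (θ₀ / 4)) (min t 1) ≤ 1 := (min_le_right _ _).trans (min_le_right _ _)
  have hτκ : 2 * τ ≤ κ := by rw [hτ]; linarith
  have hτθ : 2 * τ ≤ θ₀ / 4 := by rw [hτ]; linarith
  have hτt : τ ≤ t := by linarith
  have hτ1 : 2 * τ ≤ 1 := by rw [hτ]; linarith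
  -- small cells
  have hsm : Tendsto (fun l => (4 * M₀ + 8) * (1 / 2 ^ nn l : ℝ)) atTop (𝓝 0) := by
    have := (tendsto_pow_half hnn).const_mul (4 * M₀ + 8)
    simpa using this
  filter_upwards [hcore τ (k₁ + k₀) v nn Q hτ0 hnn hE hQ, hsm.eventually_lt_const hc₀0] with
    l hl hlc
  obtain ⟨Z, x, hZ, hZs⟩ := hl
  set n := nn l with hn
  have hn0 : (0:ℝ) < 1 / 2 ^ n := by positivity
  have hn1 : (1 / 2 ^ n : ℝ) ≤ 1 := by
    rw [div_le_one (by positivity)]; exact one_le_pow₀ (by norm_num)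
  have hNn : (1 / 2 ^ (n + k₁ + k₀) : ℝ) ≤ 1 / 2 ^ n := by
    apply one_div_le_one_div_of_le (by positivity)
    exact pow_le_pow_right₀ (by norm_num) (by omega)
  have hN0 : (0:ℝ) < 1 / 2 ^ (n + k₁ + k₀) := by positivity
  have hadd : n + (k₁ + k₀) = n + k₁ + k₀ := by ring
  -- the rounding
  have hround : ∃ N : ℕ, (16 / 2 ^ N : ℝ) ≤ τ / 2 ^ (n + k₁ + k₀) := by
    have h1 : Tendsto (fun N : ℕ => (16 * (1 / 2) ^ N : ℝ)) atTop (𝓝 (16 * 0)) :=
      (tendsto_pow_atTop_nhds_zero_of_lt_one (by norm_num) (by norm_num)).const_mul 16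
    rw [mul_zero] at h1
    obtain ⟨N, hN⟩ := (h1.eventually_lt_const (show (0:ℝ) < τ / 2 ^ (n + k₁ + k₀) by
      positivity)).exists
    refine ⟨N, ?_⟩
    rw [one_div_pow] at hN
    rw [div_eq_mul_one_div]
    exact hN.le
  obtain ⟨N, hN⟩ := hround
  have hN1 : (0:ℝ) < 1 / 2 ^ N := by positivity
  have hNτ : 16 * (1 / 2 ^ N : ℝ) ≤ τ * (1 / 2 ^ (n + k₁ + k₀)) := by
    rw [← div_eq_mul_one_div, ← div_eq_mul_one_div]; exact hN
  have hNτ' : 16 * (1 / 2 ^ N : ℝ) ≤ τ := by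
    refine hNτ.trans (mul_le_of_le_one_right hτ0.le (hNn.trans hn1))
  choose A L haff hpert hbase hdL hdA using fun z => exists_round N (cl (F (x z))) (x z) (f (x z)) v
  have hpert' : ∀ z w, ‖L z w - cl (F (x z)) w‖ ≤ τ / 4 * ‖w‖ := by
    intro z w
    refine (hpert z w).trans (mul_le_mul_of_nonneg_right ?_ (norm_nonneg _))
    rw [div_eq_mul_one_div]; linarith
  -- closeness
  have hAclose : ∀ z y, ‖y - x z‖ ≤ 4 / 2 ^ n →
      ‖f (x z) + cl (F (x z)) (y - x z) - A z y‖ ≤ τ * (1 / 2 ^ (n + k₁ + k₀)) := by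
    intro z y hy
    have h1 : A z y = A z (x z) + L z (y - x z) := by
      rw [← haff z (x z) y]; abel
    have h2 : f (x z) + cl (F (x z)) (y - x z) - A z y =
        -(A z (x z) - f (x z)) - (L z (y - x z) - cl (F (x z)) (y - x z)) := by
      rw [h1]; abel
    rw [h2]
    refine (norm_sub_le _ _).trans ?_
    rw [norm_neg]
    have h3 := hpert z (y - x z)
    have h4 : (3 / 2 ^ N : ℝ) * ‖y - x z‖ ≤ 3 / 2 ^ N * 4 := by
      refine mul_le_mul_of_nonneg_left (hy.trans ?_) (by positivity)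
      rw [div_eq_mul_one_div]; linarith
    have h5 : (3 / 2 ^ N : ℝ) * 4 = 12 * (1 / 2 ^ N) := by ring
    linarith [hbase z]
  have hnear : ∀ z ∈ Z, ∀ y, ‖y - x z‖ ≤ 4 / 2 ^ n →
      ‖f y - A z y‖ ≤ 2 * τ * (1 / 2 ^ (n + k₁ + k₀)) := by
    intro z hz y hy
    have h1 := ((hZ z hz).2.1.near y hy).2
    rw [hadd, div_eq_mul_one_div] at h1
    have h2 : f y - A z y = (f y - f (x z) - cl (F (x z)) (y - x z)) +
        (f (x z) + cl (F (x z)) (y - x z) - A z y) := by abel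
    rw [h2]
    refine (norm_add_le _ _).trans ?_
    linarith [hAclose z y hy]
  have hfnear : ∀ z ∈ Z, ∀ y, ‖y - x z‖ ≤ 4 / 2 ^ n → ‖f y - f (x z)‖ ≤
      (4 * M₀ + 1) * (1 / 2 ^ n) := by
    intro z hz y hy
    have h1 := ((hZ z hz).2.1.near y hy).2
    rw [hadd, div_eq_mul_one_div] at h1
    have h2 := (hZ z hz).2.1.above (y - x z)
    have h3 : M₀ * ‖y - x z‖ ≤ M₀ * (4 / 2 ^ n) := mul_le_mul_of_nonneg_left hy hM₀.le
    have h4 : f y - f (x z) = (f y - f (x z) - cl (F (x z)) (y - x z)) +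
      cl (F (x z)) (y - x z) := by abel
    have h5 : τ * (1 / 2 ^ (n + k₁ + k₀)) ≤ 1 * (1 / 2 ^ n) := by
      refine mul_le_mul (by linarith) hNn hN0.le zero_le_one
    rw [h4]
    refine (norm_add_le _ _).trans ?_
    have h6 : M₀ * (4 / 2 ^ n : ℝ) = 4 * M₀ * (1 / 2 ^ n) := by ring
    linarith
  have hlip : ∀ (S : Set V) (a b : V), infDist a S ≤ infDist b S + ‖b - a‖ := fun S a b => by
    rw [← dist_eq_norm, dist_comm]; exact infDist_le_infDist_add_dist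
  have hall : ∀ z ∈ Z, ∀ y, ‖y - x z‖ ≤ 4 / 2 ^ n → y ∈ Ω ∧ c₀ ≤ infDist y Ωᶜ ∧
      c₀ ≤ infDist (f y) Λᶜ ∧ c₀ ≤ infDist (A z y) Λᶜ ∧
      ‖f y - A z y‖ ≤ κ / 2 ^ (n + k₁ + k₀) := by
    intro z hz y hy
    have e1 := hd₁' _ (hZ z hz).1
    have e2 := hd₂' _ ⟨_, (hZ z hz).1, rfl⟩
    have e3 := hlip Ωᶜ (x z) y
    have e4 := hlip Λᶜ (f (x z)) (f y)
    have e5 := hlip Λᶜ (f y) (A z y)
    have e6 := hfnear z hz y hy
    have e7 := hnear z hz y hy
    have e8 : ‖y - x z‖ ≤ 4 * (1 / 2 ^ n) := by rw [← div_eq_mul_one_div]; exact hy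
    have e9 : 2 * τ * (1 / 2 ^ (n + k₁ + k₀)) ≤ 1 * (1 / 2 ^ n) :=
      mul_le_mul hτ1 hNn hN0.le zero_le_one
    have e10 : ‖A z y - f y‖ = ‖f y - A z y‖ := norm_sub_rev _ _
    have e11 : 4 * M₀ * (1 / 2 ^ n) + 8 * (1 / 2 ^ n) < c₀ := by linarith
    have e12 : 0 < 4 * M₀ * (1 / 2 ^ n) := by positivity
    have e13 : infDist (f (x z)) Λᶜ ≤ infDist (A z y) Λᶜ + ‖A z y - f y‖ + ‖f y - f (x z)‖ := by
      linarith
    refine ⟨((hZ z hz).2.1.near y hy).1, by linarith, by linarith, by linarith, e7.trans ?_⟩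
    rw [div_eq_mul_one_div κ]
    exact mul_le_mul_of_nonneg_right hτκ hN0.le
  have hcell : ∀ z, ∀ y ∈ dyc v n z, z ∈ Z → ‖y - x z‖ ≤ 4 / 2 ^ n := by
    intro z y hy hz
    refine (dyc_near (hZ z hz).2.1.mem hy).trans ?_
    rw [div_eq_mul_one_div 4]; linarith
  have hbelow : ∀ z ∈ Z, ∀ w, θ₀ / 2 * ‖w‖ ≤ ‖L z w‖ := by
    intro z hz w
    have h1 := (hZ z hz).2.1.below w
    have h2 := hpert' z w
    have h3 : ‖cl (F (x z)) w‖ ≤ ‖L z w‖ + ‖L z w - cl (F (x z)) w‖ := by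
      have : cl (F (x z)) w = L z w - (L z w - cl (F (x z)) w) := by abel
      calc ‖cl (F (x z)) w‖ = ‖L z w - (L z w - cl (F (x z)) w)‖ := by rw [← this]
        _ ≤ _ := norm_sub_le _ _
    have h4 : τ / 4 * ‖w‖ ≤ θ₀ / 2 * ‖w‖ :=
      mul_le_mul_of_nonneg_right (by linarith) (norm_nonneg _)
    linarith
  have habove : ∀ z ∈ Z, ∀ w, ‖L z w‖ ≤ (M₀ + θ₀) * ‖w‖ := by
    intro z hz w
    have h1 := (hZ z hz).2.1.above w
    have h2 := hpert' z w
    have h3 : ‖L z w‖ ≤ ‖cl (F (x z)) w‖ + ‖L z w - cl (F (x z)) w‖ := by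
      have : L z w = cl (F (x z)) w + (L z w - cl (F (x z)) w) := by abel
      calc ‖L z w‖ = ‖cl (F (x z)) w + (L z w - cl (F (x z)) w)‖ := by rw [← this]
        _ ≤ _ := norm_add_le _ _
    have h4 : τ / 4 * ‖w‖ ≤ θ₀ * ‖w‖ :=
      mul_le_mul_of_nonneg_right (by linarith) (norm_nonneg _)
    linarith
  obtain ⟨-, -, -, -, htile⟩ := specTiles Ω (n + k₁ + k₀) v hΩ.1 hb hΩ.2.1.nonempty
  refine ⟨{
    J := Z
    x := x
    A := A
    L := L
    aff := haff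
    idx := fun z hz => (hZ z hz).2.2.2
    memK := fun z hz => Or.inl (hZ z hz).1
    mem := fun z hz => (hZ z hz).2.1.mem
    good := fun z hz => (hZ z hz).2.1.good
    Fx := fun z hz => ContinuousLinearMap.opNorm_le_bound _ (by positivity) fun w =>
      ((hZ z hz).2.1.above w).trans (mul_le_mul_of_nonneg_right (by linarith) (norm_nonneg _))
    pred := fun z hz => (hZ z hz).2.2.1
    cell := fun z hz => ?_
    near := hall
    dyad := ⟨N, fun z _ => ⟨hdL z, hdA z⟩⟩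
    sub := fun z hz => ?_
    s1 := ?_
    s2 := hZs }⟩
  · refine ⟨haff z, hbelow z hz, habove z hz, fun z' hz' => ?_, fun y hy => ?_, fun e he hes => ?_⟩
    · apply htile
      intro y hy
      obtain ⟨y', hy', hy''⟩ := hz'
      have h1 := dyc_near hy' hy
      have h2 := dyc_near (hZ z hz).2.1.mem hy''
      have h3 : ‖y - x z‖ ≤ 4 / 2 ^ n := by
        have : y - x z = (y - y') + (y' - x z) := by abel
        rw [this, div_eq_mul_one_div]
        refine (norm_add_le _ _).trans ?_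
        linarith
      have h4 := (hall z hz y h3).2.1
      have h5 : 0 < 4 * M₀ * (1 / 2 ^ n) := by positivity
      linarith
    · exact (hall z hz y (hcell z y hy hz)).2.2.2.2
    · have h1 := (hZ z hz).2.1.own e (by rw [hadd]; exact he) hes
      have h2 : eInt v e (fun y => ENNReal.ofReal ‖cl (F y) (ev e.2) - L z (ev e.2)‖) ≤
          eInt v e (fun y => ENNReal.ofReal ‖cl (F y) (ev e.2) - cl (F (x z)) (ev e.2)‖) +
          ENNReal.ofReal (τ / 2 ^ (n + k₁ + k₀)) := by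
        unfold eInt
        have h3 : ENNReal.ofReal (τ / 2 ^ (n + k₁ + k₀)) =
            ENNReal.ofReal (1 / 2 ^ e.1.1) * ∫⁻ _t in Icc (0:ℝ) 1, ENNReal.ofReal τ := by
          rw [setLIntegral_const, Real.volume_Icc, sub_zero, ENNReal.ofReal_one, mul_one,
            ← ENNReal.ofReal_mul (by positivity)]
          congr 1
          have : e.1.1 = n + k₁ + k₀ := he
          rw [this]; ring
        rw [h3, ← mul_add, ← lintegral_add_right' _ (by fun_prop)]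
        gcongr with t
        rw [← ENNReal.ofReal_add (norm_nonneg _) hτ0.le]
        apply ENNReal.ofReal_le_ofReal
        have h4 := hpert' z (ev e.2)
        have h5 : ‖(ev e.2 : V)‖ ≤ 1 := by
          rw [pi_norm_le_iff_of_nonneg zero_le_one]
          intro i
          rw [ev]
          by_cases hi : i = e.2
          · subst hi; simp
          · simp [hi]
        have h6 : τ / 4 * ‖(ev e.2 : V)‖ ≤ τ / 4 * 1 :=
          mul_le_mul_of_nonneg_left h5 (by positivity)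
        set y : V := pt v e.1.1 e.1.2 + t • ((1 / 2 ^ e.1.1 : ℝ) • (ev e.2 : V))
        have h7 : cl (F y) (ev e.2) - L z (ev e.2) =
            (cl (F y) (ev e.2) - cl (F (x z)) (ev e.2)) -
            (L z (ev e.2) - cl (F (x z)) (ev e.2)) := by abel
        rw [h7]
        refine (norm_sub_le _ _).trans ?_
        linarith
      refine h2.trans ?_
      rw [hadd] at h1
      refine (add_le_add_left h1 _).trans ?_
      rw [← ENNReal.ofReal_add (by positivity) (by positivity)]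
      apply ENNReal.ofReal_le_ofReal
      have : τ / 2 ^ (n + k₁ + k₀) + τ / 2 ^ (n + k₁ + k₀) = 2 * τ * (1 / 2 ^ (n + k₁ + k₀)) := by
        ring
      show _ ≤ κ / 2 ^ (n + k₁ + k₀)
      rw [this, div_eq_mul_one_div κ]
      exact mul_le_mul_of_nonneg_right hτκ hN0.le
  · have hsub : dyc v n z ⊆ Ω := fun y hy => (hall z hz y (hcell z y hy hz)).1
    refine shrink_sub_image' (hfc.mono hsub) (hinj.mono hsub) (θ := θ₀ / 2) (by positivity)
      (haff z) (hbelow z hz) (fun y hy => hnear z hz y (hcell z y hy hz)) ?_ ?_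
    · refine mul_lt_mul_of_pos_right ?_ hN0
      linarith
    · have : (1 / 2 ^ (n + k₁ + k₀) : ℝ) ≤ 1 / 2 ^ (n + 2) := by
        apply one_div_le_one_div_of_le (by positivity)
        exact pow_le_pow_right₀ (by norm_num) (by omega)
      have h2 : (1 / 2 ^ (n + 2) : ℝ) = 1 / 2 ^ n / 4 := by
        rw [pow_add]; ring
      linarith
  · have h1 : ∀ z ∈ Z, ∫⁻ y in dyc v n z, ‖cl (F y) - L z‖ₑ ^ p ≤
        2 ^ (p - 1) * (2 * ENNReal.ofReal τ) * volume (dyc v n z) := by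
      intro z hz
      refine lintegral_pert hp1 (hZ z hz).2.1.leb ?_
      have h2 : ‖cl (F (x z)) - L z‖ ≤ τ := by
        rw [← norm_neg, neg_sub]
        refine ContinuousLinearMap.opNorm_le_bound _ hτ0.le fun w => ?_
        refine (hpert' z w).trans (mul_le_mul_of_nonneg_right (by linarith) (norm_nonneg _))
      have h3 : ‖cl (F (x z)) - L z‖ₑ ≤ ENNReal.ofReal τ := by
        rw [← ofReal_norm]
        exact ENNReal.ofReal_le_ofReal h2
      calc ‖cl (F (x z)) - L z‖ₑ ^ p ≤ ENNReal.ofReal τ ^ p :=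
            ENNReal.rpow_le_rpow h3 (by linarith)
        _ ≤ ENNReal.ofReal τ ^ (1:ℝ) := by
            refine ENNReal.rpow_le_rpow_of_exponent_ge ?_ hp1
            rw [ENNReal.ofReal_le_one]; linarith
        _ = _ := ENNReal.rpow_one _
    calc ∑ z ∈ Z, ∫⁻ y in dyc v n z, ‖cl (F y) - L z‖ₑ ^ p
        ≤ ∑ z ∈ Z, 2 ^ (p - 1) * (2 * ENNReal.ofReal τ) * volume (dyc v n z) :=
          Finset.sum_le_sum h1
      _ = 2 ^ (p - 1) * (2 * ENNReal.ofReal τ) * ∑ z ∈ Z, volume (dyc v n z) := by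
          rw [Finset.mul_sum]
      _ ≤ 2 ^ (p - 1) * (2 * ENNReal.ofReal τ) * volume Ω := by
          gcongr
          exact sum_volume_le fun z hz y hy => (hall z hz y (hcell z y hy hz)).1
      _ = 2 ^ (p - 1) * 2 * volume Ω * ENNReal.ofReal τ := by ring
      _ ≤ 2 ^ (p - 1) * 2 * volume Ω * ENNReal.ofReal t := by gcongr
      _ ≤ ε := ht

end Vale.Agent.P073.H333
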