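import Vale.Agent.P073.H333.Exhaust
import Vale.Agent.P073.ConHomeo

/-!
# P073: exhaustion at the measure level, and conical homeomorphisms without wild points
-/

namespace Vale.Agent.P073.H333

open MeasureTheory Set Filter Topology Vale.Agent.P073.St
open _root_.P073 (ConHomeo ConicalWithinAt ConicalOn)
open scoped ENNReal NNReal ContDiff

variable {p : ℝ} {Ω Λ : Set V} {Q : (V → V) → V → Prop} {Z : V → Set Mat}
  {ι : Type*} {ψ χ : ι → V → Mat → ℝ} {σ τ ρ : V → ℝ} {η : ℝ}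

/-- **Exhaustion at the measure level.** If from each state one can free a definite proportion of
the measure `ν` of the wild set at arbitrarily small cost, then one can reach a state with a wild
set of measure zero at arbitrarily small cost. -/
theorem exhaust_measure (hp : 2 ≤ p) (hΩ : IsBoundedDomain Ω) (hΛ : IsBoundedDomain Λ)
    (hQ : ∀ g g' x, g =ᶠ[𝓝 x] g' → Q g x → Q g' x) (hZ : ∀ x, IsClosed (Z x))
    (hψ : ∀ i, Adm Ω (ψ i)) (hχ : ∀ i, Adm Ω (χ i)) (hle : ∀ i x M, ψ i x M ≤ χ i x M)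
    (i0 : ι) {c : ℝ} (hc0 : 0 ≤ c) (hc : ∀ x M a b, |M a b| ^ p ≤ c * ψ i0 x M)
    (hσ : ContinuousOn σ Ω) (hτ : ContinuousOn τ Λ) (hρ : ContinuousOn ρ Ω)
    (hσ0 : ∀ x ∈ Ω, 0 < σ x) (hτ0 : ∀ x ∈ Λ, 0 < τ x) (hρ0 : ∀ x ∈ Ω, 0 < ρ x) (hη : 0 < η)
    (s₀ : State p Ω Λ Q Z) (hfin : Phi (ψ i0) (χ i0) s₀ ≠ ⊤)
    (ν : Measure V) [IsFiniteMeasure ν] {θ : ℝ≥0∞} (hθ : θ < 1)
    (hstep : ∀ s : State p Ω Λ Q Z, Near ψ χ σ τ ρ η s₀ s 1 → ν s.K ≠ 0 →
      ∀ σ' τ' ρ' : V → ℝ, ContinuousOn σ' Ω →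
        ContinuousOn τ' Λ → ContinuousOn ρ' Ω → (∀ x ∈ Ω, 0 < σ' x) → (∀ x ∈ Λ, 0 < τ' x) →
        (∀ x ∈ Ω, 0 < ρ' x) → ∀ η' : ℝ, 0 < η' →
        ∃ t : State p Ω Λ Q Z, ν t.K ≤ θ * ν s.K ∧ Near ψ χ σ' τ' ρ' η' s t 1) :
    ∃ t : State p Ω Λ Q Z, ν t.K = 0 ∧ Near ψ χ σ τ ρ η s₀ t 1 := by
  set σ₁ : V → ℝ := fun x => min (σ x) (Metric.infDist (s₀.g x) Λᶜ / 2) with hσ₁
  set τ₁ : V → ℝ := fun y => min (τ y) (Metric.infDist (s₀.h y) Ωᶜ / 2) with hτ₁
  have hσ₁c : ContinuousOn σ₁ Ω := continuous_min.comp_continuousOn (hσ.prodMk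
    (((Metric.continuous_infDist_pt _).comp_continuousOn s₀.cont).div_const 2))
  have hτ₁c : ContinuousOn τ₁ Λ := continuous_min.comp_continuousOn (hτ.prodMk
    (((Metric.continuous_infDist_pt _).comp_continuousOn s₀.cont_inv).div_const 2))
  have hσ₁0 : ∀ x ∈ Ω, 0 < σ₁ x := fun x hx =>
    lt_min (hσ0 x hx) (half_pos (infDist_pos hΛ (s₀.inv.1 x hx).1))
  have hτ₁0 : ∀ x ∈ Λ, 0 < τ₁ x := fun x hx =>
    lt_min (hτ0 x hx) (half_pos (infDist_pos hΩ (s₀.inv.2 x hx).1))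
  have hσ₁n : ∀ x ∈ Ω, 0 ≤ σ₁ x := fun x hx => (hσ₁0 x hx).le
  have hτ₁n : ∀ x ∈ Λ, 0 ≤ τ₁ x := fun x hx => (hτ₁0 x hx).le
  have hρn : ∀ x ∈ Ω, 0 ≤ ρ x := fun x hx => (hρ0 x hx).le
  have hp1 : 1 ≤ p := by linarith
  let P : ℕ → ℝ := fun n => (1 / 2) ^ n
  have hP0 : ∀ n, 0 < P n := fun n => by positivity
  have hP1 : ∀ n, P n ≤ 1 := fun n => pow_le_one₀ (by norm_num) (by norm_num)
  have hPs : ∀ n, P n - P (n + 1) = P (n + 1) := fun n => by
    simp only [P, pow_succ]; ring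
  have hPanti : Antitone P := fun n m h => pow_le_pow_of_le_one (by norm_num) (by norm_num) h
  have hPlim : Tendsto P atTop (𝓝 0) :=
    tendsto_pow_atTop_nhds_zero_of_lt_one (by norm_num) (by norm_num)
  -- one step
  have key : ∀ (n : ℕ) (s : State p Ω Λ Q Z), Near ψ χ σ₁ τ₁ ρ η s₀ s (1 - P n) →
      ∃ t : State p Ω Λ Q Z, ν t.K ≤ θ * ν s.K ∧ Near ψ χ σ₁ τ₁ ρ η s t (P n - P (n + 1)) ∧
        Near ψ χ σ₁ τ₁ ρ η s₀ t (1 - P (n + 1)) := by
    intro n s hs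
    have hPn := hP0 (n + 1)
    obtain ⟨t, ht1, ht2⟩ : ∃ t : State p Ω Λ Q Z, ν t.K ≤ θ * ν s.K ∧
        Near ψ χ σ₁ τ₁ ρ η s t (P n - P (n + 1)) := by
      rw [hPs]
      by_cases h0 : ν s.K = 0
      · exact ⟨s, by rw [h0, mul_zero], (Near.refl s).mono_d hPn.le hσ₁n hτ₁n hρn hη.le⟩
      · have hn1 : Near ψ χ σ τ ρ η s₀ s 1 :=
          (hs.mono_d (by linarith [hP0 n]) hσ₁n hτ₁n hρn hη.le).mono_fun zero_le_one
            (fun x _ => min_le_left _ _) (fun x _ => min_le_left _ _) (fun _ _ => le_rfl) le_rfl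
        obtain ⟨t, h1, h2⟩ := hstep s hn1 h0 (fun x => P (n + 1) * σ₁ x)
          (fun x => P (n + 1) * τ₁ x) (fun x => P (n + 1) * ρ x)
          (continuousOn_const.mul hσ₁c) (continuousOn_const.mul hτ₁c) (continuousOn_const.mul hρ)
          (fun x hx => mul_pos hPn (hσ₁0 x hx)) (fun x hx => mul_pos hPn (hτ₁0 x hx))
          (fun x hx => mul_pos hPn (hρ0 x hx)) (P (n + 1) * η) (mul_pos hPn hη)
        exact ⟨t, h1, h2.scale⟩
    refine ⟨t, ht1, ht2, ?_⟩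
    have h3 := hs.trans hp1 ht2 (by linarith [hP1 n]) (by linarith [hPs n]) hρn hη.le
    have e : 1 - P n + (P n - P (n + 1)) = 1 - P (n + 1) := by ring
    rwa [e] at h3
  choose nx hnx1 hnx2 hnx3 using key
  have hinit : Near ψ χ σ₁ τ₁ ρ η s₀ s₀ (1 - P 0) := by
    have : 1 - P 0 = 0 := by simp [P]
    rw [this]
    exact Near.refl s₀
  let w : (n : ℕ) → {s : State p Ω Λ Q Z // Near ψ χ σ₁ τ₁ ρ η s₀ s (1 - P n)} := fun n =>
    Nat.rec ⟨s₀, hinit⟩ (fun n s => ⟨nx n s.1 s.2, hnx3 n s.1 s.2⟩) n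
  have hw1 : ∀ n, ν (w (n + 1)).1.K ≤ θ * ν (w n).1.K := fun n => hnx1 n _ _
  have hw2 : ∀ n, Near ψ χ σ₁ τ₁ ρ η (w n).1 (w (n + 1)).1 (P n - P (n + 1)) :=
    fun n => hnx2 n _ _
  have hN : ∀ n m, n ≤ m → Near ψ χ σ₁ τ₁ ρ η (w n).1 (w m).1 (P n - P m) := by
    intro n m hnm
    induction m, hnm using Nat.le_induction with
    | base => rw [sub_self]; exact Near.refl _
    | succ m hm ih =>
      have h3 := ih.trans hp1 (hw2 m) (sub_nonneg.2 (hPanti hm))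
        (sub_nonneg.2 (hPanti (Nat.le_succ m))) hρn hη.le
      have e : P n - P m + (P m - P (m + 1)) = P n - P (m + 1) := by ring
      rwa [e] at h3
  have hb0 : ∀ n, Near ψ χ σ₁ τ₁ ρ η s₀ (w n).1 1 := fun n =>
    (w n).2.mono_d (by linarith [hP0 n]) hσ₁n hτ₁n hρn hη.le
  have hfin' : Phi (ψ i0) (χ i0) (w 0).1 ≠ ⊤ :=
    ne_top_of_le_ne_top (ENNReal.add_ne_top.2 ⟨hfin, ENNReal.ofReal_ne_top⟩) ((hb0 0).en i0)
  obtain ⟨t, htK, ht⟩ := exists_limit hp hΩ hΛ hQ hZ hψ hχ hle i0 hc0 hc hσ₁c hτ₁c hρ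
    hσ₁0 hτ₁0 hρ0 hη (s := fun n => (w n).1) hfin' hPlim hPanti hN
    (fun x hx => ⟨Metric.closedBall (s₀.g x) (σ₁ x), closedBall_subset_of
      ((min_le_right _ _).trans_lt (half_lt_self (infDist_pos hΛ (s₀.inv.1 x hx).1))),
      Metric.isClosed_closedBall, fun n => by
        rw [Metric.mem_closedBall, dist_eq_norm]
        simpa using (hb0 n).fwd x hx⟩)
    (fun y hy => ⟨Metric.closedBall (s₀.h y) (τ₁ y), closedBall_subset_of
      ((min_le_right _ _).trans_lt (half_lt_self (infDist_pos hΩ (s₀.inv.2 y hy).1))),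
      Metric.isClosed_closedBall, fun n => by
        rw [Metric.mem_closedBall, dist_eq_norm]
        simpa using (hb0 n).bwd y hy⟩)
  refine ⟨t, ?_, ?_⟩
  · have h1 : ∀ n, ν (w n).1.K ≤ θ ^ n * ν s₀.K := by
      intro n
      induction n with
      | zero => simp [w]
      | succ n ih =>
        refine (hw1 n).trans ?_
        rw [pow_succ, mul_comm (θ ^ n) θ, mul_assoc]
        gcongr
    have h2 : Tendsto (fun n => θ ^ n * ν s₀.K) atTop (𝓝 0) := by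
      have := ENNReal.Tendsto.mul_const (ENNReal.tendsto_pow_atTop_nhds_zero_of_lt_one hθ)
        (b := ν s₀.K) (Or.inr (measure_ne_top ν _))
      rwa [zero_mul] at this
    refine le_antisymm (ge_of_tendsto h2 (Eventually.of_forall fun n => ?_)) zero_le
    refine (measure_mono ?_).trans (h1 n)
    rw [htK]
    exact iInter_subset _ n
  · have h1 := (ht 0).mono_d (d' := 1) (by simp [P]) hσ₁n hτ₁n hρn hη.le
    have h2 : (w 0).1 = s₀ := rfl
    rw [h2] at h1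
    exact h1.mono_fun zero_le_one (fun x _ => min_le_left _ _) (fun x _ => min_le_left _ _)
      (fun _ _ => le_rfl) le_rfl

/-- the germ of `g` at `x` is conical -/
def Qc (g : V → V) (x : V) : Prop := ConicalWithinAt g univ x

theorem Qc_congr (g g' : V → V) (x : V) (h : g =ᶠ[𝓝 x] g') (hg : Qc g x) : Qc g' x := by
  obtain ⟨r, hr, hgr⟩ := hg
  obtain ⟨δ, hδ, hb⟩ := Metric.eventually_nhds_iff.1 h
  have hmem : ∀ v : V, ‖v‖ ≤ min r (δ / 2) → g (x + v) = g' (x + v) := by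
    intro v hv
    apply hb
    rw [dist_eq_norm, add_sub_cancel_left]
    exact (hv.trans (min_le_right _ _)).trans_lt (by linarith)
  refine ⟨min r (δ / 2), lt_min hr (by linarith), fun v hv hv2 t ht => ⟨mem_univ _, ?_⟩⟩
  have h1 := (hgr v (hv.trans (min_le_left _ _)) (mem_univ _) t ht).2
  have h2 : ‖t • v‖ ≤ min r (δ / 2) := by
    rw [norm_smul, Real.norm_of_nonneg ht.1]
    exact (mul_le_of_le_one_left (norm_nonneg _) ht.2).trans hv
  have h3 : g x = g' x := hb (by simpa using hδ)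
  rw [← hmem _ h2, ← hmem _ hv, ← h3]
  exact h1

theorem conicalOn_of_Qc {A : Set V} (hA : IsOpen A) {g : V → V} (h : ∀ x ∈ A, Qc g x) :
    ConicalOn g A := by
  intro x hx
  obtain ⟨r, hr, hgr⟩ := h x hx
  obtain ⟨δ, hδ, hb⟩ := Metric.isOpen_iff.1 hA x hx
  refine ⟨min r (δ / 2), lt_min hr (by linarith), fun v hv _ t ht => ⟨hb ?_, ?_⟩⟩
  · rw [Metric.mem_ball, dist_eq_norm, add_sub_cancel_left, norm_smul, Real.norm_of_nonneg ht.1]
    exact ((mul_le_of_le_one_left (norm_nonneg _) ht.2).trans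
      (hv.trans (min_le_right _ _))).trans_lt (by linarith)
  · exact (hgr v (hv.trans (min_le_left _ _)) (mem_univ _) t ht).2

theorem Qc_of_conicalOn {A : Set V} (hA : IsOpen A) {g : V → V} (h : ConicalOn g A) {x : V}
    (hx : x ∈ A) : Qc g x := by
  obtain ⟨r, hr, hgr⟩ := h x hx
  obtain ⟨δ, hδ, hb⟩ := Metric.isOpen_iff.1 hA x hx
  refine ⟨min r (δ / 2), lt_min hr (by linarith), fun v hv _ t ht => ⟨mem_univ _, ?_⟩⟩
  refine (hgr v (hv.trans (min_le_left _ _)) (hb ?_) t ht).2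
  rw [Metric.mem_ball, dist_eq_norm, add_sub_cancel_left]
  exact (hv.trans (min_le_right _ _)).trans_lt (by linarith)

/-- a state without wild points is a conical homeomorphism -/
theorem exists_conHomeo (hΩ : IsOpen Ω) (t : State p Ω Λ Qc Z) (hK : t.K = ∅) :
    ∃ e : ConHomeo Ω Λ, e.toFun = t.g ∧ e.invFun = t.h := by
  have hcon : ConicalOn t.g Ω := conicalOn_of_Qc hΩ fun x hx => t.tame x
    (by rw [hK, sdiff_empty]; exact hx)
  exact ⟨{ toFun := t.g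
           invFun := t.h
           mapsTo := fun x hx => (t.inv.1 x hx).1
           mapsTo_inv := fun y hy => (t.inv.2 y hy).1
           left_inv := fun x hx => (t.inv.1 x hx).2
           right_inv := fun y hy => (t.inv.2 y hy).2
           cont := t.cont
           cont_inv := t.cont_inv
           conical := hcon }, rfl, rfl⟩

end Vale.Agent.P073.H333
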