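import Vale.Agent.P073.H333.PreDefs
import Vale.Agent.P073.H194.WgtUsc

/-!
# P073, block A15-PRE: distance to the centres and the weight
-/

namespace Vale.Agent.P073.H333

open MeasureTheory Set Filter Topology Metric Vale.Agent.P073.St Vale.Agent.P073.AB
open Vale.Agent.P073.SQ (ev)
open _root_.P073 (ConHomeo)
open _root_.P073.Net (dyc dyo IsTile SizeFn len)
open Vale.Agent.P073.H73 (MinEdge Bix ctr WLe segP onSeg)
open scoped ENNReal

variable {Λ : Set V} {ρ : V → ℝ} {c : ℕ → (Fin 3 → ℤ) → V}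

/-- the set of the centres -/
def ctrs (ρ : V → ℝ) (c : ℕ → (Fin 3 → ℤ) → V) : Set V :=
  {y | ∃ m z, IsTile ρ 0 m z ∧ y = c m z}

/-- the centres are in the middle of the tiles -/
def Mid (ρ : V → ℝ) (c : ℕ → (Fin 3 → ℤ) → V) : Prop :=
  ∀ m z, IsTile ρ 0 m z → ‖c m z - ctr 0 m z‖ ≤ 1 / 4 / 2 ^ m

/-- distance to the centres -/
noncomputable def rc (ρ : V → ℝ) (c : ℕ → (Fin 3 → ℤ) → V) (y : V) : ℝ := infDist y (ctrs ρ c)

theorem rc_nonneg (y : V) : 0 ≤ rc ρ c y := infDist_nonneg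

theorem rc_lip (y y' : V) : rc ρ c y ≤ rc ρ c y' + ‖y - y'‖ := by
  rw [← dist_eq_norm]; exact infDist_le_infDist_add_dist

theorem continuous_rc : Continuous (rc ρ c) := continuous_infDist_pt _

theorem rc_le {m : ℕ} {z : Fin 3 → ℤ} (ht : IsTile ρ 0 m z) (y : V) : rc ρ c y ≤ ‖y - c m z‖ := by
  rw [← dist_eq_norm]
  exact infDist_le_dist_of_mem ⟨m, z, ht, rfl⟩

theorem le_of_notMem (hc : Mid ρ c) {m : ℕ} {z : Fin 3 → ℤ} (ht : IsTile ρ 0 m z) {y : V}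
    (hy : y ∉ dyo 0 m z) : 1 / 4 / 2 ^ m ≤ ‖y - c m z‖ := by
  rw [H471.dyo_eq_ball, mem_ball, dist_eq_norm, not_lt] at hy
  have h1 := hc m z ht
  have h2 : ‖y - ctr 0 m z‖ ≤ ‖y - c m z‖ + ‖c m z - ctr 0 m z‖ := by
    refine le_trans (le_of_eq ?_) (norm_add_le _ _)
    congr 1; abel
  have e : (1 / 2 / 2 ^ m : ℝ) = 1 / 4 / 2 ^ m + 1 / 4 / 2 ^ m := by ring
  linarith

theorem mid_mem (hc : Mid ρ c) {m : ℕ} {z : Fin 3 → ℤ} (ht : IsTile ρ 0 m z) :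
    c m z ∈ dyo 0 m z := by
  rw [H471.dyo_eq_ball, mem_ball, dist_eq_norm]
  have h1 := hc m z ht
  have : (0:ℝ) < 1 / 4 / 2 ^ m := by positivity
  have e : (1 / 2 / 2 ^ m : ℝ) = 1 / 4 / 2 ^ m + 1 / 4 / 2 ^ m := by ring
  linarith

theorem dyc_diam {w : V} {m : ℕ} {z : Fin 3 → ℤ} {x y : V} (hx : x ∈ dyc w m z)
    (hy : y ∈ dyc w m z) : ‖y - x‖ ≤ 1 / 2 ^ m := dyc_near hx hy

theorem tile_ne {m m' : ℕ} {z z' : Fin 3 → ℤ} (ht : IsTile ρ 0 m z) (ht' : IsTile ρ 0 m' z')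
    (hne : (m, z) ≠ (m', z')) {y : V} (hy : y ∈ dyc 0 m z) : y ∉ dyo 0 m' z' := fun h =>
  Set.disjoint_left.1 (_root_.P073.KW.disjoint_dyo_dyc ht' ht (Ne.symm hne)) h hy

/-- **lower bound for the distance to the centres** -/
theorem le_rc (hρ : SizeFn Λ ρ) (hc : Mid ρ c) {m : ℕ} {z : Fin 3 → ℤ} (ht : IsTile ρ 0 m z)
    {y : V} (hy : y ∈ dyc 0 m z) : ‖y - c m z‖ ≤ 17 * rc ρ c y := by
  have h17 : ‖y - c m z‖ / 17 ≤ rc ρ c y := by
    unfold rc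
    have hne : (ctrs ρ c).Nonempty := ⟨c m z, m, z, ht, rfl⟩
    rw [le_infDist hne]
    rintro _ ⟨m', z', ht', rfl⟩
    rw [dist_eq_norm]
    have hn := norm_nonneg (y - c m z)
    by_cases hne : (m, z) = (m', z')
    · obtain ⟨rfl, rfl⟩ := Prod.mk.inj hne
      linarith
    · have h1 := le_of_notMem hc ht' (tile_ne ht ht' hne hy)
      have hcm := (mid_mem hc ht')
      have hcm' : c m' z' ∈ dyc 0 m' z' := fun k => ⟨(hcm k).1.le, (hcm k).2.le⟩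
      have h2 := _root_.P073.Net.NC.upper hρ ht' hcm'
      have h3 := hρ.lip y (c m' z')
      have h4 : (1 / 2 ^ m : ℝ) ≤ ρ y := ht.1 y hy
      have hcm2 := (mid_mem hc ht)
      have hcm2' : c m z ∈ dyc 0 m z := fun k => ⟨(hcm2 k).1.le, (hcm2 k).2.le⟩
      have h5 := dyc_diam hcm2' hy
      have e1 : (4 / 2 ^ m' : ℝ) = 16 * (1 / 4 / 2 ^ m') := by ring
      rw [div_le_iff₀ (by norm_num)]
      linarith
  rw [div_le_iff₀ (by norm_num)] at h17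
  linarith

/-- comparability of the weight -/
theorem tw_cmp (hρ : SizeFn Λ ρ) (hc : Mid ρ c) {y y' : V} (h : ‖y - y'‖ ≤ rc ρ c y) :
    tw ρ c y ≤ 33 * tw ρ c y' := by
  refine H471.wgt_le_wgt (H471.cubes_tiles hρ 0) (fun i => ?_) fun i _ => h.trans (rc_le i.2 y)
  have h1 := hc i.1.1 i.1.2 i.2
  refine h1.trans (le_of_eq ?_)
  rw [H471.st]; ring

theorem one_le_tw (y : V) : 1 ≤ tw ρ c y := H471.one_le_wgt y

theorem tw_ne_top (hρ : SizeFn Λ ρ) {y : V} (hy : y ∈ Λ) (h : 0 < rc ρ c y) :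
    tw ρ c y ≠ ⊤ := by
  refine H194.wgt_ne_top (H471.cubes_tiles hρ 0) hy fun i hi => ?_
  have h1 := rc_le (c := c) i.2 y
  rw [← hi, sub_self, norm_zero] at h1
  linarith

/-- upper bound for the weight -/
theorem tw_le (hρ : SizeFn Λ ρ) {y : V} {a : ℝ} (ha : 0 ≤ a)
    (h : ∀ m z, IsTile ρ 0 m z → y ∈ dyc 0 m z → 1 / 2 ^ m ≤ a * ‖y - c m z‖) :
    tw ρ c y ≤ ENNReal.ofReal (1 + 4 * a) := by
  have W := H471.cubes_tiles hρ 0
  have hf := W.finite_mem y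
  have hcard : hf.toFinset.card ≤ 8 := W.overlap y _ fun i hi => by
    rwa [Finite.mem_toFinset] at hi
  unfold tw H471.wgt
  have hz : ∀ i ∉ hf.toFinset, (closedBall (H471.zt ρ 0 i) (H471.st ρ 0 i)).indicator
      (fun y => ENNReal.ofReal (H471.st ρ 0 i) / ENNReal.ofReal ‖y - c i.1.1 i.1.2‖) y = 0 := by
    intro i hi
    rw [Finite.mem_toFinset] at hi
    have hi' : y ∉ closedBall (H471.zt ρ 0 i) (H471.st ρ 0 i) := hi
    exact indicator_of_notMem hi' _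
  rw [tsum_eq_sum hz]
  have key : ∀ i ∈ hf.toFinset, (closedBall (H471.zt ρ 0 i) (H471.st ρ 0 i)).indicator
      (fun y => ENNReal.ofReal (H471.st ρ 0 i) / ENNReal.ofReal ‖y - c i.1.1 i.1.2‖) y ≤
        ENNReal.ofReal (a / 2) := by
    intro i hi
    rw [Finite.mem_toFinset] at hi
    have hi' : y ∈ closedBall (H471.zt ρ 0 i) (H471.st ρ 0 i) := hi
    rw [indicator_of_mem hi']
    rw [H471.cB_eq] at hi'
    have h1 := h _ _ i.2 hi'
    refine ENNReal.div_le_of_le_mul ?_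
    rw [← ENNReal.ofReal_mul (by positivity)]
    apply ENNReal.ofReal_le_ofReal
    have e : H471.st ρ 0 i = 1 / 2 ^ i.1.1 / 2 := by rw [H471.st]; ring
    rw [e]; linarith
  calc 1 + ∑ i ∈ hf.toFinset, (closedBall (H471.zt ρ 0 i) (H471.st ρ 0 i)).indicator
        (fun y => ENNReal.ofReal (H471.st ρ 0 i) / ENNReal.ofReal ‖y - c i.1.1 i.1.2‖) y
      ≤ 1 + ∑ _i ∈ hf.toFinset, ENNReal.ofReal (a / 2) := by
        gcongr with i hi
        exact key i hi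
    _ ≤ 1 + 8 * ENNReal.ofReal (a / 2) := by
        rw [Finset.sum_const, nsmul_eq_mul]
        gcongr
        exact_mod_cast hcard
    _ = ENNReal.ofReal (1 + 4 * a) := by
        rw [ENNReal.ofReal_add zero_le_one (by positivity), ENNReal.ofReal_one,
          show (8:ℝ≥0∞) = ENNReal.ofReal 8 by simp, ← ENNReal.ofReal_mul (by norm_num)]
        congr 2
        ring

/-- the weight gives `WLe` -/
theorem wle_of {h : V → V} {e : V × V} {a : ℝ} (ha : 1 ≤ a)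
    (hle : ∀ y ∈ segment ℝ e.1 e.2, tw ρ c (h y) ≤ ENNReal.ofReal a) :
    WLe 0 ρ c h e (2 * a) := by
  refine ⟨by linarith, fun y hy m z ht hyt => ?_⟩
  have h1 := H471.le_wgt (z := H471.zt ρ 0) (σ := H471.st ρ 0) (c := fun i => c i.1.1 i.1.2)
    (i := ⟨(m, z), ht⟩) (y := h y) (by rw [H471.cB_eq]; exact hyt)
  have h2 := h1.trans (hle y hy)
  have hst : (0:ℝ) < H471.st ρ 0 ⟨(m, z), ht⟩ := H471.st_pos _
  have hne : ENNReal.ofReal ‖h y - c m z‖ ≠ 0 := by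
    intro h0
    simp only [h0] at h2
    rw [ENNReal.div_zero (by simpa using hst)] at h2
    exact absurd h2 (by simp)
  rw [ENNReal.div_le_iff hne ENNReal.ofReal_ne_top, ← ENNReal.ofReal_mul (by linarith)] at h2
  have h3 := (ENNReal.ofReal_le_ofReal_iff (by positivity)).1 h2
  have e1 : H471.st ρ 0 ⟨(m, z), ht⟩ = 1 / 2 / 2 ^ m := rfl
  rw [e1] at h3
  have e2 : (1 / 2 ^ m : ℝ) = 2 * (1 / 2 / 2 ^ m) := by ring
  rw [e2]
  linarith

end Vale.Agent.P073.H333
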