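import Vale.Agent.P073.H333.Limit

/-!
# P073: the exhaustion theorem
-/

namespace Vale.Agent.P073.H333

open MeasureTheory Set Filter Topology Vale.Agent.P073.St
open scoped ENNReal NNReal ContDiff

variable {p : ℝ} {Ω Λ : Set V} {Q : (V → V) → V → Prop} {Z : V → Set Mat}
  {ι : Type*} {ψ χ : ι → V → Mat → ℝ} {σ τ ρ : V → ℝ} {η : ℝ}

theorem Near.refl (s : State p Ω Λ Q Z) : Near ψ χ σ τ ρ η s s 0 where
  sub := Subset.rfl
  en i := by simp
  fwd x _ := by simp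
  bwd x _ := by simp
  far x _ _ := rfl
  der := by simp

theorem Near.scale {s t : State p Ω Λ Q Z} {d : ℝ}
    (h : Near ψ χ (fun x => d * σ x) (fun x => d * τ x) (fun x => d * ρ x) (d * η) s t 1) :
    Near ψ χ σ τ ρ η s t d where
  sub := h.sub
  en i := by simpa using h.en i
  fwd x hx := by simpa using h.fwd x hx
  bwd x hx := by simpa using h.bwd x hx
  far x hx hz := h.far x hx (by simpa using hz)
  der := by simpa using h.der

theorem Near.mono_fun {σ' τ' ρ' : V → ℝ} {η' : ℝ} {s t : State p Ω Λ Q Z} {d : ℝ} (hd : 0 ≤ d)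
    (h : Near ψ χ σ τ ρ η s t d)
    (h1 : ∀ x ∈ Ω, σ x ≤ σ' x) (h2 : ∀ x ∈ Λ, τ x ≤ τ' x) (h3 : ∀ x ∈ Ω, ρ x ≤ ρ' x)
    (h4 : η ≤ η') : Near ψ χ σ' τ' ρ' η' s t d where
  sub := h.sub
  en i := (h.en i).trans (by gcongr)
  fwd x hx := (h.fwd x hx).trans (mul_le_mul_of_nonneg_left (h1 x hx) hd)
  bwd x hx := (h.bwd x hx).trans (mul_le_mul_of_nonneg_left (h2 x hx) hd)
  far x hx hz := h.far x hx fun z hz' =>
    (mul_le_mul_of_nonneg_left (h3 x hx) hd).trans_lt (hz z hz')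
  der := h.der.trans (by gcongr)

theorem closedBall_subset_of {A : Set V} {x : V} {r : ℝ} (h : r < Metric.infDist x Aᶜ) :
    Metric.closedBall x r ⊆ A :=
  (Metric.closedBall_subset_ball h).trans Metric.ball_infDist_compl_subset

/-- the distance to the complement is positive, for a bounded domain -/
theorem infDist_pos {A : Set V} (hA : IsBoundedDomain A) {x : V} (hx : x ∈ A) :
    0 < Metric.infDist x Aᶜ := by
  have hne : (Aᶜ).Nonempty := by
    by_contra h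
    rw [not_nonempty_iff_eq_empty, compl_empty_iff] at h
    exact PK.volume_ne_top_of_domain hA (h ▸ by simp)
  exact (hA.1.isClosed_compl.notMem_iff_infDist_pos hne).1 fun h => h hx

/-- **Exhaustion.** If from each state with a wild point one can free the wild points of a nonempty
piece of the wild set at arbitrarily small cost (the piece not depending on the cost), then one can
free all wild points at arbitrarily small cost. -/
theorem exhaust (hp : 2 ≤ p) (hΩ : IsBoundedDomain Ω) (hΛ : IsBoundedDomain Λ)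
    (hQ : ∀ g g' x, g =ᶠ[𝓝 x] g' → Q g x → Q g' x) (hZ : ∀ x, IsClosed (Z x))
    (hψ : ∀ i, Adm Ω (ψ i)) (hχ : ∀ i, Adm Ω (χ i)) (hle : ∀ i x M, ψ i x M ≤ χ i x M)
    (i0 : ι) {c : ℝ} (hc0 : 0 ≤ c) (hc : ∀ x M a b, |M a b| ^ p ≤ c * ψ i0 x M)
    (hσ : ContinuousOn σ Ω) (hτ : ContinuousOn τ Λ) (hρ : ContinuousOn ρ Ω)
    (hσ0 : ∀ x ∈ Ω, 0 < σ x) (hτ0 : ∀ x ∈ Λ, 0 < τ x) (hρ0 : ∀ x ∈ Ω, 0 < ρ x) (hη : 0 < η)
    (s₀ : State p Ω Λ Q Z) (hfin : Phi (ψ i0) (χ i0) s₀ ≠ ⊤)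
    (hstep : ∀ s : State p Ω Λ Q Z, Near ψ χ σ τ ρ η s₀ s 1 → s.K.Nonempty →
      ∃ U, IsOpen U ∧ (U ∩ s.K).Nonempty ∧ ∀ σ' τ' ρ' : V → ℝ, ContinuousOn σ' Ω →
        ContinuousOn τ' Λ → ContinuousOn ρ' Ω → (∀ x ∈ Ω, 0 < σ' x) → (∀ x ∈ Λ, 0 < τ' x) →
        (∀ x ∈ Ω, 0 < ρ' x) → ∀ η' : ℝ, 0 < η' →
        ∃ t : State p Ω Λ Q Z, Disjoint U t.K ∧ Near ψ χ σ' τ' ρ' η' s t 1) :
    ∃ t : State p Ω Λ Q Z, t.K = ∅ ∧ Near ψ χ σ τ ρ η s₀ t 1 := by
  -- smaller functions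
  set σ₁ : V → ℝ := fun x => min (σ x) (Metric.infDist (s₀.g x) Λᶜ / 2) with hσ₁
  set τ₁ : V → ℝ := fun y => min (τ y) (Metric.infDist (s₀.h y) Ωᶜ / 2) with hτ₁
  have hσ₁c : ContinuousOn σ₁ Ω := continuous_min.comp_continuousOn (hσ.prodMk
    (((Metric.continuous_infDist_pt _).comp_continuousOn s₀.cont).div_const 2))
  have hτ₁c : ContinuousOn τ₁ Λ := continuous_min.comp_continuousOn (hτ.prodMk
    (((Metric.continuous_infDist_pt _).comp_continuousOn s₀.cont_inv).div_const 2))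
  have hσ₁0 : ∀ x ∈ Ω, 0 < σ₁ x := fun x hx =>
    lt_min (hσ0 x hx) (half_pos (infDist_pos hΛ (s₀.inv.1 x hx).1))
  have hτ₁0 : ∀ x ∈ Λ, 0 < τ₁ x := fun x hx =>
    lt_min (hτ0 x hx) (half_pos (infDist_pos hΩ (s₀.inv.2 x hx).1))
  have hσ₁n : ∀ x ∈ Ω, 0 ≤ σ₁ x := fun x hx => (hσ₁0 x hx).le
  have hτ₁n : ∀ x ∈ Λ, 0 ≤ τ₁ x := fun x hx => (hτ₁0 x hx).le
  have hρn : ∀ x ∈ Ω, 0 ≤ ρ x := fun x hx => (hρ0 x hx).le
  have hp1 : 1 ≤ p := by linarith
  -- the states
  let 𝓐 := {s : State p Ω Λ Q Z // Near ψ χ σ₁ τ₁ ρ η s₀ s (PP s₀.K - PP s.K)}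
  let R : 𝓐 → 𝓐 → Prop := fun a b => a = b ∨
    (PP b.1.K < PP a.1.K ∧ Near ψ χ σ₁ τ₁ ρ η a.1 b.1 (PP a.1.K - PP b.1.K))
  have hpp1 : ∀ a b : State p Ω Λ Q Z, PP a.K - PP b.K ≤ 1 := fun a b => by
    have := PP_le_one a.K
    have := PP_nonneg b.K
    linarith
  have htrans : ∀ {a b c : 𝓐}, R a b → R b c → R a c := by
    rintro a b c (rfl | ⟨h1, h2⟩) (rfl | ⟨h3, h4⟩)
    · exact Or.inl rfl
    · exact Or.inr ⟨h3, h4⟩
    · exact Or.inr ⟨h1, h2⟩
    · refine Or.inr ⟨h3.trans h1, ?_⟩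
      have := h2.trans hp1 h4 (by linarith) (by linarith) hρn hη.le
      have e : PP a.1.K - PP b.1.K + (PP b.1.K - PP c.1.K) = PP a.1.K - PP c.1.K := by ring
      rwa [e] at this
  have hchain : ∀ C : Set 𝓐, IsChain R C → ∃ ub, ∀ a ∈ C, R a ub := by
    intro C hC
    rcases C.eq_empty_or_nonempty with rfl | hCne
    · exact ⟨⟨s₀, by rw [sub_self]; exact Near.refl s₀⟩, by simp⟩
    by_cases hmin : ∃ a ∈ C, ∀ b ∈ C, PP a.1.K ≤ PP b.1.K
    · obtain ⟨a, ha, hab⟩ := hmin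
      refine ⟨a, fun b hb => ?_⟩
      by_cases hba : b = a
      · exact Or.inl hba
      rcases hC hb ha hba with h | h
      · exact h
      · rcases h with rfl | ⟨h1, -⟩
        · exact Or.inl rfl
        · exact absurd (hab b hb) (not_le.2 h1)
    · push Not at hmin
      set m : ℝ := sInf ((fun a : 𝓐 => PP a.1.K) '' C) with hm
      have hbdd : BddBelow ((fun a : 𝓐 => PP a.1.K) '' C) :=
        ⟨0, by rintro _ ⟨a, -, rfl⟩; exact PP_nonneg _⟩
      have hmlt : ∀ a ∈ C, m < PP a.1.K := fun a ha => by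
        obtain ⟨b, hb, hba⟩ := hmin a ha
        exact (csInf_le hbdd (mem_image_of_mem _ hb)).trans_lt hba
      have hnext : ∀ (a : C) (n : ℕ), ∃ b : C, PP b.1.1.K < PP a.1.1.K ∧
          PP b.1.1.K < m + 1 / ((n : ℝ) + 1) := by
        intro a n
        have h1 : m < min (PP a.1.1.K) (m + 1 / ((n : ℝ) + 1)) :=
          lt_min (hmlt a.1 a.2) (by linarith [show (0:ℝ) < 1 / ((n:ℝ) + 1) by positivity])
        obtain ⟨_, ⟨b, hb, rfl⟩, hb2⟩ := exists_lt_of_csInf_lt (hCne.image _) h1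
        exact ⟨⟨b, hb⟩, hb2.trans_le (min_le_left _ _), hb2.trans_le (min_le_right _ _)⟩
      choose nx hnx1 hnx2 using hnext
      obtain ⟨a₀, ha₀⟩ := hCne
      let u : ℕ → C := fun n => Nat.rec ⟨a₀, ha₀⟩ (fun n a => nx a n) n
      have hu1 : ∀ n, PP (u (n + 1)).1.1.K < PP (u n).1.1.K := fun n => hnx1 (u n) n
      have hu2 : ∀ n, PP (u (n + 1)).1.1.K < m + 1 / ((n : ℝ) + 1) := fun n => hnx2 (u n) n
      have hanti : StrictAnti fun n => PP (u n).1.1.K := strictAnti_nat_of_succ_lt hu1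
      have hlim : Tendsto (fun n => PP (u n).1.1.K) atTop (𝓝 m) := by
        rw [← tendsto_add_atTop_iff_nat 1]
        refine tendsto_of_tendsto_of_tendsto_of_le_of_le tendsto_const_nhds ?_
          (fun n => (hmlt _ (u (n + 1)).2).le) (fun n => (hu2 n).le)
        have := (tendsto_one_div_add_atTop_nhds_zero_nat (𝕜 := ℝ)).const_add m
        rwa [add_zero] at this
      have hNear : ∀ n k, n ≤ k → Near ψ χ σ₁ τ₁ ρ η (u n).1.1 (u k).1.1
          (PP (u n).1.1.K - PP (u k).1.1.K) := by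
        intro n k hnk
        rcases hnk.eq_or_lt with rfl | hnk
        · rw [sub_self]
          exact Near.refl _
        · have hlt := hanti hnk
          have hne : (u n).1 ≠ (u k).1 := fun h => by
            simp only [h] at hlt
            exact lt_irrefl _ hlt
          rcases hC (u n).2 (u k).2 hne with h | h
          · rcases h with h | h
            · exact absurd h hne
            · exact h.2
          · rcases h with h | h
            · exact absurd h.symm hne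
            · exact absurd h.1 (not_lt.2 hlt.le)
      have hb0 : ∀ n, Near ψ χ σ₁ τ₁ ρ η s₀ (u n).1.1 1 := fun n =>
        (u n).1.2.mono_d (hpp1 _ _) hσ₁n hτ₁n hρn hη.le
      have hfin' : Phi (ψ i0) (χ i0) (u 0).1.1 ≠ ⊤ :=
        ne_top_of_le_ne_top (ENNReal.add_ne_top.2 ⟨hfin, ENNReal.ofReal_ne_top⟩)
          ((hb0 0).en i0)
      obtain ⟨t, htK, ht⟩ := exists_limit hp hΩ hΛ hQ hZ hψ hχ hle i0 hc0 hc hσ₁c hτ₁c hρ
        hσ₁0 hτ₁0 hρ0 hη (s := fun n => (u n).1.1) hfin' hlim hanti.antitone hNear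
        (fun x hx => ⟨Metric.closedBall (s₀.g x) (σ₁ x), closedBall_subset_of
          ((min_le_right _ _).trans_lt (half_lt_self (infDist_pos hΛ (s₀.inv.1 x hx).1))),
          Metric.isClosed_closedBall, fun n => by
            rw [Metric.mem_closedBall, dist_eq_norm]
            simpa using (hb0 n).fwd x hx⟩)
        (fun y hy => ⟨Metric.closedBall (s₀.h y) (τ₁ y), closedBall_subset_of
          ((min_le_right _ _).trans_lt (half_lt_self (infDist_pos hΩ (s₀.inv.2 y hy).1))),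
          Metric.isClosed_closedBall, fun n => by
            rw [Metric.mem_closedBall, dist_eq_norm]
            simpa using (hb0 n).bwd y hy⟩)
      have htm : PP t.K ≤ m := by
        refine ge_of_tendsto hlim (Eventually.of_forall fun n => PP_mono ?_)
        rw [htK]
        exact iInter_subset _ n
      have hut : ∀ n, Near ψ χ σ₁ τ₁ ρ η (u n).1.1 t (PP (u n).1.1.K - PP t.K) := fun n =>
        (ht n).mono_d (by linarith) hσ₁n hτ₁n hρn hη.le
      have htA : Near ψ χ σ₁ τ₁ ρ η s₀ t (PP s₀.K - PP t.K) := by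
        have h1 : PP (u 0).1.1.K ≤ PP s₀.K := PP_mono (u 0).1.2.sub
        have h2 : PP t.K ≤ PP (u 0).1.1.K := PP_mono (hut 0).sub
        have := (u 0).1.2.trans hp1 (hut 0) (by linarith) (by linarith) hρn hη.le
        have e : PP s₀.K - PP (u 0).1.1.K + (PP (u 0).1.1.K - PP t.K) = PP s₀.K - PP t.K := by
          ring
        rwa [e] at this
      refine ⟨⟨t, htA⟩, fun a ha => ?_⟩
      obtain ⟨n, hn⟩ : ∃ n, PP (u n).1.1.K < PP a.1.K :=
        (hlim.eventually (gt_mem_nhds (hmlt a ha))).exists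
      have hne : a ≠ (u n).1 := fun h => by
        rw [h] at hn
        exact lt_irrefl _ hn
      have hau : R a (u n).1 := by
        rcases hC ha (u n).2 hne with h | h
        · exact h
        · rcases h with h | h
          · exact absurd h.symm hne
          · exact absurd h.1 (not_lt.2 hn.le)
      refine htrans hau (Or.inr ⟨htm.trans_lt (hmlt _ (u n).2), hut n⟩)
  obtain ⟨m, hm⟩ := exists_maximal_of_chains_bounded hchain htrans
  have hm1 : Near ψ χ σ₁ τ₁ ρ η s₀ m.1 1 := m.2.mono_d (hpp1 _ _) hσ₁n hτ₁n hρn hη.le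
  have hm2 : Near ψ χ σ τ ρ η s₀ m.1 1 := hm1.mono_fun zero_le_one (fun x _ => min_le_left _ _)
    (fun x _ => min_le_left _ _) (fun _ _ => le_rfl) le_rfl
  refine ⟨m.1, ?_, hm2⟩
  by_contra hK
  rw [← Ne, ← nonempty_iff_ne_empty] at hK
  obtain ⟨U, hU, ⟨x, hxU, hxK⟩, hs⟩ := hstep m.1 hm2 hK
  have hlt : PP (m.1.K \ U) < PP m.1.K :=
    PP_lt sdiff_subset hU disjoint_sdiff_right hxU hxK
  set d : ℝ := PP m.1.K - PP (m.1.K \ U) with hd
  have hd0 : 0 < d := sub_pos.2 hlt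
  obtain ⟨t, htU, ht⟩ := hs (fun x => d * σ₁ x) (fun x => d * τ₁ x) (fun x => d * ρ x)
    (continuousOn_const.mul hσ₁c) (continuousOn_const.mul hτ₁c) (continuousOn_const.mul hρ)
    (fun x hx => mul_pos hd0 (hσ₁0 x hx)) (fun x hx => mul_pos hd0 (hτ₁0 x hx))
    (fun x hx => mul_pos hd0 (hρ0 x hx)) (d * η) (mul_pos hd0 hη)
  have ht1 := ht.scale
  have htK : t.K ⊆ m.1.K \ U := fun y hy => ⟨ht1.sub hy, fun h => disjoint_left.1 htU h hy⟩
  have h2 := PP_mono htK
  have ht2 : Near ψ χ σ₁ τ₁ ρ η m.1 t (PP m.1.K - PP t.K) :=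
    ht1.mono_d (by linarith) hσ₁n hτ₁n hρn hη.le
  have htA : Near ψ χ σ₁ τ₁ ρ η s₀ t (PP s₀.K - PP t.K) := by
    have h1 : PP m.1.K ≤ PP s₀.K := PP_mono m.2.sub
    have := m.2.trans hp1 ht2 (by linarith) (by linarith) hρn hη.le
    have e : PP s₀.K - PP m.1.K + (PP m.1.K - PP t.K) = PP s₀.K - PP t.K := by ring
    rwa [e] at this
  have hR : R m ⟨t, htA⟩ := Or.inr ⟨by linarith, ht2⟩
  rcases hm _ hR with h | h
  · have := congrArg (fun a : 𝓐 => PP a.1.K) h
    simp only at this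
    linarith
  · have := h.1
    simp only at this
    linarith

end Vale.Agent.P073.H333
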