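import Vale.Agent.P073.H333.Coro
import Vale.Agent.P073.H880.Approx

/-!
# P073: final assembly, part A: limits of conical homeomorphisms
-/

namespace Vale.Agent.P073.H333

open MeasureTheory Set Filter Topology Vale.Agent.P073.St
open _root_.P073 (ConHomeo)
open Vale.Agent.P073.AB (cl err)
open Vale.Agent.P073.H880 (approximable_of' exists_diffeo)
open Vale.Agent.P073.SQ (ev)
open scoped ENNReal NNReal ContDiff

variable {p : ℝ} {Ω Λ : Set St.V}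

theorem ofReal_rpow_norm {E : Type*} [NormedAddCommGroup E] (hp : 0 ≤ p) (x : E) :
    ENNReal.ofReal (‖x‖ ^ p) = ‖x‖ₑ ^ p := by
  rw [← ENNReal.ofReal_rpow_of_nonneg (norm_nonneg _) hp, ofReal_norm]

theorem rpow_add_le {E : Type*} [NormedAddCommGroup E] (hp : 1 ≤ p) (x y : E) :
    ‖x + y‖ₑ ^ p ≤ 2 ^ (p - 1) * (‖x‖ₑ ^ p + ‖y‖ₑ ^ p) :=
  (ENNReal.rpow_le_rpow (enorm_add_le x y) (by linarith)).trans
    (ENNReal.rpow_add_le_mul_rpow_add_rpow _ _ hp)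

theorem cl_ev (M : Mat) (j : Fin 3) : cl M (ev j) = fun i => M i j := by
  funext i
  rw [PK.cl_apply, Finset.sum_eq_single j]
  · simp [ev]
  · intro l _ hl
    simp [ev, hl]
  · simp

/-- small factors -/
theorem exists_small (hp : 0 < p) {a : ℝ≥0∞} (ha : a ≠ ⊤) {ε : ℝ} (hε : 0 < ε) :
    ∃ δ : ℝ, 0 < δ ∧ δ ≤ 1 ∧ ENNReal.ofReal (δ ^ p) * a ≤ ENNReal.ofReal ε := by
  have h1 : Tendsto (fun k : ℕ => ENNReal.ofReal ((1 / ((k : ℝ) + 1)) ^ p) * a) atTop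
      (𝓝 (0 * a)) := by
    have h2 : Tendsto (fun k : ℕ => (1 / ((k : ℝ) + 1)) ^ p) atTop (𝓝 (0 ^ p)) :=
      tendsto_one_div_add_atTop_nhds_zero_nat.rpow_const (Or.inr hp.le)
    rw [Real.zero_rpow hp.ne'] at h2
    have h3 := ENNReal.tendsto_ofReal h2
    rw [ENNReal.ofReal_zero] at h3
    exact ENNReal.Tendsto.mul_const h3 (Or.inr ha)
  rw [zero_mul] at h1
  obtain ⟨k, hk⟩ := (h1.eventually (gt_mem_nhds (ENNReal.ofReal_pos.2 hε))).exists
  refine ⟨1 / ((k : ℝ) + 1), by positivity, ?_, hk.le⟩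
  rw [div_le_one (by positivity)]
  linarith [(Nat.cast_nonneg k : (0:ℝ) ≤ k)]

/-- limits of conical homeomorphisms are diffeomorphically approximable -/
theorem approx_of_conical (hp : 1 ≤ p) (hΩ : St.IsBoundedDomain Ω) (hΛ : St.IsBoundedDomain Λ)
    {f : St.V → St.V} {F : St.V → Mat} (hf : ContinuousOn f Ω) (hF : St.IsSobolev p Ω f F)
    (H : ∀ δ : ℝ, 0 < δ → ∃ (e : ConHomeo Ω Λ) (G : St.V → Mat), St.IsSobolev p Ω e.toFun G ∧
      (∀ x ∈ Ω, ‖e.toFun x - f x‖ ≤ δ) ∧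
      ∫⁻ x in Ω, ‖G x - F x‖ₑ ^ p ≤ ENNReal.ofReal (δ ^ p)) :
    St.DiffeoApproximable p Ω Λ f F := by
  have hp0 : 0 < p := by linarith
  refine approximable_of' hp hΩ hΛ hf hF fun ε hε => ?_
  have hv := PK.volume_ne_top_of_domain hΩ
  have h2 : (2 : ℝ≥0∞) ^ (p - 1) ≠ ⊤ := ENNReal.rpow_ne_top_of_nonneg (by linarith) (by simp)
  obtain ⟨δ, hδ, hδ1, hδε⟩ := exists_small (p := p) hp0
    (a := 2 ^ (p - 1) * (volume Ω + 3)) (ENNReal.mul_ne_top h2 (ENNReal.add_ne_top.2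
      ⟨hv, by simp⟩)) (half_pos hε)
  obtain ⟨δ', hδ', -, hδ'ε⟩ := exists_small (p := p) hp0 (a := 2 ^ (p - 1)) h2 (half_pos hε)
  obtain ⟨e, G, hG, he, hGF⟩ := H δ hδ
  obtain ⟨g, hg, hge⟩ := exists_diffeo hp hΩ hΛ e hG (ε := δ' ^ p) (by positivity)
  refine ⟨g, hg, ?_⟩
  have e0 : ∀ x, ‖g x - f x‖ₑ ^ p ≤ 2 ^ (p - 1) * (‖g x - e.toFun x‖ₑ ^ p +
      ‖e.toFun x - f x‖ₑ ^ p) := fun x => by
    have := rpow_add_le hp (g x - e.toFun x) (e.toFun x - f x)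
    rwa [sub_add_sub_cancel] at this
  have e1 : ∀ x j, ‖fderiv ℝ g x (ev j) - cl (F x) (ev j)‖ₑ ^ p ≤ 2 ^ (p - 1) *
      (‖fderiv ℝ g x (ev j) - cl (G x) (ev j)‖ₑ ^ p + ‖cl (G x) (ev j) - cl (F x) (ev j)‖ₑ ^ p) :=
    fun x j => by
      have := rpow_add_le hp (fderiv ℝ g x (ev j) - cl (G x) (ev j))
        (cl (G x) (ev j) - cl (F x) (ev j))
      rwa [sub_add_sub_cancel] at this
  have e2 : ∫⁻ x in Ω, ‖e.toFun x - f x‖ₑ ^ p ≤ ENNReal.ofReal (δ ^ p) * volume Ω := by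
    rw [← setLIntegral_const]
    refine setLIntegral_mono' hΩ.1.measurableSet fun x hx => ?_
    rw [← ofReal_rpow_norm hp0.le]
    exact ENNReal.ofReal_le_ofReal (Real.rpow_le_rpow (norm_nonneg _) (he x hx) hp0.le)
  have e3 : ∀ j, ∫⁻ x in Ω, ‖cl (G x) (ev j) - cl (F x) (ev j)‖ₑ ^ p ≤
      ENNReal.ofReal (δ ^ p) := by
    intro j
    refine le_trans (lintegral_mono fun x => ?_) hGF
    rw [← ofReal_rpow_norm hp0.le, ← ofReal_rpow_norm hp0.le]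
    refine ENNReal.ofReal_le_ofReal (Real.rpow_le_rpow (norm_nonneg _) ?_ hp0.le)
    rw [cl_ev, cl_ev]
    refine (pi_norm_le_iff_of_nonneg (norm_nonneg _)).2 fun i => ?_
    exact (norm_le_pi_norm ((G x - F x) i) j).trans (norm_le_pi_norm (G x - F x) i)
  have hgm : AEMeasurable (fun x => ‖e.toFun x - f x‖ₑ ^ p) (volume.restrict Ω) :=
    (((e.cont.sub hf).aestronglyMeasurable hΩ.1.measurableSet).enorm).pow_const p
  have hcm : ∀ j, AEMeasurable (fun x => ‖cl (G x) (ev j) - cl (F x) (ev j)‖ₑ ^ p)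
      (volume.restrict Ω) := by
    intro j
    simp only [cl_ev]
    refine AEMeasurable.pow_const (AEMeasurable.enorm ?_) p
    exact (aemeasurable_pi_iff.2 fun i => aem hG i j).sub
      (aemeasurable_pi_iff.2 fun i => aem hF i j)
  calc err p Ω f F g
      = (∫⁻ x in Ω, ‖g x - f x‖ₑ ^ p) +
        ∑ j, ∫⁻ x in Ω, ‖fderiv ℝ g x (ev j) - cl (F x) (ev j)‖ₑ ^ p := by
        unfold err
        simp only [ofReal_rpow_norm hp0.le]
    _ ≤ (2 ^ (p - 1) * ((∫⁻ x in Ω, ‖g x - e.toFun x‖ₑ ^ p) +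
          ∫⁻ x in Ω, ‖e.toFun x - f x‖ₑ ^ p)) +
        ∑ j, 2 ^ (p - 1) * ((∫⁻ x in Ω, ‖fderiv ℝ g x (ev j) - cl (G x) (ev j)‖ₑ ^ p) +
          ∫⁻ x in Ω, ‖cl (G x) (ev j) - cl (F x) (ev j)‖ₑ ^ p) := by
        gcongr with j _
        · rw [← lintegral_add_right' _ hgm, ← lintegral_const_mul' _ _ h2]
          exact lintegral_mono e0
        · rw [← lintegral_add_right' _ (hcm j), ← lintegral_const_mul' _ _ h2]
          exact lintegral_mono fun x => e1 x j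
    _ = 2 ^ (p - 1) * (err p Ω e.toFun G g + ((∫⁻ x in Ω, ‖e.toFun x - f x‖ₑ ^ p) +
          ∑ j, ∫⁻ x in Ω, ‖cl (G x) (ev j) - cl (F x) (ev j)‖ₑ ^ p)) := by
        unfold err
        simp only [ofReal_rpow_norm hp0.le]
        rw [← Finset.mul_sum, Finset.sum_add_distrib]
        ring
    _ ≤ 2 ^ (p - 1) * (ENNReal.ofReal (δ' ^ p) + (ENNReal.ofReal (δ ^ p) * volume Ω +
          ∑ j : Fin 3, ENNReal.ofReal (δ ^ p))) := by
        gcongr with j _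
        exact e3 j
    _ = ENNReal.ofReal (δ' ^ p) * 2 ^ (p - 1) +
          ENNReal.ofReal (δ ^ p) * (2 ^ (p - 1) * (volume Ω + 3)) := by
        rw [Finset.sum_const, Finset.card_univ, Fintype.card_fin, nsmul_eq_mul]
        push_cast
        ring
    _ ≤ ENNReal.ofReal (ε / 2) + ENNReal.ofReal (ε / 2) := add_le_add hδ'ε hδε
    _ = ENNReal.ofReal ε := by
        rw [← ENNReal.ofReal_add (by positivity) (by positivity), add_halves]

end Vale.Agent.P073.H333
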