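import Vale.Agent.P073.H333.FinalA

/-!
# P073: final assembly, part B

From the freeing step and the local step to the approximation theorem.
-/

namespace Vale.Agent.P073.H333

open MeasureTheory Set Filter Topology
open Vale.Agent.P073.St (Mat)
open _root_.P073 (ConHomeo)
open Vale.Agent.P073.H880 (ae_eq_on_smooth)
open scoped ENNReal NNReal ContDiff

variable {p : ℝ} {Ω Λ : Set St.V}

/-- uniqueness of weak derivatives on open sets -/
theorem ae_eq_of_eqOn (hp : 1 ≤ p) (hv : volume Ω ≠ ⊤) {g g' : St.V → St.V}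
    {G G' : St.V → Mat} (h : St.IsSobolev p Ω g G) (h' : St.IsSobolev p Ω g' G') {U : Set St.V}
    (hU : IsOpen U) (hUΩ : U ⊆ Ω) (he : EqOn g g' U) :
    ∀ᵐ x ∂(volume : Measure St.V), x ∈ U → G x = G' x := by
  have h1 := isSobolev_comb hp hv h h' 1 (-1)
  have h2 : EqOn (fun x => (1:ℝ) • g x + (-1:ℝ) • g' x) (fun _ => 0) U := fun x hx => by
    simp only [he hx, one_smul, neg_smul, add_neg_cancel]
  have h3 : ContDiffOn ℝ ∞ (fun x => (1:ℝ) • g x + (-1:ℝ) • g' x) U :=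
    contDiffOn_const.congr h2
  have h4 : ∀ᵐ x ∂(volume : Measure St.V), ∀ i j, x ∈ U →
      ((1:ℝ) • G x + (-1:ℝ) • G' x) i j = 0 := by
    rw [ae_all_iff]
    intro i
    rw [ae_all_iff]
    intro j
    filter_upwards [ae_eq_on_smooth hp hv h1 hU hUΩ h3 i j] with x hx hxU
    rw [hx hxU]
    have h5 : (fun x => (1:ℝ) • g x + (-1:ℝ) • g' x) =ᶠ[𝓝 x] fun _ => 0 :=
      h2.eventuallyEq_of_mem (hU.mem_nhds hxU)
    rw [h5.fderiv_eq]
    simp
  filter_upwards [h4] with x hx hxU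
  funext i j
  have := hx i j hxU
  simp only [Pi.add_apply, Pi.smul_apply, smul_eq_mul, one_mul, neg_mul] at this
  linarith

/-- norms, up to constants -/
structure NormLike (N : Mat → ℝ) (c : ℝ) : Prop where
  conv : ConvexOn ℝ univ N
  cont : Continuous N
  nn : ∀ M, 0 ≤ N M
  pos : 0 < c
  lower : ∀ M, ‖M‖ ≤ c * N M
  upper : ∀ M, N M ≤ c * ‖M‖

/-- the admissible integrand `C N^p` -/
theorem adm_of {N : Mat → ℝ} {c : ℝ} (hN : NormLike N c) (hp : 1 ≤ p) {C : ℝ} (hC : 0 ≤ C) :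
    Adm Ω fun _ M => C * N M ^ p := by
  have := adm_rpow (Ω := Ω) hN.conv hN.nn hN.cont hp (w := fun _ => C) measurable_const
    (fun _ => hC) (A := fun _ => 0) (fun _ _ => aemeasurable_const)
  simpa only [sub_zero] using this

/-- the energies of the exhaustion -/
noncomputable def psi (p : ℝ) (N : Mat → ℝ) : Unit → St.V → Mat → ℝ := fun _ _ M => 1 * N M ^ p
/-- the energies of the exhaustion, on the wild points -/
noncomputable def chi (p : ℝ) (N : Mat → ℝ) (C : ℝ) : Unit → St.V → Mat → ℝ := fun _ _ M => C * N M ^ p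

/-- **the freeing step** -/
def FreeStep (p : ℝ) (Ω Λ : Set St.V) (N : Mat → ℝ) (C : ℝ) : Prop :=
  ∀ s : State p Ω Λ Qc (fun _ => univ), s.K.Nonempty →
    ∃ U, IsOpen U ∧ (U ∩ s.K).Nonempty ∧ ∀ σ τ ρ : St.V → ℝ, ContinuousOn σ Ω →
      ContinuousOn τ Λ → ContinuousOn ρ Ω → (∀ x ∈ Ω, 0 < σ x) → (∀ x ∈ Λ, 0 < τ x) →
      (∀ x ∈ Ω, 0 < ρ x) → ∀ η : ℝ, 0 < η →
      ∃ t : State p Ω Λ Qc (fun _ => univ), Disjoint U t.K ∧
        Near (psi p N) (chi p N C) σ τ ρ η s t 1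

/-- **the local step** -/
def LocalStep (p : ℝ) (Ω Λ : Set St.V) (f : St.V → St.V) (F : St.V → Mat) : Prop :=
  ∀ ε : ℝ, 0 < ε → ∃ s : State p Ω Λ Qc (fun _ => univ), (∀ x ∈ Ω, ‖s.g x - f x‖ ≤ ε) ∧
    ∫⁻ x in Ω, ‖s.G x - F x‖ₑ ^ p ≤ ENNReal.ofReal ε ∧
    ∫⁻ x in s.K, ‖s.G x‖ₑ ^ p ≤ ENNReal.ofReal ε

theorem lint_lt_top (hp : 1 ≤ p) {f : St.V → St.V} {F : St.V → Mat}
    (hF : St.IsSobolev p Ω f F) : ∫⁻ x in Ω, ‖F x‖ₑ ^ p < ⊤ := by
  have hp0 : 0 < p := by linarith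
  have hm : MemLp F (ENNReal.ofReal p) (volume.restrict Ω) :=
    memLp_pi_iff.2 fun i => memLp_pi_iff.2 fun j => hF.2.1 i j
  have h1 := hm.2
  rw [eLpNorm_lt_top_iff_lintegral_rpow_enorm_lt_top
    (by rw [Ne, ENNReal.ofReal_eq_zero]; linarith) ENNReal.ofReal_ne_top,
    ENNReal.toReal_ofReal hp0.le] at h1
  exact h1

theorem le_of_lower {N : Mat → ℝ} {c : ℝ} (hN : NormLike N c) (hp : 0 ≤ p) (M : Mat) :
    ‖M‖ₑ ^ p ≤ ENNReal.ofReal (c ^ p) * ENNReal.ofReal (1 * N M ^ p) := by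
  rw [← ofReal_rpow_norm hp, ← ENNReal.ofReal_mul (Real.rpow_nonneg hN.pos.le _), one_mul,
    ← Real.mul_rpow hN.pos.le (hN.nn M)]
  exact ENNReal.ofReal_le_ofReal (Real.rpow_le_rpow (norm_nonneg _) (hN.lower M) hp)

theorem le_of_upper {N : Mat → ℝ} {c : ℝ} (hN : NormLike N c) (hp : 0 ≤ p) (M : Mat) :
    ENNReal.ofReal (1 * N M ^ p) ≤ ENNReal.ofReal (c ^ p) * ‖M‖ₑ ^ p := by
  rw [← ofReal_rpow_norm hp, ← ENNReal.ofReal_mul (Real.rpow_nonneg hN.pos.le _), one_mul,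
    ← Real.mul_rpow hN.pos.le (norm_nonneg M)]
  exact ENNReal.ofReal_le_ofReal (Real.rpow_le_rpow (hN.nn M) (hN.upper M) hp)

/-- thin neighbourhoods of the wild set have small energy -/
theorem exists_thin {K : Set St.V} (hK : IsOpen (Ω \ K)) (hKne : K.Nonempty)
    {w : St.V → ℝ≥0∞} (hw : ∫⁻ x in Ω, w x ≠ ⊤) {η : ℝ} (hη : 0 < η) :
    ∃ r : ℝ, 0 < r ∧ ∫⁻ x in (Ω \ K) ∩ {x | Metric.infDist x K ≤ r}, w x ≤ ENNReal.ofReal η := by
  let B : ℕ → Set St.V := fun n => (Ω \ K) ∩ {x | Metric.infDist x K ≤ 1 / ((n : ℝ) + 1)}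
  have hBm : ∀ n, MeasurableSet (B n) := fun n => hK.measurableSet.inter
    (isClosed_le (Metric.continuous_infDist_pt K) continuous_const).measurableSet
  let μ : Measure St.V := (volume.restrict Ω).withDensity w
  have hμ : ∀ n, μ (B n) = ∫⁻ x in B n, w x := fun n => by
    rw [withDensity_apply _ (hBm n), Measure.restrict_restrict (hBm n),
      inter_eq_left.2 (inter_subset_left.trans sdiff_subset)]
  have hfin : μ (B 0) ≠ ⊤ := by
    rw [hμ]
    exact ne_top_of_le_ne_top hw (lintegral_mono_set (inter_subset_left.trans sdiff_subset))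
  have hanti : Antitone B := fun n m h x hx => ⟨hx.1, le_trans (b := 1 / ((m : ℝ) + 1)) hx.2
    (one_div_le_one_div_of_le (by positivity) (by gcongr))⟩
  have h1 := tendsto_measure_iInter_atTop (fun n => (hBm n).nullMeasurableSet) hanti ⟨0, hfin⟩
  have h2 : ⋂ n, B n = ∅ := by
    rw [eq_empty_iff_forall_notMem]
    intro x hx
    rw [mem_iInter] at hx
    have hxO : x ∈ Ω \ K := (hx 0).1
    obtain ⟨δ, hδ, hδO⟩ := Metric.isOpen_iff.1 hK x hxO
    have h3 : δ ≤ Metric.infDist x K := by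
      refine (Metric.le_infDist hKne).2 fun y hy => ?_
      by_contra h
      rw [not_le, dist_comm] at h
      exact (hδO (Metric.mem_ball.2 h)).2 hy
    obtain ⟨n, hn⟩ := exists_nat_one_div_lt hδ
    have h4 : Metric.infDist x K ≤ 1 / ((n : ℝ) + 1) := (hx n).2
    linarith
  rw [h2, measure_empty] at h1
  obtain ⟨n, hn⟩ := (h1.eventually (gt_mem_nhds (ENNReal.ofReal_pos.2 hη))).exists
  refine ⟨1 / ((n : ℝ) + 1), by positivity, ?_⟩
  have := hn.le
  simp only [Function.comp] at this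
  rwa [hμ] at this

/-- **the energy argument** -/
theorem close_states (hp : 1 ≤ p) (hΩ : IsOpen Ω) (hv : volume Ω ≠ ⊤) {N : Mat → ℝ} {c : ℝ}
    (hN : NormLike N c) {C : ℝ} (hC : 0 ≤ C) (s : State p Ω Λ Qc (fun _ => univ))
    (hK : s.K.Nonempty) {η : ℝ} (hη : 0 < η) :
    ∃ r : ℝ, 0 < r ∧ ∀ (σ τ : St.V → ℝ) (t : State p Ω Λ Qc (fun _ => univ)), t.K = ∅ →
      Near (psi p N) (chi p N C) σ τ (fun _ => r) η s t 1 →
      ∫⁻ x in Ω, ‖t.G x - s.G x‖ₑ ^ p ≤ 2 ^ (p - 1) * (ENNReal.ofReal (c ^ p) *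
        (3 * ENNReal.ofReal η + (ENNReal.ofReal C + 1) *
          (ENNReal.ofReal (c ^ p) * ∫⁻ x in s.K, ‖s.G x‖ₑ ^ p))) := by
  have hp0 : 0 ≤ p := by linarith
  set w : State p Ω Λ Qc (fun _ => univ) → St.V → ℝ≥0∞ := fun s x =>
    ENNReal.ofReal (1 * N (s.G x) ^ p) with hw
  have hwfin : ∀ s, ∫⁻ x in Ω, w s x ≠ ⊤ := fun s => by
    refine ne_top_of_le_ne_top ?_ (lintegral_mono fun x => le_of_upper hN hp0 (s.G x))
    rw [lintegral_const_mul' _ _ ENNReal.ofReal_ne_top]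
    exact ENNReal.mul_ne_top ENNReal.ofReal_ne_top (lint_lt_top hp s.sob).ne
  obtain ⟨r, hr, hrη⟩ := exists_thin s.opn hK (hwfin s) hη
  refine ⟨r, hr, fun σ τ t htK ht => ?_⟩
  set A : Set St.V := Ω ∩ {x | r < Metric.infDist x s.K} with hA
  have hAo : IsOpen A := hΩ.inter (isOpen_lt continuous_const (Metric.continuous_infDist_pt s.K))
  have hAΩ : A ⊆ Ω := inter_subset_left
  have hKm := s.meas hΩ
  have hAK : Disjoint A s.K := by
    rw [disjoint_left]
    rintro x ⟨-, hx⟩ hxK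
    have hx2 : r < Metric.infDist x s.K := hx
    rw [Metric.infDist_zero_of_mem hxK] at hx2
    linarith
  have hAeq : EqOn t.g s.g A := by
    rintro x ⟨hx1, hx2⟩
    refine ht.far x hx1 fun z hz => ?_
    have hx3 : r < Metric.infDist x s.K := hx2
    rw [one_mul]
    exact hx3.trans_le (Metric.infDist_le_dist_of_mem hz)
  have hGae := ae_eq_of_eqOn hp hv t.sob s.sob hAo hAΩ hAeq
  set B : Set St.V := (Ω \ s.K) ∩ {x | Metric.infDist x s.K ≤ r} with hB
  have hBm : MeasurableSet B := s.opn.measurableSet.inter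
    (isClosed_le (Metric.continuous_infDist_pt s.K) continuous_const).measurableSet
  have e1 : Ω \ s.K = A ∪ B := by
    ext x
    constructor
    · intro hx
      by_cases h : r < Metric.infDist x s.K
      · exact Or.inl ⟨hx.1, h⟩
      · exact Or.inr ⟨hx, not_lt.1 h⟩
    · rintro (hx | hx)
      · exact ⟨hx.1, fun h => disjoint_left.1 hAK hx h⟩
      · exact hx.1
  have e2 : Ω \ A = B ∪ s.K := by
    ext x
    constructor
    · intro hx
      by_cases h : x ∈ s.K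
      · exact Or.inr h
      · have h2 : x ∈ A ∪ B := e1 ▸ (⟨hx.1, h⟩ : x ∈ Ω \ s.K)
        exact Or.inl (h2.resolve_left hx.2)
    · rintro (hx | hx)
      · exact ⟨hx.1.1, fun h => not_le.2 (show r < Metric.infDist x s.K from h.2) hx.2⟩
      · exact ⟨s.sub hx, fun h => disjoint_left.1 hAK h hx⟩
  have hABd : Disjoint A B := by
    rw [disjoint_left]
    rintro x hx hx2
    exact not_le.2 (show r < Metric.infDist x s.K from hx.2) hx2.2
  have hBKd : Disjoint B s.K := by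
    rw [disjoint_left]
    rintro x hx hx2
    exact hx.1.2 hx2
  have hsplit : ∀ u : St.V → ℝ≥0∞, ∫⁻ x in Ω, u x =
      (∫⁻ x in A, u x) + ∫⁻ x in Ω \ A, u x := by
    intro u
    have h3 := lintegral_union (μ := volume) (f := u) (hΩ.measurableSet.diff hAo.measurableSet)
      (disjoint_sdiff_right (s := A) (t := Ω))
    rwa [union_sdiff_cancel hAΩ] at h3
  -- energies
  have hwA : ∫⁻ x in A, w t x = ∫⁻ x in A, w s x := by
    refine setLIntegral_congr_fun_ae hAo.measurableSet ?_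
    filter_upwards [hGae] with x hx hxA
    simp only [hw, hx hxA]
  have hPt : Phi (psi p N ()) (chi p N C ()) t = (∫⁻ x in A, w t x) + ∫⁻ x in Ω \ A, w t x := by
    unfold Phi
    rw [htK, sdiff_empty, Measure.restrict_empty, lintegral_zero_measure, add_zero]
    exact hsplit _
  have hPs : Phi (psi p N ()) (chi p N C ()) s = (∫⁻ x in A, w s x) + (∫⁻ x in B, w s x) +
      ENNReal.ofReal C * ∫⁻ x in s.K, w s x := by
    unfold Phi
    rw [e1, lintegral_union hBm hABd, ← lintegral_const_mul' _ _ ENNReal.ofReal_ne_top]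
    congr 1
    refine lintegral_congr fun x => ?_
    simp only [chi, hw, one_mul]
    rw [ENNReal.ofReal_mul hC]
  have hen := ht.en ()
  rw [hPt, hPs, hwA, one_mul, add_assoc, add_assoc] at hen
  have hfinA : ∫⁻ x in A, w s x ≠ ⊤ :=
    ne_top_of_le_ne_top (hwfin s) (lintegral_mono_set hAΩ)
  have hen2 : ∫⁻ x in Ω \ A, w t x ≤
      (∫⁻ x in B, w s x) + (ENNReal.ofReal C * (∫⁻ x in s.K, w s x) + ENNReal.ofReal η) :=
    (ENNReal.add_le_add_iff_left hfinA).1 hen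
  have hsK : ∫⁻ x in s.K, w s x ≤ ENNReal.ofReal (c ^ p) * ∫⁻ x in s.K, ‖s.G x‖ₑ ^ p := by
    rw [← lintegral_const_mul' _ _ ENNReal.ofReal_ne_top]
    exact lintegral_mono fun x => le_of_upper hN hp0 (s.G x)
  have hsA : ∫⁻ x in Ω \ A, w s x = (∫⁻ x in B, w s x) + ∫⁻ x in s.K, w s x := by
    rw [e2, lintegral_union hKm hBKd]
  have h2 : (2 : ℝ≥0∞) ^ (p - 1) ≠ ⊤ := ENNReal.rpow_ne_top_of_nonneg (by linarith) (by simp)
  have hzero : ∫⁻ x in A, ‖t.G x - s.G x‖ₑ ^ p = 0 := by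
    have : ∫⁻ x in A, ‖t.G x - s.G x‖ₑ ^ p = ∫⁻ x in A, 0 := by
      refine setLIntegral_congr_fun_ae hAo.measurableSet ?_
      filter_upwards [hGae] with x hx hxA
      rw [hx hxA, sub_self, enorm_zero, ENNReal.zero_rpow_of_pos (by linarith)]
    rw [this, lintegral_zero]
  have hwtm : AEMeasurable (w t) (volume.restrict (Ω \ A)) :=
    ((((hN.cont.measurable.comp_aemeasurable t.aes.aemeasurable).pow_const p).const_mul
      1).ennreal_ofReal).mono_measure (Measure.restrict_mono sdiff_subset le_rfl)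
  calc ∫⁻ x in Ω, ‖t.G x - s.G x‖ₑ ^ p
      = (∫⁻ x in A, ‖t.G x - s.G x‖ₑ ^ p) + ∫⁻ x in Ω \ A, ‖t.G x - s.G x‖ₑ ^ p := hsplit _
    _ = ∫⁻ x in Ω \ A, ‖t.G x - s.G x‖ₑ ^ p := by rw [hzero, zero_add]
    _ ≤ ∫⁻ x in Ω \ A, 2 ^ (p - 1) * (ENNReal.ofReal (c ^ p) * (w t x + w s x)) := by
        refine lintegral_mono fun x => ?_
        have h3 := rpow_add_le hp (t.G x) (-s.G x)
        rw [← sub_eq_add_neg, enorm_neg] at h3
        refine h3.trans ?_
        rw [mul_add (ENNReal.ofReal (c ^ p))]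
        gcongr
        · exact le_of_lower hN hp0 _
        · exact le_of_lower hN hp0 _
    _ = 2 ^ (p - 1) * (ENNReal.ofReal (c ^ p) *
          ((∫⁻ x in Ω \ A, w t x) + ∫⁻ x in Ω \ A, w s x)) := by
        rw [lintegral_const_mul' _ _ h2, lintegral_const_mul' _ _ ENNReal.ofReal_ne_top,
          lintegral_add_left' hwtm]
    _ ≤ 2 ^ (p - 1) * (ENNReal.ofReal (c ^ p) *
          (3 * ENNReal.ofReal η + (ENNReal.ofReal C + 1) *
          (ENNReal.ofReal (c ^ p) * ∫⁻ x in s.K, ‖s.G x‖ₑ ^ p))) := by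
        refine mul_le_mul_right (mul_le_mul_right ?_ _) _
        rw [hsA]
        calc (∫⁻ x in Ω \ A, w t x) + ((∫⁻ x in B, w s x) + ∫⁻ x in s.K, w s x)
            ≤ ((∫⁻ x in B, w s x) + (ENNReal.ofReal C * (∫⁻ x in s.K, w s x) +
                ENNReal.ofReal η)) + ((∫⁻ x in B, w s x) + ∫⁻ x in s.K, w s x) := by
              gcongr
          _ = 2 * (∫⁻ x in B, w s x) + ENNReal.ofReal η +
                (ENNReal.ofReal C + 1) * ∫⁻ x in s.K, w s x := by ring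
          _ ≤ 2 * ENNReal.ofReal η + ENNReal.ofReal η + (ENNReal.ofReal C + 1) *
                (ENNReal.ofReal (c ^ p) * ∫⁻ x in s.K, ‖s.G x‖ₑ ^ p) := by
              gcongr
          _ = _ := by ring

/-- **Final assembly.** The freeing step and the local step give the approximation theorem. -/
theorem of_blocks (hp : 2 ≤ p) (hΩ : St.IsBoundedDomain Ω) (hΛ : St.IsBoundedDomain Λ)
    {N : Mat → ℝ} {c : ℝ} (hN : NormLike N c) {C : ℝ} (hC : 1 ≤ C) (hfree : FreeStep p Ω Λ N C)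
    {f : St.V → St.V} {F : St.V → Mat} (hf : St.IsHomeo Ω Λ f) (hF : St.IsSobolev p Ω f F)
    (hloc : LocalStep p Ω Λ f F) : St.DiffeoApproximable p Ω Λ f F := by
  have hp1 : 1 ≤ p := by linarith
  have hp0 : 0 ≤ p := by linarith
  have hv := PK.volume_ne_top_of_domain hΩ
  have hC0 : 0 ≤ C := by linarith
  obtain ⟨-, -, hfc, -⟩ := hf
  refine approx_of_conical hp1 hΩ hΛ hfc hF fun δ hδ => ?_
  have h2 : (2 : ℝ≥0∞) ^ (p - 1) ≠ ⊤ := ENNReal.rpow_ne_top_of_nonneg (by linarith) (by simp)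
  set M : ℝ≥0∞ := 2 ^ (p - 1) * (2 ^ (p - 1) * (ENNReal.ofReal (c ^ p) *
    (3 + (ENNReal.ofReal C + 1) * ENNReal.ofReal (c ^ p))) + 1) with hM
  have hMt : M ≠ ⊤ := by
    rw [hM]
    refine ENNReal.mul_ne_top h2 (ENNReal.add_ne_top.2 ⟨ENNReal.mul_ne_top h2
      (ENNReal.mul_ne_top ENNReal.ofReal_ne_top (ENNReal.add_ne_top.2 ⟨by simp,
      ENNReal.mul_ne_top (ENNReal.add_ne_top.2 ⟨ENNReal.ofReal_ne_top, by simp⟩)
      ENNReal.ofReal_ne_top⟩)), by simp⟩)
  obtain ⟨κ₀, hκ₀, -, hκ₀M⟩ := exists_small (p := 1) one_pos hMt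
    (Real.rpow_pos_of_pos hδ p)
  rw [Real.rpow_one] at hκ₀M
  set κ : ℝ := min κ₀ (δ / 2) with hκdef
  have hκ : 0 < κ := lt_min hκ₀ (half_pos hδ)
  have hκM : ENNReal.ofReal κ * M ≤ ENNReal.ofReal (δ ^ p) :=
    (mul_le_mul_left (ENNReal.ofReal_le_ofReal (min_le_left _ _)) _).trans hκ₀M
  obtain ⟨s, hs1, hs2, hs3⟩ := hloc κ hκ
  obtain ⟨t, htK, ht1, ht2⟩ : ∃ t : State p Ω Λ Qc (fun _ => univ), t.K = ∅ ∧
      (∀ x ∈ Ω, ‖t.g x - s.g x‖ ≤ δ / 2) ∧
      ∫⁻ x in Ω, ‖t.G x - s.G x‖ₑ ^ p ≤ 2 ^ (p - 1) * (ENNReal.ofReal (c ^ p) *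
        (3 * ENNReal.ofReal κ + (ENNReal.ofReal C + 1) *
          (ENNReal.ofReal (c ^ p) * ∫⁻ x in s.K, ‖s.G x‖ₑ ^ p))) := by
    by_cases hK : s.K.Nonempty
    · obtain ⟨r, hr, hrt⟩ := close_states hp1 hΩ.1 hv hN hC0 s hK hκ
      have hψ : ∀ i, Adm Ω (psi p N i) := fun _ => adm_of hN hp1 zero_le_one
      have hχ : ∀ i, Adm Ω (chi p N C i) := fun _ => adm_of hN hp1 hC0
      have hfin : Phi (psi p N ()) (chi p N C ()) s ≠ ⊤ := by
        have h4 : ∀ a : ℝ, 0 ≤ a → ∀ B ⊆ Ω, ∫⁻ x in B, ENNReal.ofReal (a * N (s.G x) ^ p) ≠ ⊤ := by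
          intro a ha B hB
          refine ne_top_of_le_ne_top ?_ (lintegral_mono_set hB)
          have h5 : ∀ x, ENNReal.ofReal (a * N (s.G x) ^ p) ≤
              ENNReal.ofReal a * (ENNReal.ofReal (c ^ p) * ‖s.G x‖ₑ ^ p) := fun x => by
            have := le_of_upper hN hp0 (s.G x)
            rw [one_mul] at this
            rw [ENNReal.ofReal_mul ha]
            gcongr
          refine ne_top_of_le_ne_top ?_ (lintegral_mono h5)
          rw [lintegral_const_mul' _ _ ENNReal.ofReal_ne_top,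
            lintegral_const_mul' _ _ ENNReal.ofReal_ne_top]
          exact ENNReal.mul_ne_top ENNReal.ofReal_ne_top
            (ENNReal.mul_ne_top ENNReal.ofReal_ne_top (lint_lt_top hp1 s.sob).ne)
        exact ENNReal.add_ne_top.2 ⟨h4 1 zero_le_one _ sdiff_subset, h4 C hC0 _ s.sub⟩
      obtain ⟨t, ht1, ht2⟩ := exhaust (σ := fun _ => δ / 2) (τ := fun _ => 1) (ρ := fun _ => r)
        (η := κ) hp hΩ hΛ Qc_congr (fun _ => isClosed_univ) hψ hχ
        (fun _ _ M => mul_le_mul_of_nonneg_right hC (Real.rpow_nonneg (hN.nn M) _)) ()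
        (c := c ^ p) (Real.rpow_nonneg hN.pos.le _) (fun x M a b => by
          rw [psi, one_mul, ← Real.mul_rpow hN.pos.le (hN.nn M)]
          refine Real.rpow_le_rpow (abs_nonneg _) (le_trans ?_ (hN.lower M)) hp0
          exact (norm_le_pi_norm (M a) b).trans (norm_le_pi_norm M a))
        continuousOn_const continuousOn_const continuousOn_const (fun _ _ => half_pos hδ)
        (fun _ _ => one_pos) (fun _ _ => hr) hκ s hfin
        (fun s' _ hs' => hfree s' hs')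
      exact ⟨t, ht1, fun x hx => by simpa using ht2.fwd x hx, hrt _ _ t ht1 ht2⟩
    · rw [not_nonempty_iff_eq_empty] at hK
      refine ⟨s, hK, fun x _ => by simpa using (half_pos hδ).le, ?_⟩
      simp only [sub_self, enorm_zero, ENNReal.zero_rpow_of_pos (show 0 < p by linarith),
        lintegral_zero, zero_le]
  obtain ⟨e, he1, -⟩ := exists_conHomeo hΩ.1 t htK
  refine ⟨e, t.G, by rw [he1]; exact t.sob, fun x hx => ?_, ?_⟩
  · rw [he1]
    have e1 : t.g x - f x = (t.g x - s.g x) + (s.g x - f x) := by abel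
    rw [e1]
    refine (norm_add_le _ _).trans ?_
    have h3 := ht1 x hx
    have h4 := (hs1 x hx).trans (min_le_right κ₀ (δ / 2))
    linarith
  · have hm : AEMeasurable (fun x => ‖s.G x - F x‖ₑ ^ p) (volume.restrict Ω) := by
      refine AEMeasurable.pow_const (AEMeasurable.enorm ?_) p
      exact s.aes.aemeasurable.sub
        (aemeasurable_pi_iff.2 fun i => aemeasurable_pi_iff.2 fun j => aem hF i j)
    calc ∫⁻ x in Ω, ‖t.G x - F x‖ₑ ^ p
        ≤ ∫⁻ x in Ω, 2 ^ (p - 1) * (‖t.G x - s.G x‖ₑ ^ p + ‖s.G x - F x‖ₑ ^ p) := by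
          refine lintegral_mono fun x => ?_
          have := rpow_add_le hp1 (t.G x - s.G x) (s.G x - F x)
          rwa [sub_add_sub_cancel] at this
      _ = 2 ^ (p - 1) * ((∫⁻ x in Ω, ‖t.G x - s.G x‖ₑ ^ p) +
            ∫⁻ x in Ω, ‖s.G x - F x‖ₑ ^ p) := by
          rw [lintegral_const_mul' _ _ h2, lintegral_add_right' _ hm]
      _ ≤ 2 ^ (p - 1) * (2 ^ (p - 1) * (ENNReal.ofReal (c ^ p) *
            (3 * ENNReal.ofReal κ + (ENNReal.ofReal C + 1) *
              (ENNReal.ofReal (c ^ p) * ENNReal.ofReal κ))) + ENNReal.ofReal κ) := by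
          gcongr
          refine ht2.trans ?_
          gcongr
      _ = ENNReal.ofReal κ * M := by
          rw [hM]
          ring
      _ ≤ ENNReal.ofReal (δ ^ p) := hκM

end Vale.Agent.P073.H333
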