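import Vale.Agent.P073.MathlibUsed
import Mathlib.Analysis.InnerProductSpace.Projection.Basic

/-!
# P073: decreasing sequences of bounded convex sets of a Hilbert space
-/

namespace Vale.Agent.P073.H333

open Set Filter Topology

/-- A decreasing sequence of nonempty convex sets, which are not at infinity, in a Hilbert space
has a point which is in the closures of all of them. -/
theorem exists_mem_closures {H : Type*} [NormedAddCommGroup H] [InnerProductSpace ℝ H]
    [CompleteSpace H] {C : ℕ → Set H} (hne : ∀ n, (C n).Nonempty) (hc : ∀ n, Convex ℝ (C n))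
    (hd : ∀ n m, n ≤ m → C m ⊆ C n) {B : ℝ} (hB : ∀ n, ∃ x ∈ C n, ‖x‖ ≤ B) :
    ∃ u, ∀ n, u ∈ closure (C n) := by
  have hmin : ∀ n, ∃ v ∈ closure (C n), ‖(0:H) - v‖ = ⨅ w : closure (C n), ‖(0:H) - w‖ := fun n =>
    exists_norm_eq_iInf_of_complete_convex (hne n).closure isClosed_closure.isComplete
      (hc n).closure 0
  choose x hx hxn using hmin
  have hle : ∀ n, ∀ w ∈ closure (C n), ‖x n‖ ≤ ‖w‖ := by
    intro n w hw
    have h1 := hxn n
    simp only [zero_sub, norm_neg] at h1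
    rw [h1]
    exact ciInf_le ⟨0, by rintro _ ⟨w, rfl⟩; exact norm_nonneg _⟩ (⟨w, hw⟩ : closure (C n))
  have hdc : ∀ n m, n ≤ m → closure (C m) ⊆ closure (C n) := fun n m h => closure_mono (hd n m h)
  have hmono : Monotone fun n => ‖x n‖ := fun n m h => hle n _ (hdc n m h (hx m))
  have hbd : ∀ n, ‖x n‖ ≤ B := by
    intro n
    obtain ⟨y, hy, hyB⟩ := hB n
    exact (hle n y (subset_closure hy)).trans hyB
  have hmono2 : Monotone fun n => ‖x n‖ ^ 2 := fun n m h =>
    pow_le_pow_left₀ (norm_nonneg _) (hmono h) 2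
  have hpar : ∀ n m, n ≤ m → ‖x m - x n‖ ^ 2 ≤ 2 * (‖x m‖ ^ 2 - ‖x n‖ ^ 2) := by
    intro n m h
    have hmid : (1 / 2 : ℝ) • x m + (1 / 2 : ℝ) • x n ∈ closure (C n) :=
      (hc n).closure (hdc n m h (hx m)) (hx n) (by norm_num) (by norm_num) (by norm_num)
    have h1 := hle n _ hmid
    rw [← smul_add, norm_smul] at h1
    have h2 : 2 * ‖x n‖ ≤ ‖x m + x n‖ := by
      rw [Real.norm_eq_abs, abs_of_pos (by norm_num : (0:ℝ) < 1/2)] at h1
      linarith
    have h3 := parallelogram_law_with_norm ℝ (x m) (x n)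
    have h4 : (2 * ‖x n‖) ^ 2 ≤ ‖x m + x n‖ ^ 2 := pow_le_pow_left₀ (by positivity) h2 2
    nlinarith [h3, h4]
  have hbdd : BddAbove (range fun n => ‖x n‖ ^ 2) := by
    refine ⟨B ^ 2, ?_⟩
    rintro _ ⟨n, rfl⟩
    exact pow_le_pow_left₀ (norm_nonneg _) (hbd n) 2
  have hcau : CauchySeq x := by
    have hlim := tendsto_atTop_ciSup hmono2 hbdd
    rw [Metric.cauchySeq_iff']
    intro ε hε
    have h1 : ∀ᶠ n in atTop, (⨆ n, ‖x n‖ ^ 2) - ε ^ 2 / 4 < ‖x n‖ ^ 2 :=
      hlim.eventually (lt_mem_nhds (by have : 0 < ε ^ 2 := by positivity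
                                       linarith))
    obtain ⟨N, hN⟩ := h1.exists
    refine ⟨N, fun n hn => ?_⟩
    rw [dist_eq_norm]
    have h2 := hpar N n hn
    have h3 : ‖x n‖ ^ 2 ≤ ⨆ n, ‖x n‖ ^ 2 := le_ciSup hbdd n
    have h4 : ‖x n - x N‖ ^ 2 < ε ^ 2 := by nlinarith
    exact lt_of_pow_lt_pow_left₀ 2 hε.le h4
  obtain ⟨u, hu⟩ := cauchySeq_tendsto_of_complete hcau
  refine ⟨u, fun n => ?_⟩
  exact isClosed_closure.mem_of_tendsto hu
    (eventually_atTop.2 ⟨n, fun m hm => hdc n m hm (hx m)⟩)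

end Vale.Agent.P073.H333
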