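import Vale.Agent.P073.H333.EdgeT
import Vale.Agent.P073.H83.Grid5

/-!
# P073, block A15-PRE: the kept zone of the good cells
-/

namespace Vale.Agent.P073.H333

open MeasureTheory Set Filter Topology Metric Vale.Agent.P073.St Vale.Agent.P073.AB
open Vale.Agent.P073.SQ (ev)
open _root_.P073 (ConHomeo)
open _root_.P073.Net (dyc dyo IsTile SizeFn len)
open Vale.Agent.P073.H73 (MinEdge Bix ctr WLe segP onSeg)
open _root_.P073.Gauge.C110
open scoped ENNReal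

variable {Λ : Set V} {ρ : V → ℝ} {c : ℕ → (Fin 3 → ℤ) → V}

theorem boxR_sub_dyo (v : V) (n k : ℕ) (z : Fin 3 → ℤ) : boxR v n k z ⊆ dyo v n z := by
  intro x hx i
  have h1 := hx i
  have h2 : (0:ℝ) < 2 / 2 ^ (n + k) := by positivity
  constructor <;> linarith [h1.1, h1.2]

/-- the boundary of the box `R` is in the closure of the rest of the cell -/
theorem far_ctr {v : V} {n k : ℕ} {z : Fin 3 → ℤ} {A : V → V} (hA : Continuous A) {r₁ : ℝ}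
    {a : V} (hfar : ∀ x ∈ dyc v n z, x ∉ boxR v n k z → r₁ ≤ ‖a - A x‖) {x : V}
    (hx : x ∈ dyc v n z) (hx' : x ∉ interior (boxR v n k z)) : r₁ ≤ ‖a - A x‖ := by
  by_cases hxR : x ∈ boxR v n k z
  · have hcl : IsClosed {x | r₁ ≤ ‖a - A x‖} :=
      isClosed_le continuous_const (continuous_const.sub hA).norm
    have hS : dyc v n z \ boxR v n k z ⊆ {x | r₁ ≤ ‖a - A x‖} := fun y hy => hfar y hy.1 hy.2
    refine hcl.closure_subset_iff.2 hS ?_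
    rw [mem_closure_iff_nhds]
    intro U hU
    have h1 : dyo v n z ∈ 𝓝 x := (isOpen_dyo v n z).mem_nhds (boxR_sub_dyo v n k z hxR)
    have h2 : ¬ U ∩ dyo v n z ⊆ boxR v n k z := fun h =>
      hx' (mem_interior_iff_mem_nhds.2 (mem_of_superset (inter_mem hU h1) h))
    obtain ⟨y, hy, hyR⟩ := Set.not_subset.1 h2
    exact ⟨y, hy.1, P86.dyo_sub_dyc hy.2, hyR⟩
  · exact hfar x hx hxR

/-- the weight in the kept zone -/
theorem tw_kept (hρ : SizeFn Λ ρ) {m₁ : ℕ} (hgen : ∀ m z, IsTile ρ 0 m z → m₁ ≤ m) {y : V}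
    {a₁ : ℝ} (ha₁ : 0 < a₁)
    (hfar : ∀ m z, IsTile ρ 0 m z → a₁ / 2 ^ m₁ / 2 ≤ ‖y - c m z‖) :
    tw ρ c y ≤ ENNReal.ofReal (1 + 4 * (2 / a₁)) := by
  refine tw_le hρ (by positivity) fun m z ht _ => ?_
  have h1 := hfar m z ht
  have h2 : (1 / 2 ^ m : ℝ) ≤ 1 / 2 ^ m₁ := by
    apply one_div_le_one_div_of_le (by positivity)
    exact pow_le_pow_right₀ (by norm_num) (hgen m z ht)
  calc (1 / 2 ^ m : ℝ) ≤ 1 / 2 ^ m₁ := h2
    _ = 2 / a₁ * (a₁ / 2 ^ m₁ / 2) := by field_simp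
    _ ≤ 2 / a₁ * ‖y - c m z‖ := mul_le_mul_of_nonneg_left h1 (by positivity)

/-- points of the target near the image of the kept zone -/
theorem far_of_near {a y w : V} {r η : ℝ} (h : r ≤ ‖a - w‖) (hη : ‖y - w‖ ≤ η) (h2 : η ≤ r / 2) :
    r / 2 ≤ ‖y - a‖ := by
  have h1 : ‖a - w‖ ≤ ‖y - a‖ + ‖y - w‖ := by
    calc ‖a - w‖ = ‖(a - y) + (y - w)‖ := by congr 1; abel
      _ ≤ ‖a - y‖ + ‖y - w‖ := norm_add_le _ _
      _ = _ := by rw [norm_sub_rev a y]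
  linarith

/-- `h` on small sets of the kept zone -/
theorem cond_kept {h A : V → V} {L : V →L[ℝ] V} {M η r₁ d δ : ℝ} {x y a : V}
    (aff : ∀ x y, A y - A x = L (y - x)) (above : ∀ w, ‖L w‖ ≤ M * ‖w‖) (hM : 0 ≤ M)
    (hx : ‖h x - A x‖ ≤ η) (hy : ‖h y - A y‖ ≤ η) (hxy : ‖x - y‖ ≤ d) (hr₁ : 0 < r₁)
    (hfar : r₁ ≤ ‖a - A x‖) (h2 : η ≤ r₁ / 2) (hδ : 0 ≤ δ) (hsm : 2 * η + M * d ≤ δ * (r₁ / 2)) :
    h x ≠ a ∧ ‖h x - h y‖ ≤ δ * ‖h x - a‖ := by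
  have h3 := far_of_near hfar hx h2
  refine ⟨fun heq => ?_, ?_⟩
  · rw [heq, sub_self, norm_zero] at h3
    linarith
  · have h4 : ‖h x - h y‖ ≤ ‖h x - A x‖ + ‖A x - A y‖ + ‖h y - A y‖ := by
      calc ‖h x - h y‖ = ‖(h x - A x) + (A x - A y) - (h y - A y)‖ := by congr 1; abel
        _ ≤ ‖(h x - A x) + (A x - A y)‖ + ‖h y - A y‖ := norm_sub_le _ _
        _ ≤ _ := by gcongr; exact norm_add_le _ _
    have h5 : ‖A x - A y‖ ≤ M * d := by
      rw [aff]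
      exact (above _).trans (mul_le_mul_of_nonneg_left hxy hM)
    calc ‖h x - h y‖ ≤ 2 * η + M * d := by linarith
      _ ≤ δ * (r₁ / 2) := hsm
      _ ≤ δ * ‖h x - a‖ := mul_le_mul_of_nonneg_left h3 hδ

/-- diameter of a dyadic square -/
theorem squ_diam {v : V} {s : Idx × Fin 3} {x y : V} (hx : x ∈ squ v s) (hy : y ∈ squ v s) :
    ‖x - y‖ ≤ 1 / 2 ^ s.1.1 := by
  rw [pi_norm_le_iff_of_nonneg (by positivity)]
  intro k
  rw [Pi.sub_apply, Real.norm_eq_abs]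
  by_cases hk : k = s.2
  · subst hk
    rw [hx.1, hy.1, sub_self, abs_zero]
    positivity
  · have h1 := hx.2 k hk
    have h2 := hy.2 k hk
    have e : ((s.1.2 k : ℝ) + 1) / 2 ^ s.1.1 = s.1.2 k / 2 ^ s.1.1 + 1 / 2 ^ s.1.1 := by ring
    rw [e] at h1 h2
    rw [abs_le]
    constructor <;> linarith [h1.1, h1.2, h2.1, h2.2]

end Vale.Agent.P073.H333
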