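import Vale.Agent.P073.H333.State

/-!
# P073: limits of states
-/

namespace Vale.Agent.P073.H333

open MeasureTheory Set Filter Topology Vale.Agent.P073.St
open scoped ENNReal NNReal ContDiff

/-- continuity of limits -/
theorem cont_limit {A : Set V} {g : V → V} {gn : ℕ → V → V} {σ : V → ℝ} {e : ℕ → ℝ}
    (he : Tendsto e atTop (𝓝 0)) (hσ : ContinuousOn σ A)
    (hc : ∀ n, ContinuousOn (gn n) A) (h : ∀ n, ∀ x ∈ A, ‖g x - gn n x‖ ≤ e n * σ x) :
    ContinuousOn g A := by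
  intro x hx
  rw [ContinuousWithinAt, Metric.tendsto_nhdsWithin_nhds]
  intro r hr
  have h1 : ∀ᶠ y in 𝓝[A] x, σ y < σ x + 1 := (hσ x hx).eventually_lt_const (lt_add_one _)
  have h2 : Tendsto (fun n => e n * (|σ x| + 1)) atTop (𝓝 0) := by
    have := he.mul_const (|σ x| + 1)
    rwa [zero_mul] at this
  have h2' : Tendsto (fun n => |e n| * (|σ x| + 1)) atTop (𝓝 0) := by
    have := (he.abs).mul_const (|σ x| + 1)
    rwa [abs_zero, zero_mul] at this
  obtain ⟨n, hn⟩ := (h2'.eventually (gt_mem_nhds (show (0:ℝ) < r / 3 by linarith))).exists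
  obtain ⟨δ, hδ, h3⟩ := Metric.tendsto_nhdsWithin_nhds.1 (hc n x hx) (r / 3) (by linarith)
  have h1' : ∀ᶠ y in 𝓝[A] x, |σ y| < |σ x| + 1 :=
    (continuous_abs.continuousAt.comp_continuousWithinAt (hσ x hx)).eventually_lt_const
      (lt_add_one _)
  obtain ⟨δ', hδ', h4⟩ := Metric.mem_nhdsWithin_iff.1 h1'
  have key : ∀ y ∈ A, |σ y| < |σ x| + 1 → ‖g y - gn n y‖ < r / 3 := by
    intro y hy hy2
    refine (h n y hy).trans_lt (lt_of_le_of_lt ?_ hn)
    calc e n * σ y ≤ |e n * σ y| := le_abs_self _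
      _ = |e n| * |σ y| := abs_mul _ _
      _ ≤ |e n| * (|σ x| + 1) := by gcongr
  refine ⟨min δ δ', lt_min hδ hδ', fun y hy hyx => ?_⟩
  have k1 := key y hy (h4 ⟨hyx.trans_le (min_le_right _ _), hy⟩)
  have k2 := key x hx (lt_add_one _)
  have k3 := h3 hy (hyx.trans_le (min_le_left _ _))
  rw [dist_eq_norm] at k3 ⊢
  have e1 : g y - g x = (g y - gn n y) + (gn n y - gn n x) - (g x - gn n x) := by abel
  rw [e1]
  calc _ ≤ ‖(g y - gn n y) + (gn n y - gn n x)‖ + ‖g x - gn n x‖ := norm_sub_le _ _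
    _ ≤ ‖g y - gn n y‖ + ‖gn n y - gn n x‖ + ‖g x - gn n x‖ := by
        gcongr; exact norm_add_le _ _
    _ < r := by linarith

/-- existence of the limit -/
theorem exists_lim {A : Set V} {gn : ℕ → V → V} {σ : V → ℝ} {P : ℕ → ℝ} {a : ℝ}
    (hP : Tendsto P atTop (𝓝 a)) (hPa : Antitone P) (hσ : ∀ x ∈ A, 0 ≤ σ x)
    (h : ∀ n m, n ≤ m → ∀ x ∈ A, ‖gn m x - gn n x‖ ≤ (P n - P m) * σ x) :
    ∃ g : V → V, (∀ x ∈ A, Tendsto (fun n => gn n x) atTop (𝓝 (g x))) ∧
      ∀ n, ∀ x ∈ A, ‖g x - gn n x‖ ≤ (P n - a) * σ x := by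
  have hPle : ∀ n, a ≤ P n := fun n => hPa.le_of_tendsto hP n
  have h1 : ∀ x, ∃ l, x ∈ A → Tendsto (fun n => gn n x) atTop (𝓝 l) := by
    intro x
    by_cases hx : x ∈ A
    · have hc : CauchySeq fun n => gn n x := by
        refine cauchySeq_of_le_tendsto_0 (fun N => (P N - a) * σ x) (fun n m N hn hm => ?_) ?_
        · have key : ∀ n m, N ≤ n → n ≤ m → ‖gn m x - gn n x‖ ≤ (P N - a) * σ x := by
            intro n m hn hnm
            refine (h n m hnm x hx).trans (mul_le_mul_of_nonneg_right ?_ (hσ x hx))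
            have := hPa hn
            have := hPle m
            linarith
          rcases le_total n m with hnm | hnm
          · rw [dist_comm, dist_eq_norm]
            exact key n m hn hnm
          · rw [dist_eq_norm]
            exact key m n hm hnm
        · have := (hP.sub_const a).mul_const (σ x)
          rwa [sub_self, zero_mul] at this
      obtain ⟨l, hl⟩ := cauchySeq_tendsto_of_complete hc
      exact ⟨l, fun _ => hl⟩
    · exact ⟨0, fun h => absurd h hx⟩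
  choose g hg using h1
  refine ⟨g, fun x hx => hg x hx, fun n x hx => ?_⟩
  refine le_of_tendsto (((hg x hx).sub_const (gn n x)).norm) ?_
  filter_upwards [eventually_ge_atTop n] with m hm
  refine (h n m hm x hx).trans (mul_le_mul_of_nonneg_right ?_ (hσ x hx))
  have := hPle m
  linarith

/-- convergence of the composed maps -/
theorem lim_comp {A : Set V} (hA : IsOpen A) {h : V → V} {hn : ℕ → V → V} {τ : V → ℝ} {e : ℕ → ℝ}
    (he : Tendsto e atTop (𝓝 0)) (hτ : ContinuousOn τ A) (hc : ContinuousOn h A)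
    (hh : ∀ n, ∀ y ∈ A, ‖h y - hn n y‖ ≤ e n * τ y) {y : V} {yn : ℕ → V} (hy : y ∈ A)
    (hyn : ∀ n, yn n ∈ A) (hl : Tendsto yn atTop (𝓝 y)) :
    Tendsto (fun n => hn n (yn n)) atTop (𝓝 (h y)) := by
  have h1 : Tendsto (fun n => h (yn n)) atTop (𝓝 (h y)) :=
    ((hc y hy).continuousAt (hA.mem_nhds hy)).tendsto.comp hl
  have h2 : Tendsto (fun n => e n * τ (yn n)) atTop (𝓝 0) := by
    have h3 : Tendsto (fun n => τ (yn n)) atTop (𝓝 (τ y)) :=
      ((hτ y hy).continuousAt (hA.mem_nhds hy)).tendsto.comp hl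
    have := he.mul h3
    rwa [zero_mul] at this
  have h3 : Tendsto (fun n => h (yn n) - hn n (yn n)) atTop (𝓝 0) :=
    squeeze_zero_norm (fun n => hh n _ (hyn n)) h2
  have := h1.sub h3
  simpa using this

theorem eLpNorm_le_iff' {E : Type*} [NormedAddCommGroup E] {p : ℝ} (hp : 0 < p) {f : V → E}
    {μ : Measure V} {e : ℝ≥0∞} :
    eLpNorm f (ENNReal.ofReal p) μ ≤ e ↔ ∫⁻ x, ‖f x‖ₑ ^ p ∂μ ≤ e ^ p := by
  have hp0 : ENNReal.ofReal p ≠ 0 := by
    rw [Ne, ENNReal.ofReal_eq_zero]; linarith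
  rw [eLpNorm_eq_lintegral_rpow_enorm_toReal hp0 ENNReal.ofReal_ne_top,
    ENNReal.toReal_ofReal hp.le, one_div, ENNReal.rpow_inv_le_iff hp]

theorem lint_ind {p : ℝ} (hp : 0 < p) {Ω K : Set V} (hΩ : MeasurableSet Ω) (hK : MeasurableSet K)
    (hKΩ : K ⊆ Ω) (H A : V → Mat) :
    ∫⁻ x in Ω, ENNReal.ofReal (K.indicator (fun _ => (1:ℝ)) x * ‖H x - A x‖ ^ p) =
      ∫⁻ x in K, ‖H x - A x‖ₑ ^ p := by
  have e : Ω = (Ω \ K) ∪ K := (sdiff_union_of_subset hKΩ).symm
  rw [e, lintegral_union hK disjoint_sdiff_left]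
  have h1 : ∫⁻ x in Ω \ K, ENNReal.ofReal (K.indicator (fun _ => (1:ℝ)) x * ‖H x - A x‖ ^ p) =
      ∫⁻ x in Ω \ K, 0 := by
    refine setLIntegral_congr_fun (hΩ.diff hK) fun x hx => ?_
    simp [indicator_of_notMem hx.2]
  rw [h1, lintegral_zero, zero_add]
  refine setLIntegral_congr_fun hK fun x hx => ?_
  simp only [indicator_of_mem hx, one_mul]
  rw [← ENNReal.ofReal_rpow_of_nonneg (norm_nonneg _) hp.le, ofReal_norm]

variable {p : ℝ} {Ω Λ : Set V} {Q : (V → V) → V → Prop} {Z : V → Set Mat}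
  {ι : Type*} {ψ χ : ι → V → Mat → ℝ} {σ τ ρ : V → ℝ} {η : ℝ}

/-- **limits of states** -/
theorem exists_limit (hp : 2 ≤ p) (hΩ : IsBoundedDomain Ω) (hΛ : IsBoundedDomain Λ)
    (hQ : ∀ g g' x, g =ᶠ[𝓝 x] g' → Q g x → Q g' x) (hZ : ∀ x, IsClosed (Z x))
    (hψ : ∀ i, Adm Ω (ψ i)) (hχ : ∀ i, Adm Ω (χ i)) (hle : ∀ i x M, ψ i x M ≤ χ i x M)
    (i0 : ι) {c : ℝ} (hc0 : 0 ≤ c) (hc : ∀ x M a b, |M a b| ^ p ≤ c * ψ i0 x M)
    (hσ : ContinuousOn σ Ω) (hτ : ContinuousOn τ Λ) (hρ : ContinuousOn ρ Ω)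
    (hσ0 : ∀ x ∈ Ω, 0 < σ x) (hτ0 : ∀ x ∈ Λ, 0 < τ x) (hρ0 : ∀ x ∈ Ω, 0 < ρ x) (hη : 0 < η)
    {s : ℕ → State p Ω Λ Q Z} (hfin : Phi (ψ i0) (χ i0) (s 0) ≠ ⊤)
    {P : ℕ → ℝ} {a : ℝ} (hP : Tendsto P atTop (𝓝 a)) (hPa : Antitone P)
    (hN : ∀ n m, n ≤ m → Near ψ χ σ τ ρ η (s n) (s m) (P n - P m))
    (hC : ∀ x ∈ Ω, ∃ C ⊆ Λ, IsClosed C ∧ ∀ n, (s n).g x ∈ C)
    (hD : ∀ y ∈ Λ, ∃ C ⊆ Ω, IsClosed C ∧ ∀ n, (s n).h y ∈ C) :
    ∃ t : State p Ω Λ Q Z, t.K = ⋂ n, (s n).K ∧ ∀ n, Near ψ χ σ τ ρ η (s n) t (P n - a) := by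
  have hv := PK.volume_ne_top_of_domain hΩ
  have hp1 : 1 ≤ p := by linarith
  have hp0 : 0 < p := by linarith
  have hPle : ∀ n, a ≤ P n := fun n => hPa.le_of_tendsto hP n
  have hP0 : Tendsto (fun n => P n - a) atTop (𝓝 0) := by simpa using hP.sub_const a
  obtain ⟨g, hg, hgn⟩ := exists_lim hP hPa (fun x hx => (hσ0 x hx).le)
    fun n m h x hx => (hN n m h).fwd x hx
  obtain ⟨h, hh, hhn⟩ := exists_lim hP hPa (fun x hx => (hτ0 x hx).le)
    fun n m h x hx => (hN n m h).bwd x hx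
  have hgΛ : ∀ x ∈ Ω, g x ∈ Λ := by
    intro x hx
    obtain ⟨C, hCΛ, hCc, hCn⟩ := hC x hx
    exact hCΛ (hCc.mem_of_tendsto (hg x hx) (Eventually.of_forall hCn))
  have hhΩ : ∀ y ∈ Λ, h y ∈ Ω := by
    intro x hx
    obtain ⟨C, hCΛ, hCc, hCn⟩ := hD x hx
    exact hCΛ (hCc.mem_of_tendsto (hh x hx) (Eventually.of_forall hCn))
  have hgc : ContinuousOn g Ω := cont_limit hP0 hσ (fun n => (s n).cont) hgn
  have hhc : ContinuousOn h Λ := cont_limit hP0 hτ (fun n => (s n).cont_inv) hhn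
  have hinv : IsInv Ω Λ g h := by
    refine ⟨fun x hx => ⟨hgΛ x hx, ?_⟩, fun y hy => ⟨hhΩ y hy, ?_⟩⟩
    · have h1 := lim_comp hΛ.1 hP0 hτ hhc hhn (hgΛ x hx) (yn := fun n => (s n).g x)
        (fun n => ((s n).inv.1 x hx).1) (hg x hx)
      have h2 : (fun n => (s n).h ((s n).g x)) = fun _ => x :=
        funext fun n => ((s n).inv.1 x hx).2
      rw [h2] at h1
      exact tendsto_nhds_unique h1 tendsto_const_nhds
    · have h1 := lim_comp hΩ.1 hP0 hσ hgc hgn (hhΩ y hy) (yn := fun n => (s n).h y)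
        (fun n => ((s n).inv.2 y hy).1) (hh y hy)
      have h2 : (fun n => (s n).g ((s n).h y)) = fun _ => y :=
        funext fun n => ((s n).inv.2 y hy).2
      rw [h2] at h1
      exact tendsto_nhds_unique h1 tendsto_const_nhds
  -- the wild set
  set K : Set V := ⋂ n, (s n).K with hKdef
  have hKm : MeasurableSet K := MeasurableSet.iInter fun n => (s n).meas hΩ.1
  have hKΩ : K ⊆ Ω := (iInter_subset _ 0).trans (s 0).sub
  have hKn : ∀ n, K ⊆ (s n).K := fun n => iInter_subset _ n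
  have hopn : IsOpen (Ω \ K) := by
    have : Ω \ K = ⋃ n, Ω \ (s n).K := by rw [hKdef, sdiff_iInter]
    rw [this]
    exact isOpen_iUnion fun n => (s n).opn
  -- bounds
  obtain ⟨B, hB⟩ := (PK.isBounded_of_domain hΛ).exists_norm_le
  have hPhi : ∀ n, Phi (ψ i0) (χ i0) (s n) ≤
      Phi (ψ i0) (χ i0) (s 0) + ENNReal.ofReal ((P 0 - a) * η) := fun n =>
    ((hN 0 n (Nat.zero_le n)).en i0).trans (by gcongr; exact hPle n)
  set M : ℝ≥0∞ := (ENNReal.ofReal c * (Phi (ψ i0) (χ i0) (s 0) +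
    ENNReal.ofReal ((P 0 - a) * η))) ^ (p⁻¹) with hM
  have hMt : M ≠ ⊤ := by
    refine ENNReal.rpow_ne_top_of_nonneg (by positivity) ?_
    exact ENNReal.mul_ne_top ENNReal.ofReal_ne_top (ENNReal.add_ne_top.2 ⟨hfin,
      ENNReal.ofReal_ne_top⟩)
  have hMp : M ^ p = ENNReal.ofReal c * (Phi (ψ i0) (χ i0) (s 0) +
      ENNReal.ofReal ((P 0 - a) * η)) := by
    rw [hM, ← ENNReal.rpow_mul, inv_mul_cancel₀ hp0.ne', ENNReal.rpow_one]
  have hE : ∀ n i j, eLpNorm (fun x => (s n).G x i j) (ENNReal.ofReal p)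
      (volume.restrict Ω) ≤ M := by
    intro n i j
    rw [eLpNorm_le_iff' hp0, hMp]
    calc ∫⁻ x in Ω, ‖(s n).G x i j‖ₑ ^ p
        ≤ ∫⁻ x in Ω, ENNReal.ofReal c *
            ENNReal.ofReal (mix (s n).K (ψ i0) (χ i0) x ((s n).G x)) := by
          refine lintegral_mono fun x => ?_
          rw [← ofReal_norm, ENNReal.ofReal_rpow_of_nonneg (norm_nonneg _) hp0.le,
            ← ENNReal.ofReal_mul hc0]
          refine ENNReal.ofReal_le_ofReal ((hc x _ i j).trans ?_)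
          exact mul_le_mul_of_nonneg_left (le_mix (hle i0) _ x _) hc0
      _ = ENNReal.ofReal c * Phi (ψ i0) (χ i0) (s n) := by
          rw [lintegral_const_mul' _ _ ENNReal.ofReal_ne_top, ← Phi_eq hΩ.1]
      _ ≤ _ := by
          gcongr
          exact hPhi n
  obtain ⟨G, hGS, hG⟩ := weak_limit hp hv (fun n => (s n).sob) hg (B := B)
    (fun n x hx => hB _ ((s n).inv.1 x hx).1) hΩ.1.measurableSet hMt hE
  have hGm : AEStronglyMeasurable G (volume.restrict Ω) :=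
    (aemeasurable_pi_iff.2 fun i => aemeasurable_pi_iff.2 fun j => aem hGS i j
      ).aestronglyMeasurable
  -- closeness of the derivatives
  have hder : ∀ n, eLpNorm (fun x => G x - (s n).G x) (ENNReal.ofReal p) (volume.restrict K) ≤
      ENNReal.ofReal ((P n - a) * η) := by
    intro n
    have hA := adm_rpow (Ω := Ω) (N := fun M : Mat => ‖M‖) convexOn_univ_norm
      (fun M => norm_nonneg _) continuous_norm hp1
      (w := K.indicator (fun _ => (1:ℝ))) (measurable_const.indicator hKm)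
      (fun x => indicator_nonneg (fun _ _ => zero_le_one) x) (A := (s n).G)
      (fun i j => aem (s n).sob i j)
    have h1 := hG _ hA n
    rw [lint_ind hp0 hΩ.1.measurableSet hKm hKΩ] at h1
    rw [eLpNorm_le_iff' hp0]
    refine h1.trans (iSup₂_le fun k hk => ?_)
    rw [lint_ind hp0 hΩ.1.measurableSet hKm hKΩ, ← eLpNorm_le_iff' hp0]
    refine (eLpNorm_mono_measure _ (Measure.restrict_mono (hKn k) le_rfl)).trans
      ((hN n k hk).der.trans ?_)
    gcongr
    exact hPle k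
  have hwild : ∀ᵐ x ∂(volume.restrict K), G x ∈ Z x := by
    have h1 : TendstoInMeasure (volume.restrict K) (fun n => (s n).G) atTop G := by
      refine tendstoInMeasure_of_tendsto_eLpNorm (p := ENNReal.ofReal p) ?_
        (fun n => (s n).aesK hKΩ) (hGm.mono_measure (Measure.restrict_mono hKΩ le_rfl)) ?_
      · rw [Ne, ENNReal.ofReal_eq_zero]; linarith
      · have h2 : Tendsto (fun n => ENNReal.ofReal ((P n - a) * η)) atTop (𝓝 0) := by
          have := ENNReal.tendsto_ofReal (hP0.mul_const η)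
          rwa [zero_mul, ENNReal.ofReal_zero] at this
        refine tendsto_of_tendsto_of_tendsto_of_le_of_le tendsto_const_nhds h2
          (fun _ => zero_le) fun n => ?_
        have := hder n
        rw [eLpNorm_sub_comm]
        exact this
    obtain ⟨ns, hns, h2⟩ := h1.exists_seq_tendsto_ae
    have h3 : ∀ᵐ x ∂(volume.restrict K), ∀ n, (s n).G x ∈ Z x := by
      rw [ae_all_iff]
      exact fun n => ae_mono (Measure.restrict_mono (hKn n) le_rfl) (s n).wild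
    filter_upwards [h2, h3] with x hx hx3
    exact (hZ x).mem_of_tendsto hx (Eventually.of_forall fun k => hx3 _)
  -- the map is locally eventually constant
  have hfar : ∀ n, ∀ x ∈ Ω, (∀ z ∈ (s n).K, (P n - a) * ρ x < dist x z) → g x = (s n).g x := by
    intro n x hx hz
    have h1 : ∀ m ≥ n, (s m).g x = (s n).g x := by
      intro m hm
      refine (hN n m hm).far x hx fun z hz' => lt_of_le_of_lt ?_ (hz z hz')
      refine mul_le_mul_of_nonneg_right ?_ (hρ0 x hx).le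
      have := hPle m
      linarith
    refine tendsto_nhds_unique (hg x hx) ?_
    refine tendsto_const_nhds.congr' ?_
    filter_upwards [eventually_ge_atTop n] with m hm
    exact (h1 m hm).symm
  have htame : ∀ x ∈ Ω \ K, Q g x := by
    intro x hx
    obtain ⟨n0, hn0⟩ : ∃ n0, x ∉ (s n0).K := by
      have := hx.2
      rw [hKdef, mem_iInter] at this
      push Not at this
      exact this
    have hxO : x ∈ Ω \ (s n0).K := ⟨hx.1, hn0⟩
    obtain ⟨r, hr, hrO⟩ := Metric.isOpen_iff.1 (s n0).opn x hxO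
    have hb : ∀ᶠ y in 𝓝 x, ρ y < ρ x + 1 :=
      ((hρ x hx.1).continuousAt (hΩ.1.mem_nhds hx.1)).eventually_lt_const (lt_add_one _)
    have hl : Tendsto (fun n => (P n - a) * (ρ x + 1)) atTop (𝓝 0) := by
      have := hP0.mul_const (ρ x + 1)
      rwa [zero_mul] at this
    obtain ⟨n, hn, hnn⟩ := ((hl.eventually (gt_mem_nhds (half_pos hr))).and
      (eventually_ge_atTop n0)).exists
    have hKK : (s n).K ⊆ (s n0).K := (hN n0 n hnn).sub
    have hxn : x ∈ Ω \ (s n).K := ⟨hx.1, fun h => hn0 (hKK h)⟩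
    refine hQ (s n).g g x ?_ ((s n).tame x hxn)
    filter_upwards [hb, Metric.ball_mem_nhds x (half_pos hr)] with y hy hyr
    have hyO : y ∈ Ω \ (s n0).K := hrO (Metric.ball_subset_ball (half_le_self hr.le) hyr)
    refine (hfar n y hyO.1 fun z hz => ?_).symm
    have hzr : z ∉ Metric.ball x r := fun h => (hrO h).2 (hKK hz)
    rw [Metric.mem_ball, not_lt] at hzr
    rw [Metric.mem_ball] at hyr
    have h1 : dist z x ≤ dist y z + dist y x := by
      have := dist_triangle z y x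
      rwa [dist_comm z y] at this
    have h2 : (P n - a) * ρ y ≤ (P n - a) * (ρ x + 1) :=
      mul_le_mul_of_nonneg_left hy.le (sub_nonneg.2 (hPle n))
    linarith
  let t : State p Ω Λ Q Z :=
    { K := K, g := g, h := h, G := G, sub := hKΩ, opn := hopn, inv := hinv, cont := hgc,
      cont_inv := hhc, sob := hGS, tame := htame, wild := hwild }
  refine ⟨t, rfl, fun n => ⟨hKn n, fun i => ?_, hgn n, hhn n, hfar n, hder n⟩⟩
  rw [Phi_eq hΩ.1]
  refine (hG _ (adm_mix hKm (hψ i) (hχ i)) n).trans (iSup₂_le fun k hk => ?_)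
  calc ∫⁻ x in Ω, ENNReal.ofReal (mix K (ψ i) (χ i) x ((s k).G x))
      ≤ ∫⁻ x in Ω, ENNReal.ofReal (mix (s k).K (ψ i) (χ i) x ((s k).G x)) :=
        lintegral_mono fun x => ENNReal.ofReal_le_ofReal (mix_le (hle i) (hKn k) x _)
    _ = Phi (ψ i) (χ i) (s k) := (Phi_eq hΩ.1 _ _ _).symm
    _ ≤ Phi (ψ i) (χ i) (s n) + ENNReal.ofReal ((P n - P k) * η) := (hN n k hk).en i
    _ ≤ _ := by
        gcongr
        exact hPle k

end Vale.Agent.P073.H333
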