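import Mathlib

/-!
# P073, block A15-PRE: the choice of the numbers
-/

namespace Vale.Agent.P073.H333

open Filter Topology Set
open scoped ENNReal

theorem small1 {a : ℝ≥0∞} (ha : a ≠ ⊤) {b : ℝ} (hb : 0 < b) :
    ∀ᶠ x in 𝓝 (0:ℝ≥0∞), a * x ≤ ENNReal.ofReal b := by
  have h1 : Tendsto (fun x : ℝ≥0∞ => a * x) (𝓝 0) (𝓝 (a * 0)) :=
    ENNReal.Tendsto.const_mul tendsto_id (Or.inr ha)
  rw [mul_zero] at h1
  have h2 : (0:ℝ≥0∞) < ENNReal.ofReal b := by simpa using hb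
  filter_upwards [h1.eventually_lt_const h2] with x hx using hx.le

theorem exists_smallE {P : ℝ≥0∞ → Prop} (h : ∀ᶠ x in 𝓝 (0:ℝ≥0∞), P x) :
    ∃ x, x ≠ 0 ∧ x ≠ ⊤ ∧ P x := by
  have h1 : ∀ᶠ x in 𝓝[>] (0:ℝ≥0∞), P x := eventually_nhdsWithin_of_eventually_nhds h
  have h2 : ∀ᶠ x in 𝓝[>] (0:ℝ≥0∞), x ≠ ⊤ := eventually_nhdsWithin_of_eventually_nhds
    (isOpen_ne.mem_nhds (by simp))
  obtain ⟨x, hx, hx1, hx2⟩ := (h1.and (h2.and self_mem_nhdsWithin)).exists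
  exact ⟨x, (ne_of_gt hx2), hx1, hx⟩

theorem tendsto_div_pow (c : ℝ) : Tendsto (fun k : ℕ => c / 2 ^ k) atTop (𝓝 0) := by
  have h := (tendsto_pow_atTop_nhds_zero_of_lt_one (r := (1 / 2 : ℝ)) (by norm_num)
    (by norm_num)).const_mul c
  rw [mul_zero] at h
  refine h.congr fun k => ?_
  rw [one_div_pow]; ring

theorem ev_div_le (c : ℝ) {b : ℝ} (hb : 0 < b) : ∀ᶠ k : ℕ in atTop, c / 2 ^ k ≤ b := by
  filter_upwards [(tendsto_div_pow c).eventually_lt_const hb] with k hk using hk.le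

theorem tendsto_ofReal_div (c : ℝ) :
    Tendsto (fun k : ℕ => ENNReal.ofReal (c / 2 ^ k)) atTop (𝓝 0) := by
  have := ENNReal.tendsto_ofReal (tendsto_div_pow c)
  rwa [ENNReal.ofReal_zero] at this

/-- the choice of the energy outside of the good cells -/
theorem exists_epsc {p ε : ℝ} (hp : 1 < p) (hε : 0 < ε) {CC : ℝ≥0∞} (hCC : CC ≠ ⊤) :
    ∃ εc : ℝ≥0∞, εc ≠ 0 ∧ εc ≠ ⊤ ∧ 3 * εc ≤ ENNReal.ofReal ε ∧
      3 * (εc + 2 ^ (p - 1) * εc) ≤ ENNReal.ofReal (ε / 2) ∧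
      2 ^ (p - 1) * (4356 ^ p * (36 * (CC * εc))) ≤ ENNReal.ofReal (ε / 8) ∧
      εc ≤ ENNReal.ofReal ε := by
  have h2p : (2:ℝ≥0∞) ^ (p - 1) ≠ ⊤ := ENNReal.rpow_ne_top_of_nonneg (by linarith) (by norm_num)
  have h4p : (4356:ℝ≥0∞) ^ p ≠ ⊤ := ENNReal.rpow_ne_top_of_nonneg (by linarith) (by norm_num)
  have e1 : (3 * (1 + 2 ^ (p - 1)) : ℝ≥0∞) ≠ ⊤ :=
    ENNReal.mul_ne_top (by norm_num) (ENNReal.add_ne_top.2 ⟨by norm_num, h2p⟩)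
  have e2 : (2 ^ (p - 1) * (4356 ^ p * (36 * CC)) : ℝ≥0∞) ≠ ⊤ :=
    ENNReal.mul_ne_top h2p (ENNReal.mul_ne_top h4p (ENNReal.mul_ne_top (by norm_num) hCC))
  obtain ⟨x, hx0, hxt, h1, h2, h3, h4⟩ := exists_smallE ((small1 (a := 3) (by norm_num) hε).and
    ((small1 e1 (half_pos hε)).and ((small1 e2 (b := ε / 8) (by positivity)).and
      (small1 (a := 1) (by norm_num) hε))))
  refine ⟨x, hx0, hxt, h1, ?_, ?_, by simpa using h4⟩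
  · refine le_trans (le_of_eq ?_) h2
    ring
  · refine le_trans (le_of_eq ?_) h3
    ring

/-- the choice of the numbers -/
theorem exists_nums {p ε δ θ M C T : ℝ} (hp : 1 < p) (hε : 0 < ε) (hδ : 0 < δ) (hθ : 0 < θ)
    (hT : 0 < T) {vol GI CC : ℝ≥0∞} (hvol : vol ≠ ⊤) (hGI : GI ≠ ⊤)
    (hCC : CC ≠ ⊤) :
    ∃ (ks kt : ℕ) (a₁ : ℝ) (k₁ : ℕ) (β : ℝ) (εe : ℝ≥0∞),
      0 < a₁ ∧ a₁ ≤ 1 / 2 ∧ T * (a₁ / θ) ≤ 1 / 2 ∧ 2 ≤ kt ∧ 3 ≤ k₁ ∧ 0 < β ∧ εe ≠ 0 ∧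
      T * (1 / 2 ^ k₁) ≤ 1 / 2 / 2 ^ ks ∧ C / 2 ^ k₁ ≤ a₁ / 2 ^ ks / 2 ∧
      2 * (C / 2 ^ k₁) + M * (1 / 2 ^ k₁) ≤ δ * (a₁ / 2 ^ ks / 2) ∧
      3 * (2 ^ (p - 1) * (ENNReal.ofReal M ^ p *
        (ENNReal.ofReal (12 / 2 ^ k₁ + 24 / (θ * 2 ^ ks) + 6 / 2 ^ kt) * vol))) ≤
        ENNReal.ofReal (ε / 2) ∧
      2 ^ (p - 1) * (4356 ^ p * (36 * (CC * (ENNReal.ofReal M ^ p *
        (ENNReal.ofReal (12 / 2 ^ k₁ + 24 / (θ * 2 ^ ks) + 6 / 2 ^ kt) * vol))))) ≤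
        ENNReal.ofReal (ε / 8) ∧
      2 ^ (p - 1) * (4356 ^ p * εe) ≤ ENNReal.ofReal (ε / 8) ∧
      2 ^ (p - 1) * (24 * ENNReal.ofReal β ^ p * vol) ≤ ENNReal.ofReal (ε / 8) ∧
      2 ^ (p - 1) * (4356 ^ p * (36 * (ENNReal.ofReal (1 + 4 * (2 / a₁)) ^ p *
        (ENNReal.ofReal (1 / 2 ^ k₁) * (6 * GI + 1) +
          ENNReal.ofReal M ^ p * (6 * ENNReal.ofReal (12 / 2 ^ k₁) * vol))))) ≤
        ENNReal.ofReal (ε / 8) ∧
      24 * (ENNReal.ofReal (2 * (2178 * (1 + 4 * (2 / a₁)))) ^ p * (2 ^ (p - 1) *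
        (ENNReal.ofReal (M ^ p + 1) + ENNReal.ofReal (M + C + 1) ^ p))) *
        (ENNReal.ofReal (12 / 2 ^ k₁) * vol) ≤ ENNReal.ofReal (ε / 8) := by
  have h2p : (2:ℝ≥0∞) ^ (p - 1) ≠ ⊤ := ENNReal.rpow_ne_top_of_nonneg (by linarith) (by norm_num)
  have h4p : (4356:ℝ≥0∞) ^ p ≠ ⊤ := ENNReal.rpow_ne_top_of_nonneg (by linarith) (by norm_num)
  have hR : ∀ a : ℝ, ENNReal.ofReal a ^ p ≠ ⊤ := fun a =>
    ENNReal.rpow_ne_top_of_nonneg (by linarith) ENNReal.ofReal_ne_top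
  have h8 : (0:ℝ) < ε / 8 := by positivity
  -- fill
  have e1 : (3 * (2 ^ (p - 1) * (ENNReal.ofReal M ^ p * vol)) : ℝ≥0∞) ≠ ⊤ :=
    ENNReal.mul_ne_top (by norm_num) (ENNReal.mul_ne_top h2p (ENNReal.mul_ne_top (hR M) hvol))
  have e2 : (2 ^ (p - 1) * (4356 ^ p * (36 * (CC * (ENNReal.ofReal M ^ p * vol)))) : ℝ≥0∞) ≠ ⊤ :=
    ENNReal.mul_ne_top h2p (ENNReal.mul_ne_top h4p (ENNReal.mul_ne_top (by norm_num)
      (ENNReal.mul_ne_top hCC (ENNReal.mul_ne_top (hR M) hvol))))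
  obtain ⟨x, hx0, hxt, h1, h2⟩ := exists_smallE ((small1 e1 (half_pos hε)).and (small1 e2 h8))
  have hx : 0 < x.toReal := ENNReal.toReal_pos hx0 hxt
  obtain ⟨ks, hks⟩ := (ev_div_le (24 / θ) (b := x.toReal / 3) (by positivity)).exists
  obtain ⟨kt, hkt, hkt2⟩ := ((ev_div_le 6 (b := x.toReal / 3) (by positivity)).and
    (eventually_ge_atTop 2)).exists
  set a₁ : ℝ := min (θ / (2 * T)) (1 / 2) with ha₁
  have ha0 : 0 < a₁ := lt_min (by positivity) (by norm_num)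
  have hb : 0 < a₁ / 2 ^ ks / 2 := by positivity
  -- errors
  obtain ⟨εe, hεe0, -, hεe⟩ := exists_smallE (small1 (ENNReal.mul_ne_top h2p h4p) h8)
  have e3 : (2 ^ (p - 1) * (24 * vol) : ℝ≥0∞) ≠ ⊤ :=
    ENNReal.mul_ne_top h2p (ENNReal.mul_ne_top (by norm_num) hvol)
  obtain ⟨y, hy0, hyt, hy⟩ := exists_smallE (small1 e3 h8)
  -- the layers
  have q1 : (2 ^ (p - 1) * (4356 ^ p * (36 * (ENNReal.ofReal (1 + 4 * (2 / a₁)) ^ p *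
      ((6 * GI + 1) + ENNReal.ofReal M ^ p * (6 * (12 * vol)))))) : ℝ≥0∞) ≠ ⊤ :=
    ENNReal.mul_ne_top h2p (ENNReal.mul_ne_top h4p (ENNReal.mul_ne_top (by norm_num)
      (ENNReal.mul_ne_top (hR _) (ENNReal.add_ne_top.2 ⟨ENNReal.add_ne_top.2
        ⟨ENNReal.mul_ne_top (by norm_num) hGI, by norm_num⟩, ENNReal.mul_ne_top (hR M)
          (ENNReal.mul_ne_top (by norm_num) (ENNReal.mul_ne_top (by norm_num) hvol))⟩))))
  have q2 : (24 * (ENNReal.ofReal (2 * (2178 * (1 + 4 * (2 / a₁)))) ^ p * (2 ^ (p - 1) *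
        (ENNReal.ofReal (M ^ p + 1) + ENNReal.ofReal (M + C + 1) ^ p))) * (12 * vol) : ℝ≥0∞) ≠
      ⊤ :=
    ENNReal.mul_ne_top (ENNReal.mul_ne_top (by norm_num) (ENNReal.mul_ne_top (hR _)
      (ENNReal.mul_ne_top h2p (ENNReal.add_ne_top.2 ⟨ENNReal.ofReal_ne_top, hR _⟩))))
      (ENNReal.mul_ne_top (by norm_num) hvol)
  have hlim := tendsto_ofReal_div 1
  obtain ⟨k₁, l1, l2, l3, l4, l5, l6, l7⟩ := ((ev_div_le 12 (b := x.toReal / 3)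
    (by positivity)).and ((ev_div_le T (b := 1 / 2 / 2 ^ ks) (by positivity)).and
    ((ev_div_le C hb).and ((ev_div_le (2 * C + M) (b := δ * (a₁ / 2 ^ ks / 2))
      (by positivity)).and ((hlim.eventually (small1 q1 h8)).and
      ((hlim.eventually (small1 q2 h8)).and (eventually_ge_atTop 3))))))).exists
  have hsum : (ENNReal.ofReal (12 / 2 ^ k₁ + 24 / (θ * 2 ^ ks) + 6 / 2 ^ kt)) ≤ x := by
    rw [← ENNReal.ofReal_toReal hxt]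
    apply ENNReal.ofReal_le_ofReal
    have : 24 / (θ * 2 ^ ks) = 24 / θ / 2 ^ ks := by rw [div_div]
    rw [this]
    linarith
  have e12 : ENNReal.ofReal (12 / 2 ^ k₁) = 12 * ENNReal.ofReal (1 / 2 ^ k₁) := by
    rw [show (12:ℝ≥0∞) = ENNReal.ofReal 12 by simp, ← ENNReal.ofReal_mul (by norm_num)]
    congr 1; ring
  refine ⟨ks, kt, a₁, k₁, (y.toReal) ^ (1 / p), εe, ha0, min_le_right _ _, ?_, hkt2, l7,
    Real.rpow_pos_of_pos (ENNReal.toReal_pos hy0 hyt) _, hεe0, ?_, l3, ?_, ?_, ?_, ?_, ?_, ?_, ?_⟩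
  · have h : a₁ / θ ≤ θ / (2 * T) / θ := by
      gcongr
      exact min_le_left _ _
    have h' : θ / (2 * T) / θ = 1 / (2 * T) := by field_simp
    rw [h'] at h
    calc T * (a₁ / θ) ≤ T * (1 / (2 * T)) := by gcongr
      _ = 1 / 2 := by field_simp
  · rw [mul_one_div]; exact l2
  · refine le_trans (le_of_eq ?_) l4
    ring
  · refine le_trans ?_ h1
    calc 3 * (2 ^ (p - 1) * (ENNReal.ofReal M ^ p *
        (ENNReal.ofReal (12 / 2 ^ k₁ + 24 / (θ * 2 ^ ks) + 6 / 2 ^ kt) * vol)))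
        ≤ 3 * (2 ^ (p - 1) * (ENNReal.ofReal M ^ p * (x * vol))) := by gcongr
      _ = _ := by ring
  · refine le_trans ?_ h2
    calc 2 ^ (p - 1) * (4356 ^ p * (36 * (CC * (ENNReal.ofReal M ^ p *
        (ENNReal.ofReal (12 / 2 ^ k₁ + 24 / (θ * 2 ^ ks) + 6 / 2 ^ kt) * vol)))))
        ≤ 2 ^ (p - 1) * (4356 ^ p * (36 * (CC * (ENNReal.ofReal M ^ p * (x * vol))))) := by
          gcongr
      _ = _ := by ring
  · refine le_trans (le_of_eq ?_) hεe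
    ring
  · have h : ENNReal.ofReal (y.toReal ^ (1 / p)) ^ p = y := by
      rw [← ENNReal.ofReal_rpow_of_nonneg ENNReal.toReal_nonneg (by positivity),
        ENNReal.ofReal_toReal hyt, ← ENNReal.rpow_mul, one_div,
        inv_mul_cancel₀ (by linarith), ENNReal.rpow_one]
    rw [h]
    refine le_trans (le_of_eq ?_) hy
    ring
  · refine le_trans (le_of_eq ?_) l5
    rw [e12]
    ring
  · refine le_trans (le_of_eq ?_) l6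
    rw [e12]
    ring

end Vale.Agent.P073.H333
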