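import Vale.Agent.P073.H333.Kept
import Vale.Agent.P073.H333.Gener
import Vale.Agent.P073.H194.PreMesh
import Vale.Agent.P073.H83.Grid5
import Vale.Agent.P073.H687.KeptSum
import Vale.Agent.P073.H687.Surf
import Vale.Agent.P073.H687.LenSeg
import Vale.Agent.P073.H687.MinSqEdge
import Vale.Agent.P073.H687.Area

/-!
# P073, block A15-PRE: all data and all inequalities, before the fields of `Pre`

`PD` is produced by the choice of the constants; the fields of `Pre` are lemmas on `PD`.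
-/

namespace Vale.Agent.P073.H333

open MeasureTheory Set Filter Topology Metric Vale.Agent.P073.St Vale.Agent.P073.AB
open Vale.Agent.P073.SQ (ev)
open _root_.P073 (ConHomeo)
open _root_.P073.Net (dyc dyo IsTile SizeFn len)
open Vale.Agent.P073.H73 (MinEdge Bix ctr WLe segP onSeg)
open Vale.Agent.P073.H194 (refine Big wH zo so co MeshOut bInt Oc cellT)
open Vale.Agent.P073.H471 (wgt)
open Vale.Agent.P073.H83 (CellsG gB grho)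
open scoped ENNReal

/-- the first data -/
structure PD0 (Ω Λ : Set V) (f : V → V) where
  /-- lower bound of the affine maps -/
  θ : ℝ
  /-- upper bound of the affine maps -/
  M : ℝ
  /-- constant of `NetIn2` -/
  C : ℝ
  /-- closeness on the good cells -/
  κ : ℝ
  /-- distance of the centres to the images of the layers, in units of `1 / 2 ^ m₁` -/
  a₁ : ℝ
  /-- small constant for the errors of the edges -/
  β : ℝ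
  k₁ : ℕ
  k₀ : ℕ
  n : ℕ
  m₁ : ℕ
  mt : ℕ
  m' : ℕ
  v : V
  J : Finset (Fin 3 → ℤ)
  A : (Fin 3 → ℤ) → V → V
  L : (Fin 3 → ℤ) → V →L[ℝ] V
  c : ℕ → (Fin 3 → ℤ) → V
  G : V → ℝ≥0∞
  H : CellsG θ M (κ / 2 ^ (n + k₁ + k₀)) m₁ n k₁ Ω Λ f v J A L

namespace PD0

variable {Ω Λ : Set V} {f : V → V} (D : PD0 Ω Λ f)

/-- size function of the target -/
noncomputable def ρ : V → ℝ := grho 0 D.v D.n D.k₁ D.m₁ D.mt D.m' D.J D.A Λ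

/-- the boxes -/
noncomputable def Bx : Finset Bix := gB D.H D.mt

/-- the base partition -/
def Ib : Set Idx := base Ω D.v D.n D.k₁ D.k₀ D.J

/-- the kept cubes -/
def P : Set Idx := lay D.v D.n D.k₁ D.k₀ D.J ∪ gap D.v D.n D.k₁ D.J

/-- `A z` in the boxes `boxR z`, `f` outside -/
noncomputable def fs : V → V := H194.fs D.v D.n D.k₁ D.J D.A f

/-- its density -/
noncomputable def Gs (p : ℝ) : V → ℝ≥0∞ := H194.Gs p D.v D.n D.k₁ D.J D.A D.L D.Bx D.G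

/-- the weight: tiles which are not inside a box -/
noncomputable def wg (y : V) : ℝ≥0∞ :=
  wgt (zo D.ρ D.Bx) (so D.ρ D.Bx) (co D.ρ D.Bx D.c) y

/-- weighted density -/
noncomputable def Hw (p : ℝ) : V → ℝ≥0∞ :=
  wH p (zo D.ρ D.Bx) (so D.ρ D.Bx) (co D.ρ D.Bx D.c) D.fs (D.Gs p)

/-- the weight of an edge in a divided cube -/
noncomputable def wst (e : Idx × Fin 3) : ℝ :=
  (2178 * ⨅ x ∈ edge D.v e, D.wg (D.fs x)).toReal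

/-- the refined partition -/
def I (Bg : Set Idx) (nf : Idx → ℕ) : Set Idx := refine D.v D.Ib D.P Bg nf

/-- the partition for `NetIn2` -/
def In (Bg : Set Idx) (nf : Idx → ℕ) : Set Idx :=
  inet Ω D.v D.n D.k₁ D.k₀ D.J (D.I Bg nf)

/-- the good cells, as cubes -/
def Jc : Set Idx := {q | q.1 = D.n ∧ q.2 ∈ D.J}

/-- bound for the weights of the kept edges -/
noncomputable def W₃ : ℝ := 2178 * (1 + 4 * (2 / D.a₁))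

/-- constant in the bound of the kept edges -/
noncomputable def Kk (p : ℝ) : ℝ≥0∞ :=
  ENNReal.ofReal (2 * D.W₃) ^ p * (2 ^ (p - 1) *
    (ENNReal.ofReal (D.M ^ p + 1) + ENNReal.ofReal (D.M + D.C + 1) ^ p))

end PD0

/-- all data -/
structure PD (p ε δ : ℝ) (Φ : ℕ → Finset (Fin 3 → ℤ) → ((Fin 3 → ℤ) → V → V) → ℝ)
    (Ω Λ : Set V) (f : V → V) (F : V → Mat) extends PD0 Ω Λ f where
  bΩ : St.IsBoundedDomain Ω
  bΛ : St.IsBoundedDomain Λ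
  hf : St.IsHomeo Ω Λ f
  hF : St.IsSobolev p Ω f F
  hp : 2 < p
  hp3 : p < 3
  hε : 0 < ε
  hδ : 0 < δ
  -- numbers
  M0 : 0 < M
  C0 : 0 < C
  κ0 : 0 < κ
  κC : κ ≤ C
  a0 : 0 < a₁
  a1 : a₁ ≤ 1 / 2
  β0 : 0 < β
  m2 : 2 ≤ m₁
  nm : n ≤ m₁
  mmt : m₁ + 2 ≤ mt
  mtm : mt ≤ m'
  /-- generation near the cells -/
  nr : ℕ
  mnr : m' ≤ nr
  η1 : C / 2 ^ (n + k₁) ≤ a₁ / 2 ^ m₁ / 2
  η2 : 2 * (C / 2 ^ (n + k₁)) + M * (1 / 2 ^ (n + k₁)) ≤ δ * (a₁ / 2 ^ m₁ / 2)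
  η3 : C / 2 ^ (n + k₁) + κ / 2 ^ (n + k₁) ≤ ε
  η4 : 1 / 2 ^ m₁ ≤ ε
  r1 : M * (8 / 2 ^ nr) ≤ 3 / 2 ^ m₁
  r2 : M * (4 / 2 ^ nr) ≤ 1 / 8 / 2 ^ m'
  r3 : M * (2 / 2 ^ nr) ≤ δ * (1 / 8 / 2 ^ m')
  r4 : M * (16 / 2 ^ nr) < 2 / 2 ^ mt
  r5 : (16 : ℝ) / 2 ^ nr < 4 / 2 ^ (n + k₁)
  r6 : (4 : ℝ) / 2 ^ nr ≤ 1 / 2 / 2 ^ n
  -- good cells
  aff : ∀ z x y, A z y - A z x = L z (y - x)
  fine : H669.Fine Ω v n k₁ k₀ J
  /-- dyadic coefficients -/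
  N : ℕ
  dyL : ∀ z ∈ J, ∀ i j, ∃ a : ℤ, L z (ev j) i = a / 2 ^ N
  dyA : ∀ z ∈ J, ∀ i, ∃ a : ℤ, A z v i = a / 2 ^ N
  /-- energy outside of the good cells -/
  εc : ℝ≥0∞
  es1 : ∑ z ∈ J, ∫⁻ y in dyc v n z, ‖cl (F y) - L z‖ₑ ^ p ≤ εc
  es2 : ∫⁻ y in Ω \ ⋃ z ∈ J, dyc v n z, ‖cl (F y)‖ₑ ^ p ≤ εc
  /-- volume of the cells which is not covered -/
  εf : ℝ≥0∞
  fill : ∑ z ∈ J, volume (dyc v n z \ ⋃ b ∈ {b | b ∈ toPD0.Bx ∧ b.1 = z}, b.cell A) ≤ εf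
  -- the density
  Gm : Measurable G
  Gfin : ∫⁻ x, G x ≠ ⊤
  rat : RatGood v Ω f F
  efin : ∀ e : Idx × Fin 3, edge v e ⊆ Ω →
    eInt v e (fun x => ENNReal.ofReal ‖cl (F x) (ev e.2)‖) ≠ ⊤
  rep : ∀ A A' : V → ℝ≥0∞, (∀ x, (Ω.indicator fun x => ‖cl (F x)‖ₑ ^ p) x = G x → A x = A' x) →
    (∀ e, eInt v e A = eInt v e A') ∧ ∀ s, H194.sInt v s A = H194.sInt v s A'
  own : ∀ z ∈ J, ∀ e : Idx × Fin 3, e.1.1 = n + k₁ + k₀ → edge v e ⊆ dyc v n z →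
    eInt v e G ≤ ENNReal.ofReal ((M ^ p + 1) / 2 ^ (n + k₁ + k₀))
  surf : ∑ z ∈ J, ENNReal.ofReal (1 / 2 ^ n) * bInt v (n, z) G ≤ 6 * (∫⁻ x, G x) + 1
  -- centres
  mid : Mid toPD0.ρ c
  far : ∀ m zz, IsTile toPD0.ρ 0 m zz → ∀ z ∈ J, ∀ x ∈ dyc v n z, x ∉ boxR v n k₁ z →
    a₁ / 2 ^ m₁ ≤ ‖c m zz - A z x‖
  -- mesh
  Bg : Set Idx
  nf : Idx → ℕ
  τ : Idx → ℝ
  τ0 : ∀ q, 0 < τ q
  e : Idx → ℝ≥0∞
  mesh : MeshOut p δ Ω Λ f G v n k₁ J A L toPD0.Ib toPD0.P toPD0.Bx (zo toPD0.ρ toPD0.Bx)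
    (so toPD0.ρ toPD0.Bx) (co toPD0.ρ toPD0.Bx c) e τ Bg nf nr
  εe : ℝ≥0∞
  esum : ∑' q : toPD0.Ib, e q ≤ εe
  εI : ℝ≥0∞
  int : ∫⁻ x in ⋃ q ∈ toPD0.Ib \ toPD0.P, dyc v q.1 q.2, toPD0.Hw p x ≤ εI
  -- the homeomorphism
  h : ConHomeo Ω Λ
  σ : V → ℝ
  δe : Idx × Fin 3 → ℝ
  σε : ∀ x ∈ Ω, σ x ≤ ε
  στ : ∀ q ∈ toPD0.Ib \ toPD0.P, ∀ x ∈ dyc v q.1 q.2, σ x ≤ τ q
  δ0 : ∀ e, 0 < δe e
  δ1 : ∀ e, δe e ≤ 1 / 2 ^ e.1.1
  δ2 : ∀ e, toPD0.wst e * (2 * δe e) ≤ β / 2 ^ e.1.1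
  net : NetRes v (toPD0.In Bg nf) toPD0.Jc (fun _ => C) (fun _ => k₁) (fun _ => k₀)
    (fun q => A q.2) f F Ω σ δe h.toFun
  -- zero order
  K : Set V
  Ksub : K ⊆ Ω
  Kc : IsCompact K
  Kvol : volume (Ω \ K) ≤ ENNReal.ofReal ε
  osc : ∀ x ∈ K, ∀ y, ‖y - x‖ ≤ 1 / 2 ^ n → ‖f y - f x‖ ≤ ε
  -- budgets
  b1 : 3 * εc ≤ ENNReal.ofReal ε
  b2 : 3 * (εc + 2 ^ (p - 1) * (εc + ENNReal.ofReal M ^ p * εf)) ≤ ENNReal.ofReal ε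
  /-- divided cubes, kept cubes on divided cubes, kept cubes on kept cubes -/
  b3 : 2 ^ (p - 1) * (4356 ^ p * (36 * εI + εe) + 24 * ENNReal.ofReal β ^ p * volume Ω) +
    (2 ^ (p - 1) * (4356 ^ p * (36 * (ENNReal.ofReal (1 + 4 * (2 / a₁)) ^ p *
        (ENNReal.ofReal (1 / 2 ^ k₁) * (6 * (∫⁻ x, G x) + 1) +
          ENNReal.ofReal M ^ p * (6 * ENNReal.ofReal (12 / 2 ^ k₁) * volume Ω))) + εe) +
        24 * ENNReal.ofReal β ^ p * volume Ω) +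
      24 * toPD0.Kk p * (ENNReal.ofReal (12 / 2 ^ k₁) * volume Ω)) ≤ ENNReal.ofReal ε
  b4 : Φ N J A * ((gB H mt).card * (6 * (9 / θ * (2 / 2 ^ n) ^ 2 * (1 / 2 ^ m')))) ≤ ε

namespace PD

variable {p ε δ : ℝ} {Φ : ℕ → Finset (Fin 3 → ℤ) → ((Fin 3 → ℤ) → V → V) → ℝ}
  {Ω Λ : Set V} {f : V → V} {F : V → Mat} (D : PD p ε δ Φ Ω Λ f F)

/-- the refined partition -/
def I : Set Idx := D.toPD0.I D.Bg D.nf

/-- edges in a minimal square in a divided cube -/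
def Div (e : Idx × Fin 3) : Prop := ∃ s, MinSq D.v D.I s ∧ edge D.v e ⊆ squ D.v s ∧
  ∃ q ∈ D.Ib \ D.P, squ D.v s ⊆ dyc D.v q.1 q.2

open Classical in
/-- the weight of an edge -/
noncomputable def We (e : Idx × Fin 3) : ℝ := if D.Div e then D.wst e else 2 / D.a₁

/-- weighted length of an edge -/
noncomputable def ell (e : Idx × Fin 3) : ℝ≥0∞ :=
  ENNReal.ofReal (D.We e) * len (onSeg D.h.toFun (segP D.v e)) (Icc 0 1)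

/-- density of the divided squares -/
noncomputable def gD (x : V) : ℝ≥0∞ :=
  4356 * (D.wg (D.fs x) * (D.Gs p x) ^ (1 / p)) + ENNReal.ofReal D.β

/-- density of the kept edges -/
noncomputable def gk (x : V) : ℝ≥0∞ :=
  ENNReal.ofReal (2 * D.W₃) * (D.G x ^ (1 / p) + ENNReal.ofReal (D.M + D.C + 1))

end PD

end Vale.Agent.P073.H333
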