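import Vale.Agent.P073.H333.PDref

/-!
# P073, block A15-PRE: [PD1] the geometry near the cells
-/

namespace Vale.Agent.P073.H333

open MeasureTheory Set Filter Topology Metric Vale.Agent.P073.St Vale.Agent.P073.AB
open Vale.Agent.P073.SQ (ev)
open _root_.P073 (ConHomeo)
open _root_.P073.Net (dyc dyo IsTile SizeFn len)
open Vale.Agent.P073.H73 (MinEdge Bix ctr WLe segP onSeg)
open Vale.Agent.P073.H194 (refine Big wH zo so co MeshOut bInt Oc cellT)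
open Vale.Agent.P073.H471 (wgt)
open Vale.Agent.P073.H83 (CellsG gB grho mem_gB bixOf box_bixOf cell_bixOf Fam bx Fam_sub
  bx_sub_image bx_sub_dyc)
open scoped ENNReal

namespace PD

variable {p ε δ : ℝ} {Φ : ℕ → Finset (Fin 3 → ℤ) → ((Fin 3 → ℤ) → V → V) → ℝ}
  {Ω Λ : Set V} {f : V → V} {F : V → Mat} (D : PD p ε δ Φ Ω Λ f F)

theorem exists_fam {b : Bix} (hb : b ∈ D.Bx) :
    ∃ q ∈ Fam 0 D.v D.n D.k₁ D.m₁ D.J D.A, b.1 = q.1 ∧ b.box = bx 0 D.m₁ D.mt q.2 ∧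
      b.cell D.A = D.A q.1 ⁻¹' bx 0 D.m₁ D.mt q.2 := by
  obtain ⟨q, hq, rfl⟩ := (mem_gB D.H).1 hb
  exact ⟨q, hq, rfl, box_bixOf _ _ _, cell_bixOf _ _ _⟩

theorem closed_cell {b : Bix} (hb : b ∈ D.Bx) : IsClosed (b.cell D.A) := by
  obtain ⟨q, hq, h1, h2, h3⟩ := D.exists_fam hb
  rw [h3]
  exact (H83.isCompact_bx _ _ _ _).isClosed.preimage (D.H.continuous hq.1)

/-- near a cell -/
theorem hA {b : Bix} (hb : b ∈ D.Bx) {x : V}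
    (hx : ∃ y ∈ b.cell D.A, ‖x - y‖ ≤ 8 / 2 ^ D.nr) :
    x ∈ boxR D.v D.n D.k₁ b.1 ∧ x ∈ Ω ∧ D.h.toFun x = D.A b.1 x := by
  obtain ⟨q, hq, h1, h2, h3⟩ := D.exists_fam hb
  obtain ⟨y, hy, hxy⟩ := hx
  rw [h3] at hy
  have h4 : x ∈ boxR D.v D.n D.k₁ q.1 := by
    obtain ⟨u, hu, hux⟩ := hq.2 (D.A q.1 x) ⟨D.A q.1 y, bx_sub_dyc _ _ _ _ hy, by
      refine (D.H.dist_le hq.1 x y).trans (le_trans ?_ D.r1)
      exact mul_le_mul_of_nonneg_left hxy D.M0.le⟩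
    rwa [← D.H.injective hq.1 hux]
  rw [h1]
  refine ⟨h4, ?_, D.net.box (D.n, q.1) ⟨rfl, hq.1⟩ x h4⟩
  exact D.H.sub q.1 hq.1 (CellsG.boxR_sub_dyc _ _ _ _ h4)

/-- the preimage of a box is the cell -/
theorem in_cell : ∀ b ∈ D.Bx, ∀ x ∈ Ω, D.h.toFun x ∈ b.box → x ∈ b.cell D.A := by
  intro b hb x hx hxb
  obtain ⟨q, hq, h1, h2, h3⟩ := D.exists_fam hb
  rw [h2] at hxb
  obtain ⟨u, hu, hux⟩ := bx_sub_image hq hxb
  have h4 := D.net.box (D.n, q.1) ⟨rfl, hq.1⟩ u hu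
  have h5 : u ∈ Ω := D.H.sub q.1 hq.1 (CellsG.boxR_sub_dyc _ _ _ _ hu)
  have h6 : x = u := by
    have e1 := D.h.left_inv hx
    have e2 := D.h.left_inv h5
    rw [← e1, ← e2, h4]
    exact congrArg _ hux.symm
  rw [h3]
  show D.A q.1 x ∈ bx 0 D.m₁ D.mt q.2
  have h7 : D.A q.1 x = D.h.toFun x := by rw [h6]; exact hux.trans (by rw [h6])
  rw [h7]
  exact hxb

theorem zone : ∀ b ∈ D.Bx, ∀ x, (∃ y ∈ frontier (b.cell D.A), ‖x - y‖ ≤ 4 / 2 ^ D.nr) →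
    ∀ m z, IsTile D.ρ 0 m z → D.h.toFun x ∈ dyc 0 m z → D.h.toFun x ≠ D.c m z ∧
      1 / 2 ^ m ≤ 16 * ‖D.h.toFun x - D.c m z‖ ∧
      ∀ y, ‖x - y‖ ≤ 2 / 2 ^ D.nr →
        ‖D.h.toFun x - D.h.toFun y‖ ≤ δ * ‖D.h.toFun x - D.c m z‖ := by
  intro b hb x hx m zz ht hxt
  obtain ⟨y, hy, hxy⟩ := hx
  have hyc : y ∈ b.cell D.A := (D.closed_cell hb).frontier_subset hy
  have hp : (0:ℝ) < 1 / 2 ^ D.nr := by positivity
  have e4 : (4 / 2 ^ D.nr : ℝ) = 4 * (1 / 2 ^ D.nr) := by ring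
  have e2 : (2 / 2 ^ D.nr : ℝ) = 2 * (1 / 2 ^ D.nr) := by ring
  have e8 : (8 / 2 ^ D.nr : ℝ) = 8 * (1 / 2 ^ D.nr) := by ring
  obtain ⟨-, -, hx1⟩ := D.hA hb ⟨y, hyc, hxy.trans (by rw [e4, e8]; linarith)⟩
  obtain ⟨q, hq, h1, h2, h3⟩ := D.exists_fam hb
  rw [h3] at hy
  rw [h1] at hx1
  rw [hx1] at hxt ⊢
  have hmt := D.mmt
  have hmm := D.mtm
  obtain ⟨z1, z2, z3⟩ := H83.zone_grid D.H (by omega) D.mtm hq hy hxy D.r2 ht hxt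
    (D.mid m zz ht)
  refine ⟨z2, ?_, fun y' hy' => ?_⟩
  · have e1 : (1 / 2 ^ m : ℝ) = 8 * (1 / 8 / 2 ^ m) := by ring
    have e0 : (0:ℝ) < 1 / 8 / 2 ^ m := by positivity
    rw [e1]; linarith
  · obtain ⟨-, -, hy1⟩ := D.hA hb (x := y') ⟨y, hyc, by
      have : ‖y' - y‖ ≤ ‖x - y'‖ + ‖x - y‖ := by
        calc ‖y' - y‖ = ‖(x - y) - (x - y')‖ := by congr 1; abel
          _ ≤ ‖x - y‖ + ‖x - y'‖ := norm_sub_le _ _
          _ = _ := add_comm _ _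
      rw [e8]; rw [e4] at hxy; rw [e2] at hy'
      linarith⟩
    rw [h1] at hy1
    rw [hy1]
    calc ‖D.A q.1 x - D.A q.1 y'‖ ≤ D.M * ‖x - y'‖ := D.H.dist_le hq.1 x y'
      _ ≤ D.M * (2 / 2 ^ D.nr) := mul_le_mul_of_nonneg_left hy' D.M0.le
      _ ≤ δ * (1 / 8 / 2 ^ D.m') := D.r3
      _ ≤ δ * ‖D.A q.1 x - D.c m zz‖ := by
          rw [z1] at z3
          have h8 : (1 / 8 / 2 ^ D.m' : ℝ) ≤ ‖D.A q.1 x - D.c m zz‖ := by rw [z1]; exact z3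
          exact mul_le_mul_of_nonneg_left h8 D.hδ.le

/-- `h` is close to `f` -/
theorem near : ∀ x ∈ Ω, ‖D.h.toFun x - f x‖ ≤ ε := by
  intro x hx
  by_cases h : ∃ z ∈ D.J, x ∈ interior (dyc D.v D.n z)
  · obtain ⟨z, hz, hxz⟩ := h
    have h1 := D.H.close z hz x (interior_subset hxz)
    have hC := D.C0
    have hκ := D.κ0
    have hpow : (2:ℝ) ^ (D.n + D.k₁) ≤ 2 ^ (D.n + D.k₁ + D.k₀) :=
      pow_le_pow_right₀ (by norm_num) (by omega)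
    have h2 : ‖D.h.toFun x - D.A z x‖ ≤ D.C / 2 ^ (D.n + D.k₁) := by
      by_cases hB : x ∈ boxB D.v D.n D.k₁ z
      · exact D.net.inn (D.n, z) ⟨rfl, hz⟩ x hB
      · refine (D.net.layer (D.n, z) ⟨rfl, hz⟩ x (interior_subset hxz)
          fun h => hB (interior_subset h)).trans ?_
        exact div_le_div_of_nonneg_left hC.le (by positivity) hpow
    have h3 : D.κ / 2 ^ (D.n + D.k₁ + D.k₀) ≤ D.κ / 2 ^ (D.n + D.k₁) :=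
      div_le_div_of_nonneg_left hκ.le (by positivity) hpow
    calc ‖D.h.toFun x - f x‖ = ‖(D.h.toFun x - D.A z x) - (f x - D.A z x)‖ := by
          congr 1; abel
      _ ≤ ‖D.h.toFun x - D.A z x‖ + ‖f x - D.A z x‖ := norm_sub_le _ _
      _ ≤ ε := by have := D.η3; linarith
  · refine (D.net.off x hx ?_).trans (D.σε x hx)
    rintro ⟨n', z⟩ ⟨hn, hz⟩ hxi
    have hn' : n' = D.n := hn
    subst hn'
    exact h ⟨z, hz, hxi⟩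

theorem tsmall (y : V) : D.ρ y ≤ ε := by
  refine (min_le_left _ _).trans ((min_le_left _ _).trans D.η4)

theorem sep : ∀ b ∈ D.Bx, ∀ b' ∈ D.Bx, b ≠ b' → ∀ x ∈ b.cell D.A, ∀ y ∈ b'.cell D.A,
    16 / 2 ^ D.nr < ‖x - y‖ := H83.gB_sep D.H D.r4 D.r5

theorem unif : ∀ b ∈ D.Bx, ∀ q ∈ D.I,
    (∃ x ∈ dyc D.v q.1 q.2, ∃ y ∈ b.cell D.A, ‖x - y‖ ≤ 4 / 2 ^ D.nr) → q.1 = D.nr := by
  rintro b hb q hq ⟨x, hx, y, hy, hxy⟩
  refine D.mesh.unif b hb q hq ⟨x, hx, y, hy, hxy.trans ?_⟩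
  gcongr
  norm_num

theorem base_gen {q : Idx} (hq : q ∈ base Ω D.v D.n D.k₁ D.k₀ D.J) : D.n ≤ q.1 := by
  rcases hq with ((⟨h, -⟩ | ⟨h, -⟩) | ⟨h, -⟩) | ⟨h, -⟩
  · have := D.fine.gen q h
    omega
  · omega
  · omega
  · omega

theorem oscI : ∀ x ∈ D.K, ∀ q ∈ D.I, x ∈ dyc D.v q.1 q.2 → ∀ y ∈ dyc D.v q.1 q.2,
    ‖f y - f x‖ ≤ ε := by
  intro x hx q hq hxq y hy
  obtain ⟨q', hq', hs⟩ := D.ref.sub_base hq
  refine D.osc x hx y ((dyc_near (hs hxq) (hs hy)).trans ?_)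
  apply one_div_le_one_div_of_le (by positivity)
  exact pow_le_pow_right₀ (by norm_num) (D.base_gen hq')

theorem cut : ENNReal.ofReal (Φ D.N D.J D.A) *
    volume {x | ∃ b ∈ D.Bx, ∃ y ∈ b.cell D.A, ‖x - y‖ ≤ 4 / 2 ^ D.nr ∧
      ∃ k, D.A b.1 y k ≤ b.2.1 k + 1 / 2 ^ D.m' ∨ b.2.2 k - 1 / 2 ^ D.m' ≤ D.A b.1 y k} ≤
    ENNReal.ofReal ε := by
  rcases le_total (Φ D.N D.J D.A) 0 with h | h
  · rw [ENNReal.ofReal_of_nonpos h, zero_mul]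
    exact zero_le
  · have h1 := H83.volume_cut_le (mt := D.mt) (m' := D.m') D.H (r := 4 / 2 ^ D.nr) (by
      refine D.r2.trans ?_
      have : (0:ℝ) < 1 / 2 ^ D.m' := by positivity
      have e : (1 / 8 / 2 ^ D.m' : ℝ) = 1 / 8 * (1 / 2 ^ D.m') := by ring
      rw [e]; linarith) D.r6
    calc _ ≤ ENNReal.ofReal (Φ D.N D.J D.A) *
          ENNReal.ofReal ((gB D.H D.mt).card *
            (6 * (9 / D.θ * (2 / 2 ^ D.n) ^ 2 * (1 / 2 ^ D.m')))) := by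
          gcongr
          exact h1
      _ = ENNReal.ofReal (Φ D.N D.J D.A * ((gB D.H D.mt).card *
            (6 * (9 / D.θ * (2 / 2 ^ D.n) ^ 2 * (1 / 2 ^ D.m'))))) := by
          rw [← ENNReal.ofReal_mul h]
      _ ≤ _ := ENNReal.ofReal_le_ofReal D.b4

end PD

end Vale.Agent.P073.H333
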