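import Vale.Agent.P073.H333.PDspec
import Vale.Agent.P073.H333.Nums

/-!
# P073, block A15-PRE: [PD6] first stage, the good cells and the numbers
-/

namespace Vale.Agent.P073.H333

open MeasureTheory Set Filter Topology Metric Vale.Agent.P073.St Vale.Agent.P073.AB
open Vale.Agent.P073.SQ (ev)
open _root_.P073 (ConHomeo)
open _root_.P073.Net (dyc dyo IsTile SizeFn len)
open Vale.Agent.P073.H73 (MinEdge Bix ctr WLe segP onSeg)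
open Vale.Agent.P073.H194 (refine Big wH zo so co MeshOut bInt Oc cellT Bk GoodC idx)
open Vale.Agent.P073.H471 (wgt)
open Vale.Agent.P073.H83 (CellsG gB grho GenB)
open scoped ENNReal

/-- the closeness -/
noncomputable def kap (Cf : ℝ → ℝ → ℝ) (κf : ℝ → ℝ → ℕ → ℝ) (θ M : ℝ) (k₁ : ℕ) : ℝ :=
  min (κf θ M k₁) (min (θ / 2) (Cf θ M))

/-- good cells and numbers -/
structure PDa (p ε δ : ℝ) (CC : ℝ≥0∞) (Cf : ℝ → ℝ → ℝ) (Kf : ℝ → ℝ → ℕ → ℕ)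
    (κf : ℝ → ℝ → ℕ → ℝ) (Ω Λ : Set V) (f : V → V) (F : V → Mat) where
  θ : ℝ
  M : ℝ
  a₁ : ℝ
  β : ℝ
  ks : ℕ
  kt : ℕ
  k₁ : ℕ
  n : ℕ
  v : V
  G : V → ℝ≥0∞
  nn : ℕ → ℕ
  J : Finset (Fin 3 → ℤ)
  A : (Fin 3 → ℤ) → V → V
  L : (Fin 3 → ℤ) → V →L[ℝ] V
  N : ℕ
  εc : ℝ≥0∞
  εe : ℝ≥0∞
  K : Set V
  M0 : 0 < M
  a0 : 0 < a₁
  a1 : a₁ ≤ 1 / 2
  β0 : 0 < β
  kt2 : 2 ≤ kt
  m2 : 2 ≤ n + ks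
  T1 : H83.tauC θ M * (a₁ / θ) ≤ 1 / 2
  T2 : H83.tauC θ M * (1 / 2 ^ k₁) ≤ 1 / 2 / 2 ^ ks
  η1 : Cf θ M / 2 ^ k₁ ≤ a₁ / 2 ^ ks / 2
  η2 : 2 * (Cf θ M / 2 ^ k₁) + M * (1 / 2 ^ k₁) ≤ δ * (a₁ / 2 ^ ks / 2)
  η3 : Cf θ M / 2 ^ (n + k₁) + kap Cf κf θ M k₁ / 2 ^ (n + k₁) ≤ ε
  η4 : 1 / 2 ^ (n + ks) ≤ ε
  nm : StrictMono nn
  Gm : Measurable G
  Gfin : ∫⁻ x, G x ≠ ⊤
  gen : Generic p Ω f F G nn v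
  pl : ∀ᵐ c : V, ∀ x ∈ Ω, f x = c → ∀ m, x ∈ dyo v m (idx v m x)
  rp : ∀ᵐ x, (Ω.indicator fun x => ‖cl (F x)‖ₑ ^ p) x = G x
  H : CellsG θ M (kap Cf κf θ M k₁ / 2 ^ (n + k₁ + Kf θ M k₁)) (n + ks) n k₁ Ω Λ f v J A L
  aff : ∀ z x y, A z y - A z x = L z (y - x)
  fine : H669.Fine Ω v n k₁ (Kf θ M k₁) J
  cell : ∀ z ∈ J, GoodCell θ M (kap Cf κf θ M k₁) k₁ (Kf θ M k₁) v
    (tiles Ω (n + k₁ + Kf θ M k₁) v) f F (n, z) (A z) (L z)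
  dyL : ∀ z ∈ J, ∀ i j, ∃ a : ℤ, L z (ev j) i = a / 2 ^ N
  dyA : ∀ z ∈ J, ∀ i, ∃ a : ℤ, A z v i = a / 2 ^ N
  es1 : ∑ z ∈ J, ∫⁻ y in dyc v n z, ‖cl (F y) - L z‖ₑ ^ p ≤ εc
  es2 : ∫⁻ y in Ω \ ⋃ z ∈ J, dyc v n z, ‖cl (F y)‖ₑ ^ p ≤ εc
  own : ∀ z ∈ J, ∀ e : Idx × Fin 3, e.1.1 = n + k₁ + Kf θ M k₁ → edge v e ⊆ dyc v n z →
    eInt v e G ≤ ENNReal.ofReal ((M ^ p + 1) / 2 ^ (n + k₁ + Kf θ M k₁))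
  surf : ∑ z ∈ J, ENNReal.ofReal (1 / 2 ^ n) * bInt v (n, z) G ≤ 6 * (∫⁻ x, G x) + 1
  Ksub : K ⊆ Ω
  Kc : IsCompact K
  Kvol : volume (Ω \ K) ≤ ENNReal.ofReal ε
  osc : ∀ x ∈ K, ∀ y, ‖y - x‖ ≤ 1 / 2 ^ n → ‖f y - f x‖ ≤ ε
  c1 : 3 * εc ≤ ENNReal.ofReal ε
  c2 : 3 * (εc + 2 ^ (p - 1) * εc) ≤ ENNReal.ofReal (ε / 2)
  c3 : 2 ^ (p - 1) * (4356 ^ p * (36 * (CC * εc))) ≤ ENNReal.ofReal (ε / 8)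
  e0 : εe ≠ 0
  c4 : 3 * (2 ^ (p - 1) * (ENNReal.ofReal M ^ p *
    (ENNReal.ofReal (12 / 2 ^ k₁ + 24 / (θ * 2 ^ ks) + 6 / 2 ^ kt) * volume Ω))) ≤
    ENNReal.ofReal (ε / 2)
  c5 : 2 ^ (p - 1) * (4356 ^ p * (36 * (CC * (ENNReal.ofReal M ^ p *
    (ENNReal.ofReal (12 / 2 ^ k₁ + 24 / (θ * 2 ^ ks) + 6 / 2 ^ kt) * volume Ω))))) ≤
    ENNReal.ofReal (ε / 8)
  c6 : 2 ^ (p - 1) * (4356 ^ p * εe) ≤ ENNReal.ofReal (ε / 8)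
  c7 : 2 ^ (p - 1) * (24 * ENNReal.ofReal β ^ p * volume Ω) ≤ ENNReal.ofReal (ε / 8)
  c8 : 2 ^ (p - 1) * (4356 ^ p * (36 * (ENNReal.ofReal (1 + 4 * (2 / a₁)) ^ p *
    (ENNReal.ofReal (1 / 2 ^ k₁) * (6 * (∫⁻ x, G x) + 1) +
      ENNReal.ofReal M ^ p * (6 * ENNReal.ofReal (12 / 2 ^ k₁) * volume Ω))))) ≤
    ENNReal.ofReal (ε / 8)
  c9 : 24 * (ENNReal.ofReal (2 * (2178 * (1 + 4 * (2 / a₁)))) ^ p * (2 ^ (p - 1) *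
    (ENNReal.ofReal (M ^ p + 1) + ENNReal.ofReal (M + Cf θ M + 1) ^ p))) *
    (ENNReal.ofReal (12 / 2 ^ k₁) * volume Ω) ≤ ENNReal.ofReal (ε / 8)

/-- the good cells, seen from the target -/
theorem cellsG_of {p : ℝ} {ε' : ℝ≥0∞} {θ M κ c₀ : ℝ} {k₁ k₀ m₁ : ℕ} {Ω Λ : Set V} {f : V → V}
    {F : V → Mat} {K : Set V} {Q : V → Prop} {v : V} {n : ℕ} (hΩ : St.IsBoundedDomain Ω)
    (hΛ : St.IsBoundedDomain Λ) (hf : St.IsHomeo Ω Λ f) (hθ : 0 < θ) (hκ : κ ≤ θ / 2)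
    (hk : 3 ≤ k₁) (D : Cells3 p ε' θ M κ c₀ k₁ k₀ Ω Λ f F K Q v n) (hm : 4 / 2 ^ m₁ ≤ c₀) :
    CellsG θ M (κ / 2 ^ (n + k₁ + k₀)) m₁ n k₁ Ω Λ f v D.J D.A D.L where
  oΩ := hΩ.1
  oΛ := hΛ.1
  bΛ := PK.isBounded_of_domain hΛ
  hom := hf
  θ0 := hθ
  aff z _ := D.aff z
  below z hz := (D.cell z hz).below
  above z hz := (D.cell z hz).above
  sub z hz y hy := by
    have h1 := dyc_near (D.mem z hz) hy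
    have h2 : (1:ℝ) / 2 ^ n ≤ 4 / 2 ^ n := by gcongr; norm_num
    exact (D.near z hz y (h1.trans h2)).1
  close z hz := (D.cell z hz).close
  small := by
    have h1 : (2:ℝ) ^ (n + k₁) ≤ 2 ^ (n + k₁ + k₀) :=
      pow_le_pow_right₀ (by norm_num) (by omega)
    have h2 : κ / 2 ^ (n + k₁ + k₀) ≤ θ / 2 / 2 ^ (n + k₁ + k₀) := by gcongr
    have h3 : θ / 2 / 2 ^ (n + k₁ + k₀) ≤ θ / 2 / 2 ^ (n + k₁) := by gcongr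
    have h4 : (0:ℝ) < θ * (1 / 2 ^ (n + k₁)) := by positivity
    have h5 : θ / 2 / 2 ^ (n + k₁) = θ * (1 / 2 ^ (n + k₁)) / 2 := by ring
    linarith
  core z hz y hy := by
    have h1 := dyc_near (D.mem z hz) hy
    have h2 : (1:ℝ) / 2 ^ n ≤ 4 / 2 ^ n := by gcongr; norm_num
    exact hm.trans (D.near z hz y (h1.trans h2)).2.2.2.1
  three_le := hk

theorem fine_of {p : ℝ} {ε' : ℝ≥0∞} {θ M κ c₀ : ℝ} {k₁ k₀ : ℕ} {Ω Λ : Set V} {f : V → V}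
    {F : V → Mat} {K : Set V} {Q : V → Prop} {v : V} {n : ℕ} (hΩ : St.IsBoundedDomain Ω)
    (hk : 2 ≤ k₁) (D : Cells3 p ε' θ M κ c₀ k₁ k₀ Ω Λ f F K Q v n) :
    H669.Fine Ω v n k₁ k₀ D.J :=
  H669.Fine.of hΩ.1 (PK.isBounded_of_domain hΩ) hΩ.2.1.nonempty hk fun z hz w hw =>
    (D.cell z hz).fine w hw

end Vale.Agent.P073.H333
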