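import Vale.Agent.P073.H333.PDa

/-!
# P073, block A15-PRE: [PD6] first stage, existence
-/

namespace Vale.Agent.P073.H333

open MeasureTheory Set Filter Topology Metric Vale.Agent.P073.St Vale.Agent.P073.AB
open Vale.Agent.P073.SQ (ev)
open _root_.P073 (ConHomeo)
open _root_.P073.Net (dyc dyo IsTile SizeFn len)
open Vale.Agent.P073.H73 (MinEdge Bix ctr WLe segP onSeg)
open Vale.Agent.P073.H194 (refine Big wH zo so co MeshOut bInt Oc cellT Bk GoodC idx)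
open Vale.Agent.P073.H471 (wgt)
open Vale.Agent.P073.H83 (CellsG gB grho GenB)
open scoped ENNReal

theorem tauC_pos {θ M : ℝ} (hθ : 0 < θ) (hM : 0 < M) : 0 < H83.tauC θ M := by
  unfold H83.tauC
  positivity

theorem kap_pos {Cf : ℝ → ℝ → ℝ} {κf : ℝ → ℝ → ℕ → ℝ} (hCf : ∀ θ M, 0 < Cf θ M)
    (hκf : ∀ θ M k₁, 0 < κf θ M k₁) {θ M : ℝ} (hθ : 0 < θ) (k₁ : ℕ) : 0 < kap Cf κf θ M k₁ :=
  lt_min (hκf _ _ _) (lt_min (by positivity) (hCf _ _))

theorem ev_comp_add {P : ℕ → Prop} (h : ∀ᶠ k in atTop, P k) {nn : ℕ → ℕ} (hnn : StrictMono nn)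
    (j : ℕ) : ∀ᶠ l in atTop, P (nn l + j) :=
  ((tendsto_add_atTop_nat j).comp hnn.tendsto_atTop).eventually h

theorem exists_pda {p : ℝ} (hp : 2 < p) {ε δ : ℝ} (hε : 0 < ε) (hδ : 0 < δ) {CC : ℝ≥0∞}
    (hCC : CC ≠ ⊤) {Cf : ℝ → ℝ → ℝ} (Kf : ℝ → ℝ → ℕ → ℕ) {κf : ℝ → ℝ → ℕ → ℝ}
    (hCf : ∀ θ M, 0 < Cf θ M) (hκf : ∀ θ M k₁, 0 < κf θ M k₁) {Ω Λ : Set V}
    (hΩ : St.IsBoundedDomain Ω) (hΛ : St.IsBoundedDomain Λ) {f : V → V} {F : V → Mat}
    (hf : St.IsHomeo Ω Λ f) (hF : St.IsSobolev p Ω f F) (hFD : FinDist Ω F) :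
    Nonempty (PDa p ε δ CC Cf Kf κf Ω Λ f F) := by
  have hp1 : 1 ≤ p := by linarith
  have hvol := PK.volume_ne_top_of_domain hΩ
  obtain ⟨G, Gm, Gfin, Grep, nn, hnn, v, hpl, hgen⟩ :=
    exists_generic' hp1 hΩ hf hF (H194.ae_planes' hΛ.1 hf)
  obtain ⟨εc, h0, ht, c1, c2, c3, c0'⟩ := exists_epsc (p := p) (by linarith) hε hCC
  obtain ⟨θ, hθ, M, hM, c₀, hc₀, K, hK, hKc, hKv, H⟩ := exists_cells3 hp hΩ hΛ hf hF hFD h0
  obtain ⟨ks, kt, a₁, k₁, β, εe, ha0, ha1, hT1, hkt, hk1, hβ, hεe, hT2, hη1, hη2, c4, c5, c6, c7,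
    c8, c9⟩ := exists_nums (p := p) (ε := ε) (δ := δ) (θ := θ) (M := M) (C := Cf θ M)
    (T := H83.tauC θ M) (by linarith) hε hδ hθ (tauC_pos hθ hM) hvol Gfin hCC
  set κ := kap Cf κf θ M k₁ with hκdef
  have hκ : 0 < κ := kap_pos hCf hκf hθ k₁
  have hκθ : κ ≤ θ / 2 := (min_le_right _ _).trans (min_le_left _ _)
  set k₀ := Kf θ M k₁ with hk₀
  have HQ : ∀ᵐ x ∂(volume : Measure V), x ∈ Ω → NonSing (F x) → ∀ᶠ l in atTop,
      ∀ e : Idx × Fin 3, e.1.1 = nn l + (k₁ + k₀) →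
        edge v e ⊆ dyc v (nn l) (idx v (nn l) x) →
        eInt v e G ≤ ENNReal.ofReal ((‖cl (F x)‖ ^ p + 1) / 2 ^ (nn l + (k₁ + k₀))) := by
    filter_upwards [hgen.own hp1 hΩ.1 hnn (k₁ + k₀)] with x hx h _
    exact hx h
  have E1 := H κ k₁ k₀ v nn _ hκ (by omega) hnn hgen.eleb HQ
  have E2 := H687.surf_le hgen.genB (PK.isBounded_of_domain hΩ) (δ := 1) one_ne_zero
  have E3 := eventually_osc hΩ.1 hf hK hKc hnn 1 hε
  have E4 := ev_comp_add (ev_div_le 4 hc₀) hnn ks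
  have E5 := ev_comp_add (ev_div_le (Cf θ M + κ) hε) hnn k₁
  have E6 := ev_comp_add (ev_div_le 1 hε) hnn ks
  have E7 := ev_comp_add (eventually_ge_atTop 2) hnn ks
  obtain ⟨l, ⟨D⟩, e2, e3, e4, e5, e6, e7⟩ := (E1.and (E2.and (E3.and (E4.and (E5.and
    (E6.and E7)))))).exists
  obtain ⟨N, hN⟩ := D.dyad
  have hfine := fine_of hΩ (by omega) D
  exact ⟨{
    θ := θ, M := M, a₁ := a₁, β := β, ks := ks, kt := kt, k₁ := k₁, n := nn l, v := v, G := G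
    nn := nn, J := D.J, A := D.A, L := D.L, N := N, εc := εc, εe := εe, K := K
    M0 := hM, a0 := ha0, a1 := ha1, β0 := hβ, kt2 := hkt, m2 := e7
    T1 := hT1, T2 := hT2, η1 := hη1, η2 := hη2
    η3 := by rw [← add_div]; exact e5
    η4 := e6
    nm := hnn, Gm := Gm, Gfin := Gfin, gen := hgen, pl := hpl, rp := Grep
    H := cellsG_of hΩ hΛ hf hθ hκθ hk1 D e4
    aff := D.aff
    fine := hfine
    cell := D.cell
    dyL := fun z hz => (hN z hz).1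
    dyA := fun z hz => (hN z hz).2
    es1 := D.s1
    es2 := D.s2
    own := by
      intro z hz e he hs
      have h1 := D.pred z hz e (by rw [he, add_assoc])
      rw [D.idx z hz] at h1
      refine (h1 hs).trans (ENNReal.ofReal_le_ofReal ?_)
      have h2 := D.Fx z hz
      have h3 : (‖cl (F (D.x z))‖ ^ p + 1) ≤ M ^ p + 1 := by gcongr
      have h4 : (2:ℝ) ^ (nn l + k₁ + Kf θ M k₁) = 2 ^ (nn l + (k₁ + k₀)) := by
        rw [hk₀, add_assoc]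
      rw [h4]
      exact div_le_div_of_nonneg_right h3 (by positivity)
    surf := e2 D.J fun z hz => by
      refine ⟨D.x z, D.mem z hz, ?_⟩
      exact hK (D.memK z hz)
    Ksub := hK
    Kc := hKc
    Kvol := hKv.trans c0'
    osc := fun x hx y hy => (e3 x hx y hy).2
    c1 := c1, c2 := c2, c3 := c3, e0 := hεe, c4 := c4, c5 := c5, c6 := c6, c7 := c7, c8 := c8
    c9 := c9 }⟩

end Vale.Agent.P073.H333
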