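import Vale.Agent.P073.H333.PDc

/-!
# P073, block A15-PRE: [PD6] second stage: the mesh, the homeomorphism, the data `PD`
-/

namespace Vale.Agent.P073.H333

open MeasureTheory Set Filter Topology Metric Vale.Agent.P073.St Vale.Agent.P073.AB
open Vale.Agent.P073.SQ (ev)
open _root_.P073 (ConHomeo)
open _root_.P073.Net (dyc dyo IsTile SizeFn len)
open Vale.Agent.P073.H73 (MinEdge Bix ctr WLe segP onSeg)
open Vale.Agent.P073.H194 (refine Big wH zo so co MeshOut bInt Oc cellT Bk GoodC idx)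
open Vale.Agent.P073.H471 (wgt)
open Vale.Agent.P073.H83 (CellsG gB grho GenB)
open scoped ENNReal

theorem GoodCell.mono {θ M κ κ' : ℝ} (h : κ ≤ κ') {k₁ k₀ : ℕ} {v : V} {I : Set Idx} {f : V → V}
    {F : V → Mat} {q : Idx} {A : V → V} {L : V →L[ℝ] V}
    (D : GoodCell θ M κ k₁ k₀ v I f F q A L) : GoodCell θ M κ' k₁ k₀ v I f F q A L where
  aff := D.aff
  below := D.below
  above := D.above
  fine := D.fine
  close x hx := (D.close x hx).trans (by gcongr)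
  own e he hs := (D.own e he hs).trans (ENNReal.ofReal_le_ofReal (by gcongr))

/-- the properties of the constants in `NetIn2` -/
def NetW (Cf : ℝ → ℝ → ℝ) (Kf : ℝ → ℝ → ℕ → ℕ) (κf : ℝ → ℝ → ℕ → ℝ) : Prop :=
  ∀ (Ω Λ : Set V) (f : V → V) (F : V → Mat) (v : V) (I₀ I J : Set Idx) (θ M : Idx → ℝ)
      (k₁ : Idx → ℕ) (A : Idx → V → V) (L : Idx → V →L[ℝ] V) (σ : V → ℝ) (δ : Idx × Fin 3 → ℝ),
      St.IsBoundedDomain Ω → St.IsBoundedDomain Λ → St.IsHomeo Ω Λ f → Part Ω v I₀ → Part Ω v I →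
      RatGood v Ω f F →
      (∀ e : Idx × Fin 3, (∃ q ∈ I, EdgeOf e q) →
        eInt v e (fun x => ENNReal.ofReal ‖cl (F x) (ev e.2)‖) ≠ ⊤) →
      (∀ q ∈ J, 0 < θ q ∧ 0 < M q ∧ 3 ≤ k₁ q) →
      (∀ q ∈ J, ∀ q' ∈ J, q ≠ q' → Disjoint (dyo v q.1 q.2) (dyo v q'.1 q'.2)) →
      (∀ q ∈ J, GoodCell (θ q) (M q) (κf (θ q) (M q) (k₁ q)) (k₁ q) (Kf (θ q) (M q) (k₁ q)) v I₀ f
        F q (A q) (L q)) →
      (∀ q ∈ J, ∀ r ∈ I₀, dyc v r.1 r.2 ⊆ dyc v q.1 q.2 → r ∈ I) →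
      ContinuousOn σ Ω → (∀ x ∈ Ω, 0 < σ x) → (∀ e, 0 < δ e) →
      ∃ h : ConHomeo Ω Λ, NetRes v I J (fun q => Cf (θ q) (M q)) k₁
        (fun q => Kf (θ q) (M q) (k₁ q)) A f F Ω σ δ h.toFun

theorem netW_of (h : NetIn2) : ∃ (C : ℝ → ℝ → ℝ) (K₀ : ℝ → ℝ → ℕ → ℕ) (κ : ℝ → ℝ → ℕ → ℝ),
    (∀ θ M, 0 < C θ M) ∧ (∀ θ M k₁, 0 < κ θ M k₁) ∧ NetW C K₀ κ := h

namespace PDa

variable {p ε δ : ℝ} {CC : ℝ≥0∞} {Cf : ℝ → ℝ → ℝ} {Kf : ℝ → ℝ → ℕ → ℕ}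
  {κf : ℝ → ℝ → ℕ → ℝ} {Ω Λ : Set V} {f : V → V} {F : V → Mat}

/-- the output of the mesh -/
structure MeshPD (D : PDa p ε δ CC Cf Kf κf Ω Λ f F) (m' : ℕ) (c : ℕ → (Fin 3 → ℤ) → V) where
  nr : ℕ
  Bg : Set Idx
  nf : Idx → ℕ
  τ : Idx → ℝ
  e : Idx → ℝ≥0∞
  τ0 : ∀ q, 0 < τ q
  mnr : m' ≤ nr
  r1 : D.M * (8 / 2 ^ nr) ≤ 3 / 2 ^ (D.n + D.ks)
  r2 : D.M * (4 / 2 ^ nr) ≤ 1 / 8 / 2 ^ m'
  r3 : D.M * (2 / 2 ^ nr) ≤ δ * (1 / 8 / 2 ^ m')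
  r4 : D.M * (16 / 2 ^ nr) < 2 / 2 ^ (D.n + D.ks + D.kt)
  r5 : (16 : ℝ) / 2 ^ nr < 4 / 2 ^ (D.n + D.k₁)
  r6 : (4 : ℝ) / 2 ^ nr ≤ 1 / 2 / 2 ^ D.n
  mesh : MeshOut p δ Ω Λ f D.G D.v D.n D.k₁ D.J D.A D.L (D.pd0 m' c).Ib (D.pd0 m' c).P
    (D.pd0 m' c).Bx (zo (D.pd0 m' c).ρ (D.pd0 m' c).Bx) (so (D.pd0 m' c).ρ (D.pd0 m' c).Bx)
    (co (D.pd0 m' c).ρ (D.pd0 m' c).Bx c) e τ Bg nf nr
  esum : ∑' q : (D.pd0 m' c).Ib, e q ≤ D.εe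

theorem exists_mesh (D : PDa p ε δ CC Cf Kf κf Ω Λ f F) (hp : 2 < p) (hδ : 0 < δ)
    (hΛ : St.IsBoundedDomain Λ) (hf : St.IsHomeo Ω Λ f) {m' : ℕ}
    (hm' : D.n + D.ks + D.kt ≤ m') {c : ℕ → (Fin 3 → ℤ) → V} (hmid : Mid (D.pd0 m' c).ρ c)
    (hgood : ∀ m zz, IsTile (D.pd0 m' c).ρ 0 m zz → GoodC p Ω f D.G D.v D.nn D.J D.A (c m zz)) :
    Nonempty (MeshPD D m' c) := by
  have hM := D.M0
  obtain ⟨e, he0, hes⟩ := ENNReal.exists_pos_sum_of_countable' D.e0 Idx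
  have hin := H194.meshIn_of (p := p) (k₀ := Kf D.θ D.M D.k₁) (mt := D.n + D.ks + D.kt)
    (m' := m') hΛ.1 hf D.nm D.Gm D.Gfin D.gen.gen (fun k => (D.gen.ball k).1) D.H D.fine D.aff
    (by omega) hm' hmid hgood
  have hsz : SizeFn Λ (D.pd0 m' c).ρ := H83.sizeFn_grho _ _ _ _ _ _ _ _ _ hΛ.1 D.H.bΛ
  obtain ⟨Bg, τ, hτ, hmesh⟩ := H194.mesh_pre hin (by linarith)
    (H194.cubes_OT hsz (D.pd0 m' c).Bx) (H194.co_near hmid) hδ (e := e) fun q => (he0 q).ne'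
  have k1 := ev_div_le (D.M * 8) (b := 3 / 2 ^ (D.n + D.ks)) (by positivity)
  have k2 := ev_div_le (D.M * 4) (b := 1 / 8 / 2 ^ m') (by positivity)
  have k3 := ev_div_le (D.M * 2) (b := δ * (1 / 8 / 2 ^ m')) (by positivity)
  have k4 := ev_div_le (D.M * 16) (b := 1 / 2 ^ (D.n + D.ks + D.kt)) (by positivity)
  have k5 := ev_div_le 16 (b := 3 / 2 ^ (D.n + D.k₁)) (by positivity)
  have k6 := ev_div_le 4 (b := 1 / 2 / 2 ^ D.n) (by positivity)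
  obtain ⟨N₁, hN₁⟩ := eventually_atTop.1 (k1.and (k2.and (k3.and (k4.and (k5.and
    (k6.and (eventually_ge_atTop m')))))))
  obtain ⟨nf, nr, hnr, -, hout⟩ := hmesh (fun _ => 0) N₁
  obtain ⟨s1, s2, s3, s4, s5, s6, s7⟩ := hN₁ nr hnr
  refine ⟨⟨nr, Bg, nf, τ, e, hτ, s7, ?_, ?_, ?_, ?_, ?_, s6, hout, ?_⟩⟩
  · rw [← mul_div_assoc]; exact s1
  · rw [← mul_div_assoc]; exact s2
  · rw [← mul_div_assoc]; exact s3
  · rw [← mul_div_assoc]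
    refine s4.trans_lt ?_
    gcongr
    norm_num
  · refine s5.trans_lt ?_
    gcongr
    norm_num
  · refine le_trans ?_ hes.le
    exact ENNReal.tsum_comp_le_tsum_of_injective Subtype.val_injective e

/-- the output of the net -/
structure NetPD (D : PDa p ε δ CC Cf Kf κf Ω Λ f F) (m' : ℕ) (c : ℕ → (Fin 3 → ℤ) → V)
    (Bg : Set Idx) (nf : Idx → ℕ) (τ : Idx → ℝ) where
  h : ConHomeo Ω Λ
  σ : V → ℝ
  δe : Idx × Fin 3 → ℝ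
  σε : ∀ x ∈ Ω, σ x ≤ ε
  στ : ∀ q ∈ (D.pd0 m' c).Ib \ (D.pd0 m' c).P, ∀ x ∈ dyc D.v q.1 q.2, σ x ≤ τ q
  δ0 : ∀ e, 0 < δe e
  δ1 : ∀ e, δe e ≤ 1 / 2 ^ e.1.1
  δ2 : ∀ e, (D.pd0 m' c).wst e * (2 * δe e) ≤ D.β / 2 ^ e.1.1
  net : NetRes D.v ((D.pd0 m' c).In Bg nf) (D.pd0 m' c).Jc (fun _ => Cf D.θ D.M) (fun _ => D.k₁)
    (fun _ => Kf D.θ D.M D.k₁) (fun q => D.A q.2) f F Ω σ δe h.toFun

theorem exists_net (D : PDa p ε δ CC Cf Kf κf Ω Λ f F) (hN : NetW Cf Kf κf) (hp : 2 < p)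
    (hε : 0 < ε) (hΩ : St.IsBoundedDomain Ω) (hΛ : St.IsBoundedDomain Λ) (hf : St.IsHomeo Ω Λ f)
    {m' : ℕ} {c : ℕ → (Fin 3 → ℤ) → V} (R : MeshPD D m' c) :
    Nonempty (NetPD D m' c R.Bg R.nf R.τ) := by
  have hβ := D.β0
  have href : H669.Ref Ω D.v D.n D.k₁ (Kf D.θ D.M D.k₁) D.J R.Bg R.nf :=
    { fine := D.fine
      big := R.mesh.big
      lt := fun b hb q hq h => R.mesh.lt b hb q (by
        have := D.fine.diff_eq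
        show q ∈ base Ω D.v D.n D.k₁ (Kf D.θ D.M D.k₁) D.J \
          (lay D.v D.n D.k₁ (Kf D.θ D.M D.k₁) D.J ∪ gap D.v D.n D.k₁ D.J)
        rw [this]; exact hq) (h.trans P86.dyo_sub_dyc) }
  have hpartb : Part Ω D.v (D.pd0 m' c).Ib := D.fine.part_base
  obtain ⟨σ, hσc, hσ0, hσε, hστ⟩ := exists_gauge hΩ.1
    (J := (D.pd0 m' c).Ib \ (D.pd0 m' c).P)
    (fun K hK hKc => (hpartb.fin K hK hKc).subset fun q hq => ⟨hq.1.1, hq.2⟩)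
    (σ := fun _ => ε) continuousOn_const (fun _ _ => hε) (a := R.τ) fun q _ => R.τ0 q
  set w : Idx × Fin 3 → ℝ := fun e => (D.pd0 m' c).wst e with hw
  have hw0 : ∀ e, 0 ≤ w e := fun e => ENNReal.toReal_nonneg
  set δe : Idx × Fin 3 → ℝ := fun e =>
    min (1 / 2 ^ e.1.1) (D.β / 2 ^ e.1.1 / (2 * (w e + 1))) with hδe
  have hδ0 : ∀ e, 0 < δe e := fun e => by
    have := hw0 e
    exact lt_min (by positivity) (by positivity)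
  obtain ⟨h, hnet⟩ := hN Ω Λ f F D.v (tiles Ω (D.n + D.k₁ + Kf D.θ D.M D.k₁) D.v)
    ((D.pd0 m' c).In R.Bg R.nf) (D.pd0 m' c).Jc (fun _ => D.θ) (fun _ => D.M) (fun _ => D.k₁)
    (fun q => D.A q.2) (fun q => D.L q.2) σ δe hΩ hΛ hf D.fine.part (href.part_inet hΩ.1)
    D.gen.rat
    (by
      rintro e ⟨q, hq, he⟩
      exact efin_of (by linarith) D.gen ((Gr.edge_subset_dyc he).trans
        ((href.part_inet hΩ.1).sub q hq)))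
    (fun _ _ => ⟨D.H.θ0, D.M0, D.H.three_le⟩)
    (by
      rintro ⟨a, z⟩ ⟨ha, hz⟩ ⟨a', z'⟩ ⟨ha', hz'⟩ hne
      have ha : a = D.n := ha
      have ha' : a' = D.n := ha'
      subst ha ha'
      have hzz : z' ≠ z := fun h => hne (by rw [h])
      exact (H669.dyo_dyc_disj hzz.symm).symm.mono_right P86.dyo_sub_dyc |>.symm)
    (by
      rintro ⟨a, z⟩ ⟨ha, hz⟩
      have ha : a = D.n := ha
      subst ha
      exact (D.cell z hz).mono (min_le_left _ _))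
    (by
      rintro ⟨a, z⟩ ⟨ha, hz⟩ r hr hs
      have ha : a = D.n := ha
      subst ha
      exact Or.inl ⟨hr, z, hz, hs⟩)
    hσc hσ0 hδ0
  refine ⟨⟨h, σ, δe, hσε, ?_, hδ0, fun e => min_le_left _ _, fun e => ?_, hnet⟩⟩
  · intro q hq x hx
    exact hστ q hq x (hpartb.sub q hq.1 hx) hx
  · have h1 := hw0 e
    have h2 : δe e ≤ D.β / 2 ^ e.1.1 / (2 * (w e + 1)) := min_le_right _ _
    calc w e * (2 * δe e) ≤ w e * (2 * (D.β / 2 ^ e.1.1 / (2 * (w e + 1)))) := by gcongr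
      _ = w e / (w e + 1) * (D.β / 2 ^ e.1.1) := by field_simp
      _ ≤ 1 * (D.β / 2 ^ e.1.1) := by
          gcongr
          rw [div_le_one (by positivity)]
          linarith
      _ = _ := one_mul _

end PDa

end Vale.Agent.P073.H333
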