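import Vale.Agent.P073.H333.PDd

/-!
# P073, block A15-PRE: [PD6] the data `PD` exist
-/

namespace Vale.Agent.P073.H333

open MeasureTheory Set Filter Topology Metric Vale.Agent.P073.St Vale.Agent.P073.AB
open Vale.Agent.P073.SQ (ev)
open _root_.P073 (ConHomeo)
open _root_.P073.Net (dyc dyo IsTile SizeFn len)
open Vale.Agent.P073.H73 (MinEdge Bix ctr WLe segP onSeg)
open Vale.Agent.P073.H194 (refine Big wH zo so co MeshOut bInt Oc cellT Bk GoodC idx)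
open Vale.Agent.P073.H471 (wgt)
open Vale.Agent.P073.H83 (CellsG gB grho GenB)
open scoped ENNReal

namespace PDa

variable {p ε δ : ℝ} {CC : ℝ≥0∞} {Cf : ℝ → ℝ → ℝ} {Kf : ℝ → ℝ → ℕ → ℕ}
  {κf : ℝ → ℝ → ℕ → ℝ} {Ω Λ : Set V} {f : V → V} {F : V → Mat}

theorem bud2 (D : PDa p ε δ CC Cf Kf κf Ω Λ f F) (hε : 0 < ε) :
    3 * (D.εc + 2 ^ (p - 1) * (D.εc + ENNReal.ofReal D.M ^ p * D.ef)) ≤ ENNReal.ofReal ε := by
  have h1 := D.c2
  have h2 := D.c4
  calc 3 * (D.εc + 2 ^ (p - 1) * (D.εc + ENNReal.ofReal D.M ^ p * D.ef))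
      = 3 * (D.εc + 2 ^ (p - 1) * D.εc) +
        3 * (2 ^ (p - 1) * (ENNReal.ofReal D.M ^ p * D.ef)) := by ring
    _ ≤ ENNReal.ofReal (ε / 2) + ENNReal.ofReal (ε / 2) := add_le_add h1 h2
    _ = ENNReal.ofReal ε := by
        rw [← ENNReal.ofReal_add (by positivity) (by positivity)]
        congr 1; ring

theorem bud3 (D : PDa p ε δ CC Cf Kf κf Ω Λ f F) :
    2 ^ (p - 1) * (4356 ^ p * (36 * (CC * (D.εc + ENNReal.ofReal D.M ^ p * D.ef)) + D.εe) +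
        24 * ENNReal.ofReal D.β ^ p * volume Ω) +
    (2 ^ (p - 1) * (4356 ^ p * (36 * (ENNReal.ofReal (1 + 4 * (2 / D.a₁)) ^ p *
        (ENNReal.ofReal (1 / 2 ^ D.k₁) * (6 * (∫⁻ x, D.G x) + 1) +
          ENNReal.ofReal D.M ^ p * (6 * ENNReal.ofReal (12 / 2 ^ D.k₁) * volume Ω))) + D.εe) +
        24 * ENNReal.ofReal D.β ^ p * volume Ω) +
      24 * (ENNReal.ofReal (2 * (2178 * (1 + 4 * (2 / D.a₁)))) ^ p * (2 ^ (p - 1) *
        (ENNReal.ofReal (D.M ^ p + 1) + ENNReal.ofReal (D.M + Cf D.θ D.M + 1) ^ p))) *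
        (ENNReal.ofReal (12 / 2 ^ D.k₁) * volume Ω)) ≤ ENNReal.ofReal ε := by
  have h3 := D.c3
  have h5 : 2 ^ (p - 1) * (4356 ^ p * (36 * (CC * (ENNReal.ofReal D.M ^ p * D.ef)))) ≤
    ENNReal.ofReal (ε / 8) := D.c5
  have h6 := D.c6
  have h7 := D.c7
  have h8 := D.c8
  have h9 := D.c9
  have e8 : ENNReal.ofReal ε = 8 * ENNReal.ofReal (ε / 8) := by
    rw [show (8:ℝ≥0∞) = ENNReal.ofReal 8 by simp, ← ENNReal.ofReal_mul (by norm_num)]
    congr 1; ring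
  rw [e8]
  generalize ENNReal.ofReal (ε / 8) = x at *
  generalize (24 * (ENNReal.ofReal (2 * (2178 * (1 + 4 * (2 / D.a₁)))) ^ p * (2 ^ (p - 1) *
        (ENNReal.ofReal (D.M ^ p + 1) + ENNReal.ofReal (D.M + Cf D.θ D.M + 1) ^ p))) *
        (ENNReal.ofReal (12 / 2 ^ D.k₁) * volume Ω)) = T9 at *
  generalize (ENNReal.ofReal (1 + 4 * (2 / D.a₁)) ^ p *
        (ENNReal.ofReal (1 / 2 ^ D.k₁) * (6 * (∫⁻ x, D.G x) + 1) +
          ENNReal.ofReal D.M ^ p * (6 * ENNReal.ofReal (12 / 2 ^ D.k₁) * volume Ω))) = T8 at *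
  generalize ENNReal.ofReal D.M ^ p * D.ef = T5 at *
  generalize 24 * ENNReal.ofReal D.β ^ p * volume Ω = T7 at *
  generalize D.εc = ec at *
  generalize D.εe = ee at *
  generalize (2:ℝ≥0∞) ^ (p - 1) = b at *
  generalize (4356:ℝ≥0∞) ^ p = d at *
  calc b * (d * (36 * (CC * (ec + T5)) + ee) + T7) + (b * (d * (36 * T8 + ee) + T7) + T9)
      = b * (d * (36 * (CC * ec))) + b * (d * (36 * (CC * T5))) + b * (d * ee) + b * T7 +
        (b * (d * (36 * T8)) + b * (d * ee) + b * T7 + T9) := by ring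
    _ ≤ x + x + x + x + (x + x + x + x) := by gcongr
    _ = 8 * x := by ring

end PDa

/-- **[PD6]** the data exist -/
theorem exists_pd {p : ℝ} (hN : NetIn2) (hC : SpecCtrs p) (hS : SpecFill) (hp : 2 < p)
    (hp3 : p < 3) {Ω Λ : Set V} {f : V → V} {F : V → Mat} (hΩ : St.IsBoundedDomain Ω)
    (hΛ : St.IsBoundedDomain Λ) (hf : St.IsHomeo Ω Λ f) (hF : St.IsSobolev p Ω f F)
    (hFD : FinDist Ω F) {ε δ : ℝ} (hε : 0 < ε) (hδ : 0 < δ)
    (Φ : ℕ → Finset (Fin 3 → ℤ) → ((Fin 3 → ℤ) → V → V) → ℝ) :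
    Nonempty (PD p ε δ Φ Ω Λ f F) := by
  obtain ⟨Cf, Kf, κf, hCf, hκf, hNet⟩ := netW_of hN
  obtain ⟨CC, hCC, hCt⟩ := ctrsW_of hC
  obtain ⟨D⟩ := exists_pda hp hε hδ hCC Kf hCf hκf hΩ hΛ hf hF hFD
  -- the first layer of tiles
  obtain ⟨m', hm'1, hm'2⟩ := ((ev_div_le (Φ D.N D.J D.A * ((gB D.H (D.n + D.ks + D.kt)).card *
    (6 * (9 / D.θ * (2 / 2 ^ D.n) ^ 2)))) hε).and
    (eventually_ge_atTop (D.n + D.ks + D.kt))).exists
  obtain ⟨c, hmid, hfar, hgood, hint⟩ := D.exists_c hΩ hΛ hf hS hCt hm'2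
  obtain ⟨R⟩ := D.exists_mesh hp hδ hΛ hf hm'2 hmid hgood
  obtain ⟨T⟩ := D.exists_net hNet hp hε hΩ hΛ hf R
  exact ⟨{
    toPD0 := D.pd0 m' c
    bΩ := hΩ, bΛ := hΛ, hf := hf, hF := hF, hp := hp, hp3 := hp3, hε := hε, hδ := hδ
    M0 := D.M0
    C0 := hCf _ _
    κ0 := kap_pos hCf hκf D.H.θ0 _
    κC := (min_le_right _ _).trans (min_le_right _ _)
    a0 := D.a0
    a1 := D.a1
    β0 := D.β0
    m2 := D.m2
    nm := Nat.le_add_right _ _
    mmt := Nat.add_le_add_left D.kt2 _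
    mtm := hm'2
    nr := R.nr
    mnr := R.mnr
    η1 := by
      have h1 := D.η1
      have hn : (0:ℝ) < 1 / 2 ^ D.n := by positivity
      have h2 := mul_le_mul_of_nonneg_right h1 hn.le
      show Cf D.θ D.M / 2 ^ (D.n + D.k₁) ≤ D.a₁ / 2 ^ (D.n + D.ks) / 2
      rw [pow_add, pow_add]
      refine le_trans (le_of_eq ?_) (h2.trans (le_of_eq ?_)) <;> ring
    η2 := by
      have h1 := D.η2
      have hn : (0:ℝ) < 1 / 2 ^ D.n := by positivity
      have h2 := mul_le_mul_of_nonneg_right h1 hn.le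
      show 2 * (Cf D.θ D.M / 2 ^ (D.n + D.k₁)) + D.M * (1 / 2 ^ (D.n + D.k₁)) ≤
        δ * (D.a₁ / 2 ^ (D.n + D.ks) / 2)
      rw [pow_add, pow_add]
      refine le_trans (le_of_eq ?_) (h2.trans (le_of_eq ?_)) <;> ring
    η3 := D.η3
    η4 := D.η4
    r1 := R.r1, r2 := R.r2, r3 := R.r3, r4 := R.r4, r5 := R.r5, r6 := R.r6
    aff := D.aff
    fine := D.fine
    N := D.N
    dyL := D.dyL
    dyA := D.dyA
    εc := D.εc
    es1 := D.es1
    es2 := D.es2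
    εf := D.ef
    fill := D.fill hS
    Gm := D.Gm
    Gfin := D.Gfin
    rat := D.gen.rat
    efin := fun e he => efin_of (by linarith) D.gen he
    rep := D.gen.rep
    own := D.own
    surf := D.surf
    mid := hmid
    far := hfar
    Bg := R.Bg
    nf := R.nf
    τ := R.τ
    τ0 := R.τ0
    e := R.e
    mesh := R.mesh
    εe := D.εe
    esum := R.esum
    εI := CC * (D.εc + ENNReal.ofReal D.M ^ p * D.ef)
    int := hint
    h := T.h
    σ := T.σ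
    δe := T.δe
    σε := T.σε
    στ := T.στ
    δ0 := T.δ0
    δ1 := T.δ1
    δ2 := T.δ2
    net := T.net
    K := D.K
    Ksub := D.Ksub
    Kc := D.Kc
    Kvol := D.Kvol
    osc := D.osc
    b1 := D.c1
    b2 := D.bud2 hε
    b3 := D.bud3
    b4 := by
      refine le_trans (le_of_eq ?_) hm'1
      show Φ D.N D.J D.A * ((gB D.H (D.n + D.ks + D.kt)).card *
        (6 * (9 / D.θ * (2 / 2 ^ D.n) ^ 2 * (1 / 2 ^ m')))) = _
      ring }⟩

end Vale.Agent.P073.H333
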