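import Vale.Agent.P073.H333.PD

/-!
# P073, block A15-PRE: first consequences
-/

namespace Vale.Agent.P073.H333

open MeasureTheory Set Filter Topology Metric Vale.Agent.P073.St Vale.Agent.P073.AB
open Vale.Agent.P073.SQ (ev)
open _root_.P073 (ConHomeo)
open _root_.P073.Net (dyc dyo IsTile SizeFn len)
open Vale.Agent.P073.H73 (MinEdge Bix ctr WLe segP onSeg)
open Vale.Agent.P073.H194 (refine Big wH zo so co MeshOut bInt Oc cellT)
open Vale.Agent.P073.H471 (wgt)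
open Vale.Agent.P073.H83 (CellsG gB grho)
open scoped ENNReal

namespace PD

variable {p ε δ : ℝ} {Φ : ℕ → Finset (Fin 3 → ℤ) → ((Fin 3 → ℤ) → V → V) → ℝ}
  {Ω Λ : Set V} {f : V → V} {F : V → Mat} (D : PD p ε δ Φ Ω Λ f F)

theorem ref : H669.Ref Ω D.v D.n D.k₁ D.k₀ D.J D.Bg D.nf where
  fine := D.fine
  big := D.mesh.big
  lt b hb q hq h := D.mesh.lt b hb q (by
    have := D.fine.diff_eq
    show q ∈ base Ω D.v D.n D.k₁ D.k₀ D.J \ (lay D.v D.n D.k₁ D.k₀ D.J ∪ gap D.v D.n D.k₁ D.J)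
    rw [this]; exact hq) (h.trans P86.dyo_sub_dyc)

theorem I_eq : D.I = H669.rI Ω D.v D.n D.k₁ D.k₀ D.J D.Bg D.nf := rfl

theorem part : Part Ω D.v D.I := D.mesh.part

theorem part_in : Part Ω D.v (D.In D.Bg D.nf) := D.ref.part_inet D.bΩ.1

theorem diff_eq : D.Ib \ D.P = out Ω D.v D.n D.k₁ D.k₀ D.J ∪ core D.v D.n D.k₁ D.J :=
  D.fine.diff_eq

theorem size : SizeFn Λ D.ρ :=
  H83.sizeFn_grho _ _ _ _ _ _ _ _ _ D.bΛ.1 D.H.bΛ

/-- the square of a fine cube is divided -/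
theorem div_of_fine {r : Idx} (hr : H669.IsFine Ω D.v D.n D.k₁ D.k₀ D.J D.Bg D.nf r)
    {s : Idx × Fin 3} (hs : squ D.v s ⊆ dyc D.v r.1 r.2) :
    ∃ q ∈ D.Ib \ D.P, squ D.v s ⊆ dyc D.v q.1 q.2 := by
  rw [D.diff_eq]
  rcases D.ref.fine_cases hr with ⟨q, hq, h, -⟩ | ⟨z, -, -, q, hq, h, -⟩
  · exact ⟨q, Or.inl hq, hs.trans h⟩
  · exact ⟨q, Or.inr hq, hs.trans h⟩

/-- an edge which is not divided is in a kept zone -/
theorem kept_of_not_div {e : Idx × Fin 3} (he : MinEdge D.v D.I e) (hd : ¬ D.Div e) :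
    (e.1.1 = D.n + D.k₁ + D.k₀ ∧ ∃ z ∈ D.J, edge D.v e ⊆ dyc D.v D.n z ∧
      Disjoint (edge D.v e) (interior (boxB D.v D.n D.k₁ z))) ∨
    (e.1.1 = D.n + D.k₁ ∧ ∃ z ∈ D.J, edge D.v e ⊆ boxB D.v D.n D.k₁ z ∧
      Disjoint (edge D.v e) (interior (boxR D.v D.n D.k₁ z))) := by
  rcases D.ref.minEdge he with ⟨r, hr, her⟩ | h
  · obtain ⟨s, hs, h1, h2⟩ := H687.exists_minSq_of_minEdge D.bΩ.1 D.part he hr.1 her
    exact absurd ⟨s, hs, h1, D.div_of_fine hr h2⟩ hd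
  · exact h

end PD

end Vale.Agent.P073.H333
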