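import Vale.Agent.P073.H340.PEa
import Vale.Agent.P073.H333.PEnet
import Vale.Agent.P073.H333.PDb
import Vale.Agent.P073.H989.SubC
import Vale.Agent.P073.H989.Orig3
import Vale.Agent.P073.H989.P2Set
import Vale.Agent.P073.H407.Nums2

/-!
# P073, [PRE-2] (`p = 2`), [E9-A]: energy on the fine edges; the compact set
-/

namespace Vale.Agent.P073.H333

open MeasureTheory Set Filter Topology Metric Vale.Agent.P073.St Vale.Agent.P073.AB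
open Vale.Agent.P073.SQ (ev)
open _root_.P073 (ConHomeo)
open _root_.P073.Net (dyc dyo IsTile SizeFn len)
open Vale.Agent.P073.H194 (idx sInt)
open Vale.Agent.P073.H234
open Vale.Agent.P073.H989 (GoodT subJ par)
open scoped ENNReal

/-- the energy on the edges of the tiles which touch the good cells -/
theorem own_pea {p : ℝ} {ε : ℝ≥0∞} {θ M M₀ κ c₀ t₀ δ₀ : ℝ} {j : ℕ} {Ω Λ : Set V} {f : V → V}
    {F : V → Mat} {T : Set V} {v : V} {m : ℕ} {G : V → ℝ≥0∞} (hp : 1 ≤ p)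
    (P : P2Cells p ε θ M κ c₀ t₀ δ₀ j Ω Λ f F T v m) {k₃ k₁ k₀ : ℕ} (hMM : M₀ ≤ M)
    (hM₀ : 0 ≤ M₀)
    (hT : ∀ x ∈ T, ∀ w, ‖cl (F x) w‖ ≤ M₀ * ‖w‖)
    (hQ : ∀ z ∈ P.J, ∃ x ∈ T, idx v m x = z ∧ ∀ e : Idx × Fin 3, e.1.1 = m + (k₃ + k₁ + k₀) →
      edge v e ⊆ dyc v m (idx v m x) →
      eInt v e G ≤ ENNReal.ofReal ((‖cl (F x)‖ ^ p + 1) / 2 ^ (m + (k₃ + k₁ + k₀))))
    {u : Fin 3 → ℤ} (hu : Tch v (m + k₃) (m + k₃ + k₁ + k₀) (subJ P.J k₃) u)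
    {e : Idx × Fin 3} (he : EdgeOf e (m + k₃ + k₁ + k₀, u)) :
    eInt v e G ≤ ENNReal.ofReal ((M ^ p + 1) / 2 ^ (m + k₃ + k₁ + k₀)) := by
  obtain ⟨z, hz, hzu⟩ := hu
  have S := H989.subCells P k₃
  have h1 := H989.touch_sub S (Nat.le_add_right m k₃) (by omega) hz hzu
  obtain ⟨x, hx, hxz, hq⟩ := hQ _ (S.mem z hz)
  have e1 : m + (k₃ + k₁ + k₀) = m + k₃ + k₁ + k₀ := by ring
  rw [e1] at hq
  refine (hq e he.1 ?_).trans (ENNReal.ofReal_le_ofReal ?_)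
  · rw [hxz]
    exact (Gr.edge_subset_dyc he).trans h1
  · have h2 : ‖cl (F x)‖ ≤ M := ((cl (F x)).opNorm_le_bound hM₀ (hT x hx)).trans hMM
    have h3 : ‖cl (F x)‖ ^ p + 1 ≤ M ^ p + 1 := by gcongr
    exact div_le_div_of_nonneg_right h3 (by positivity)

theorem exists_Kosc {Ω Λ : Set V} {f : V → V} (hΩ : St.IsBoundedDomain Ω)
    (hf : St.IsHomeo Ω Λ f) {ε : ℝ} (hε : 0 < ε) {nn : ℕ → ℕ} (hnn : StrictMono nn) :
    ∃ K ⊆ Ω, IsCompact K ∧ volume (Ω \ K) ≤ ENNReal.ofReal ε ∧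
      ∀ᶠ l in atTop, ∀ x ∈ K, ∀ y, ‖y - x‖ ≤ 1 / 2 ^ nn l → ‖f y - f x‖ ≤ ε := by
  obtain ⟨K, hK, hKc, hKv⟩ := hΩ.1.measurableSet.exists_isCompact_sdiff_lt
    (PK.volume_ne_top_of_domain hΩ) (ε := ENNReal.ofReal ε) (by simpa using hε)
  refine ⟨K, hK, hKc, hKv.le, ?_⟩
  filter_upwards [eventually_osc hΩ.1 hf hK hKc hnn 1 hε] with l hl x hx y hy
  exact (hl x hx y hy).2

/-- the choice of the generation of the good cells in the big cubes -/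
theorem exists_k3 {p M : ℝ} (hp : 0 ≤ p) {vol x : ℝ≥0∞} (hvol : vol ≠ ⊤) (hx : x ≠ 0)
    (hxt : x ≠ ⊤) :
    ∃ k₃ : ℕ, 2 ≤ k₃ ∧ ENNReal.ofReal M ^ p * (ENNReal.ofReal (6 / 2 ^ k₃) * vol) ≤ x := by
  have hR : ENNReal.ofReal M ^ p ≠ ⊤ := ENNReal.rpow_ne_top_of_nonneg hp ENNReal.ofReal_ne_top
  have h1 := (tendsto_ofReal_div 6).eventually
    (small1 (a := ENNReal.ofReal M ^ p * vol) (ENNReal.mul_ne_top hR hvol)
      (ENNReal.toReal_pos hx hxt))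
  obtain ⟨k, hk, hk2⟩ := (h1.and (eventually_ge_atTop 2)).exists
  refine ⟨k, hk2, ?_⟩
  rw [ENNReal.ofReal_toReal hxt] at hk
  refine le_trans (le_of_eq ?_) hk
  ring

end Vale.Agent.P073.H333
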