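import Vale.Agent.P073.H333.PEa1
import Vale.Agent.P073.H989.PEcells
import Vale.Agent.P073.H83.Own2c

/-!
# P073, [PRE-2] (`p = 2`), [E9-A]: the first stage exists
-/

namespace Vale.Agent.P073.H333

open MeasureTheory Set Filter Topology Metric Vale.Agent.P073.St Vale.Agent.P073.AB
open Vale.Agent.P073.SQ (ev)
open _root_.P073 (ConHomeo)
open _root_.P073.Net (dyc dyo IsTile SizeFn len)
open Vale.Agent.P073.H194 (idx sInt)
open Vale.Agent.P073.H234
open Vale.Agent.P073.H989 (GoodT subJ par Ad Ld Ad_of Ld_of cst)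
open scoped ENNReal

/-- **[E9-A]** -/
theorem specPEa_of (hN : NetInP2') : H340.SpecPEa 2 := by
  intro ε δ CC Ω Λ f F hε hδ hCC hΩ hΛ hf hF hFD
  obtain ⟨C, K₀, hC, hNet⟩ := hN
  have hvol := PK.volume_ne_top_of_domain hΩ
  obtain ⟨εc, h0, ht, c1, c2, c3, c0'⟩ := H407.specEpsc2 2 ε (1 / 288000) (by norm_num) hε
    (by norm_num) CC hCC
  have hx0 : εc / 12 ≠ 0 := ENNReal.div_ne_zero.2 ⟨h0, by norm_num⟩
  have hxt : εc / 12 ≠ ⊤ := ENNReal.div_ne_top ht (by norm_num)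
  have hx4 : 3 * (εc / 12) ≠ 0 := mul_ne_zero (by norm_num) hx0
  have hx4t : 3 * (εc / 12) ≠ ⊤ := ENNReal.mul_ne_top (by norm_num) hxt
  have hx12 : 12 * (εc / 12) = εc := ENNReal.mul_div_cancel (by norm_num) (by norm_num)
  obtain ⟨θ₀, hθ₀, M₀, hM₀, T, hT, hTe⟩ :=
    H989.exists_goodT (p := 2) one_le_two hΩ hΛ hf hF hFD hx0
  obtain ⟨c₀, hc₀, hset⟩ :=
    H989.exists_p2setup (p := 2) one_le_two hΩ hΛ hf hF hθ₀ hM₀ hT hx0
  set θ : ℝ := θ₀ / 2 with hθd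
  set M : ℝ := M₀ + θ₀ with hMd
  have hθ : 0 < θ := by positivity
  have hM : 0 < M := by positivity
  set cs : ℝ≥0∞ := ENNReal.ofReal (312 * (M ^ 2 + 1)) * volume Ω with hcsd
  have hcs : cs ≠ ⊤ := ENNReal.mul_ne_top ENNReal.ofReal_ne_top hvol
  obtain ⟨ks, kt, k₁, β, εe, hnum⟩ := H407.specNums2 2 ε δ θ M (2 * C θ M + M + 1) (1 / 288000)
    (by norm_num) hε hδ hθ (by norm_num) (by norm_num) (volume Ω) CC cs hvol hCC hcs
  obtain ⟨k₃, hk3, hk3'⟩ := exists_k3 (p := 2) (M := M) (by norm_num) hvol hx4 hx4t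
  obtain ⟨k₂, β', σ₀, κ₀, n1, n2, n3, n4, n5, n6, n7, n8, hNet'⟩ :=
    hNet θ M k₁ k₃ hθ hM hnum.k3 (by omega)
  obtain ⟨κ₁, hκ₁, hset1⟩ := hset β' σ₀ n4 (by linarith) n6
  set κ : ℝ := min κ₀ (min κ₁ (min (β' / 16) (min (θ / 16) (1 / 3)))) with hκd
  have hκ : 0 < κ := by positivity
  have q1 : κ ≤ κ₀ := min_le_left _ _
  have q2 : κ ≤ κ₁ := (min_le_right _ _).trans (min_le_left _ _)
  have q3 : κ ≤ β' / 16 := ((min_le_right _ _).trans (min_le_right _ _)).trans (min_le_left _ _)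
  have q4 : κ ≤ θ / 16 := (((min_le_right _ _).trans (min_le_right _ _)).trans
    (min_le_right _ _)).trans (min_le_left _ _)
  have q5 : κ ≤ 1 / 3 := (((min_le_right _ _).trans (min_le_right _ _)).trans
    (min_le_right _ _)).trans (min_le_right _ _)
  obtain ⟨t₁, ht₁, hset2⟩ := hset1 κ κ (ε / 8) hκ q2 hκ q2 (by positivity)
  obtain ⟨δ₁, hδ₁, hset3⟩ := hset2 t₁ ht₁ le_rfl
  obtain ⟨hTS, hcells⟩ := hset3 δ₁ hδ₁ le_rfl
  obtain ⟨G, Gm, Gfin, Grep, nn, hnn, v, hpl, hgen, horig⟩ :=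
    H989.exists_generic2 (p := 2) one_le_two hΩ hf hF (H194.ae_planes' hΛ.1 hf)
      hT.comp.measurableSet hT.comp.measure_lt_top.ne
  set k₀ := K₀ θ M k₁ with hk₀
  set Q : ℕ → V → Prop := fun l x => ∀ e : Idx × Fin 3, e.1.1 = nn l + (k₃ + k₁ + k₀) →
    edge v e ⊆ dyc v (nn l) (idx v (nn l) x) →
      eInt v e G ≤ ENNReal.ofReal ((‖cl (F x)‖ ^ (2:ℝ) + 1) / 2 ^ (nn l + (k₃ + k₁ + k₀))) with hQ
  have HQ : ∀ᵐ x ∂(volume : Measure V), x ∈ T → ∀ᶠ l in atTop, Q l x := by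
    filter_upwards [hgen.own one_le_two hΩ.1 hnn (k₃ + k₁ + k₀)] with x hx hxT
    exact hx (hT.sub hxT)
  have E1 := hcells hnn horig () rfl (k₃ + k₁ + k₀ + k₂) Q HQ
  obtain ⟨K, hK, hKc, hKv, E2⟩ := exists_Kosc hΩ hf hε hnn
  have E3 := hnn.tendsto_atTop.eventually (ev_div_le 1 hδ₁)
  have E4 := hnn.tendsto_atTop.eventually (ev_div_le 4 (half_pos hc₀))
  have E5 := hnn.tendsto_atTop.eventually (ev_div_le (C θ M) (half_pos hε))
  have E6 := hnn.tendsto_atTop.eventually (ev_div_le 1 hε)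
  obtain ⟨l, ⟨P, hPQ, hPs, hNk⟩, e2, e3, e4, e5, e6, e7⟩ := (E1.and (E2.and (E3.and (E4.and
    (E5.and (E6.and (hnn.tendsto_atTop.eventually (eventually_ge_atTop 2)))))))).exists
  have e4' : 4 / 2 ^ nn l < c₀ := by linarith
  have S := H989.subCells P k₃
  have hNum : Num θ M κ β' := ⟨hθ, hM.le, n4, n5, by linarith, by linarith⟩
  have hcst : cst θ M β' < θ * 2 ^ (k₀ + k₂) := by
    refine lt_of_lt_of_le (show cst θ M β' < θ * 2 ^ k₂ from n3) ?_
    gcongr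
    · norm_num
    · omega
  obtain ⟨g, hg⟩ := H989.exists_gcells (d := k₃) (k₁ := k₁) (k₀ := k₀) (k₂ := k₂) hΩ hΛ hf
    hgen.rat P hTS hNum hNk e4' n6 n7 n2 rfl hnum.k3 hcst ks
  obtain ⟨N, hN1, hN2⟩ := H989.Ad_dyad P k₃
  have hfine : H669.Fine Ω v (nn l + k₃) k₁ k₀ (subJ P.J k₃) :=
    H989.fine_sub hΩ P e4' (by have := hnum.k3; omega)
  have hsum12 : (∫⁻ y in Ω \ T, ‖cl (F y)‖ₑ ^ (2:ℝ)) + εc / 12 ≤ 2 * (εc / 12) := by
    rw [two_mul]
    gcongr
  have hκ1 : κ ≤ 1 := by linarith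
  have hθM : θ ≤ M := by rw [hθd, hMd]; linarith
  exact ⟨{
    θ := θ, M := M, C₀ := C θ M, κ := cst θ M β' / 2 ^ k₂, a₁ := 1 / 288000, β := β
    ks := ks, kt := kt, k₁ := k₁, k₀ := k₀, n := nn l + k₃, v := v, g := g, G := G, nn := nn
    J := subJ P.J k₃, A := Ad P.A P.J k₃, L := Ld P.L P.J k₃, N := N, εc := εc, εe := εe
    cs := cs, K := K
    M0 := hM, C00 := hC θ M, a0 := by norm_num, a1 := le_rfl, num := hnum
    m2 := by omega
    η4 := by
      refine le_trans ?_ e6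
      apply one_div_le_one_div_of_le (by positivity)
      exact pow_le_pow_right₀ (by norm_num) (by omega)
    nm := hnn, Gm := Gm, Gfin := Gfin, gen := hgen, pl := hpl, rp := Grep
    H := hg
    loc := H989.locJ_sub hTS (by linarith) hθ ht₁ P hκ.le hκ1 hθM (by omega) hnum.T1 hnum.T3
    aff := H989.Ad_aff P k₃
    fine := hfine
    net := by
      intro I hI hTI hfin σ δe τ hσ hσ0 hδe hτ
      obtain ⟨h, hh⟩ := hNet' κ hκ q1 2 _ c₀ t₁ δ₁ (ε / 8) Ω Λ f F T v (nn l) P hΩ hΛ hf hgen.rat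
        hTS (by positivity) ht₁ e3 e4' hNk (subJ P.J k₃) (par k₃) S I hI hTI hfin σ δe τ hσ hσ0
        hδe hτ
      refine ⟨h, H989.NetRes2.congr hh (fun z hz => (Ad_of hz).symm) ?_⟩
      linarith
    dyL := hN1, dyA := hN2
    es1 := by
      refine (H989.es1_sub P k₃).trans (hsum12.trans ?_)
      conv_rhs => rw [← hx12]
      gcongr
      norm_num
    es2 := by
      refine (H989.sub_es2 one_le_two P hM.le hΩ.1.measurableSet hPs hk3).trans ?_
      have h2 : (2:ℝ≥0∞) ^ ((2:ℝ) - 1) = 2 := by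
        rw [show (2:ℝ) - 1 = 1 by norm_num, ENNReal.rpow_one]
      rw [h2]
      calc _ ≤ 2 * (εc / 12) + 2 * (2 * (εc / 12) + 3 * (εc / 12)) := by gcongr
        _ = 12 * (εc / 12) := by ring
        _ = εc := hx12
    own := by
      intro u hu e he
      exact own_pea one_le_two P (M₀ := M₀) (by rw [hMd]; linarith) hM₀.le hT.upp hPQ hu he
    fown := by
      intro z hz u hu e he x hx
      rw [Ad_of hz]
      exact H83.fown2 hTS S (Nat.le_add_right _ _) (by omega) (by omega) (by linarith) z hz u hu e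
        he x hx
    fsum := H83.faceSum_own' hΩ.1 hM.le hκ1 S (Nat.le_add_right _ _) (by omega) hfine
      fun s => (hgen.rep _ G fun x hx => hx).2 s
    Ksub := hK
    Kc := hKc
    Kvol := hKv
    osc := fun x hx y hy => e2 x hx y (hy.trans (by
      apply one_div_le_one_div_of_le (by positivity)
      exact pow_le_pow_right₀ (by norm_num) (by omega)))
    c1 := c1, c2 := c2, c3 := c3 }⟩

end Vale.Agent.P073.H333
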