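import Vale.Agent.P073.H333.WeakLim2

/-!
# P073: a strictly monotone functional on the relatively closed sets
-/

namespace Vale.Agent.P073.H333

open MeasureTheory Set Filter Topology Vale.Agent.P073.St

theorem exists_basis : ∃ B : ℕ → Set V, ∀ U : Set V, IsOpen U → ∀ x ∈ U, ∃ n, x ∈ B n ∧ B n ⊆ U := by
  have hb := TopologicalSpace.isBasis_countableBasis V
  have hne : (TopologicalSpace.countableBasis V).Nonempty := by
    obtain ⟨v, hv, -⟩ := hb.exists_subset_of_mem_open (mem_univ (0 : V)) isOpen_univ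
    exact ⟨v, hv⟩
  obtain ⟨B, hB⟩ := (TopologicalSpace.countable_countableBasis V).exists_eq_range hne
  refine ⟨B, fun U hU x hx => ?_⟩
  obtain ⟨v, hv, hxv, hvU⟩ := hb.exists_subset_of_mem_open hx hU
  rw [hB] at hv
  obtain ⟨n, rfl⟩ := hv
  exact ⟨n, hxv, hvU⟩

open Classical in
/-- the functional -/
noncomputable def PP (K : Set V) : ℝ :=
  ∑' n : ℕ, (1 / 2 / 2 ^ n : ℝ) * if (exists_basis.choose n ∩ K).Nonempty then 1 else 0

open Classical in
theorem term_nonneg (K : Set V) (n : ℕ) :
    0 ≤ (1 / 2 / 2 ^ n : ℝ) * if (exists_basis.choose n ∩ K).Nonempty then 1 else 0 := by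
  split_ifs <;> positivity

open Classical in
theorem term_le (K : Set V) (n : ℕ) :
    (1 / 2 / 2 ^ n : ℝ) * (if (exists_basis.choose n ∩ K).Nonempty then 1 else 0) ≤
      1 / 2 / 2 ^ n := by
  split_ifs
  · rw [mul_one]
  · rw [mul_zero]; positivity

open Classical in
theorem summable_term (K : Set V) : Summable fun n : ℕ =>
    (1 / 2 / 2 ^ n : ℝ) * if (exists_basis.choose n ∩ K).Nonempty then 1 else 0 :=
  Summable.of_nonneg_of_le (term_nonneg K) (term_le K) (summable_geometric_two' 1)

theorem PP_nonneg (K : Set V) : 0 ≤ PP K := tsum_nonneg (term_nonneg K)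

theorem PP_le_one (K : Set V) : PP K ≤ 1 := by
  refine ((summable_term K).tsum_le_tsum (term_le K) (summable_geometric_two' 1)).trans ?_
  have := tsum_geometric_two' (1 : ℝ)
  linarith

open Classical in
theorem term_mono {K L : Set V} (h : K ⊆ L) (n : ℕ) :
    (1 / 2 / 2 ^ n : ℝ) * (if (exists_basis.choose n ∩ K).Nonempty then 1 else 0) ≤
      (1 / 2 / 2 ^ n : ℝ) * if (exists_basis.choose n ∩ L).Nonempty then 1 else 0 := by
  by_cases h1 : (exists_basis.choose n ∩ K).Nonempty
  · have h2 : (exists_basis.choose n ∩ L).Nonempty := h1.mono (inter_subset_inter_right _ h)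
    rw [if_pos h1, if_pos h2]
  · rw [if_neg h1, mul_zero]
    exact term_nonneg L n

theorem PP_mono {K L : Set V} (h : K ⊆ L) : PP K ≤ PP L :=
  (summable_term K).tsum_le_tsum (term_mono h) (summable_term L)

theorem PP_lt {K L U : Set V} (h : K ⊆ L) (hU : IsOpen U) (hUK : Disjoint U K) {x : V}
    (hx : x ∈ U) (hxL : x ∈ L) : PP K < PP L := by
  obtain ⟨n, hn, hnU⟩ := exists_basis.choose_spec U hU x hx
  refine (summable_term K).tsum_lt_tsum (term_mono h) (i := n) ?_ (summable_term L)
  have h1 : ¬ (exists_basis.choose n ∩ K).Nonempty := by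
    rintro ⟨y, hy, hyK⟩
    exact disjoint_left.1 hUK (hnU hy) hyK
  have h2 : (exists_basis.choose n ∩ L).Nonempty := ⟨x, hn, hxL⟩
  rw [if_neg h1, if_pos h2, mul_zero, mul_one]
  positivity

end Vale.Agent.P073.H333
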