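import Vale.Agent.P073.H196.Cells

/-!
# P073, H333: **[PLW0]** cells and levels on the line, with windows

`exists_cellsW`: cells of an interval which avoid slivers; big slivers are allowed in disjoint
windows, and off the windows the cells are aligned with the uniform grid, up to a small error.
-/

open Set Metric Topology MeasureTheory Filter
open scoped ENNReal

namespace Vale.Agent.P073.H333.PLW

open _root_.P073.Croft (Cells exists_cells)

/-- clamping -/
noncomputable def cl (R s : ℝ) : ℝ := max (-R) (min R s)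

theorem cl_mono (R : ℝ) : Monotone (cl R) := fun _ _ h =>
  max_le_max le_rfl (min_le_min le_rfl h)

theorem cl_of_abs {R s : ℝ} (h : |s| ≤ R) : cl R s = s := by
  have h1 := abs_le.1 h
  unfold cl
  rw [min_eq_right h1.2, max_eq_right h1.1]

theorem cl_of_ge {R s : ℝ} (hR : 0 ≤ R) (h : R ≤ s) : cl R s = R := by
  unfold cl
  rw [min_eq_left h, max_eq_right (by linarith)]

theorem cl_of_le {R s : ℝ} (hR : 0 ≤ R) (h : s ≤ -R) : cl R s = -R := by
  unfold cl
  rw [min_eq_right (by linarith), max_eq_left h]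

theorem cl_abs {R : ℝ} (hR : 0 ≤ R) (s : ℝ) : |cl R s| ≤ R := by
  unfold cl
  rw [abs_le]
  exact ⟨le_max_left _ _, max_le (by linarith) (min_le_left _ _)⟩

theorem cl_sub_le {R s t : ℝ} (hR : 0 ≤ R) (h : s ≤ t) : cl R t - cl R s ≤ t - s := by
  rcases le_total t (-R) with h1 | h1
  · rw [cl_of_le hR h1, cl_of_le hR (h.trans h1)]; linarith
  rcases le_total R s with h2 | h2
  · rw [cl_of_ge hR h2, cl_of_ge hR (h2.trans h)]; linarith
  rcases le_total R t with h3 | h3 <;> rcases le_total s (-R) with h4 | h4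
  · rw [cl_of_ge hR h3, cl_of_le hR h4]; linarith
  · rw [cl_of_ge hR h3, cl_of_abs (abs_le.2 ⟨h4, h2⟩)]; linarith
  · rw [cl_of_le hR h4, cl_of_abs (abs_le.2 ⟨h1, h3⟩)]; linarith
  · rw [cl_of_abs (abs_le.2 ⟨h1, h3⟩), cl_of_abs (abs_le.2 ⟨h4, h2⟩)]

theorem cl_cl {j R : ℝ} (hj : 0 ≤ j) (hjR : j ≤ R) (s : ℝ) : cl j (cl R s) = cl j s := by
  rcases le_total s (-R) with h1 | h1
  · rw [cl_of_le (hj.trans hjR) h1, cl_of_le hj (by linarith), cl_of_le hj (by linarith)]
  rcases le_total R s with h2 | h2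
  · rw [cl_of_ge (hj.trans hjR) h2, cl_of_ge hj hjR, cl_of_ge hj (hjR.trans h2)]
  · rw [cl_of_abs (abs_le.2 ⟨h1, h2⟩)]

theorem cl_sub_cl_le {j R s t : ℝ} (hj : 0 ≤ j) (hjR : j ≤ R) (h : s ≤ t) :
    cl j t - cl j s ≤ cl R t - cl R s := by
  rw [← cl_cl hj hjR t, ← cl_cl hj hjR s]
  exact cl_sub_le hj (cl_mono R h)

theorem cl_cont (R : ℝ) : Continuous (cl R) := by
  unfold cl
  fun_prop

/-! ### one window -/

/-- the displacement of one window -/
noncomputable def vw (j R s : ℝ) : ℝ := R / (R - j) * cl j s - j / (R - j) * cl R s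

theorem vw_cont (j R : ℝ) : Continuous (vw j R) := by
  unfold vw
  exact (continuous_const.mul (cl_cont j)).sub (continuous_const.mul (cl_cont R))

theorem vw_zero {j R s : ℝ} (hj : 0 ≤ j) (hjR : j < R) (hs : R ≤ |s|) : vw j R s = 0 := by
  have h0 : R - j ≠ 0 := by linarith
  unfold vw
  rcases le_abs.1 hs with h | h
  · rw [cl_of_ge hj (hjR.le.trans h), cl_of_ge (hj.trans hjR.le) h]; field_simp; ring
  · rw [cl_of_le hj (by linarith), cl_of_le (hj.trans hjR.le) (by linarith)]; field_simp; ring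

theorem vw_in {j R s : ℝ} (hjR : j < R) (hs : |s| ≤ j) : vw j R s = s := by
  have h0 : R - j ≠ 0 := by linarith
  unfold vw
  rw [cl_of_abs hs, cl_of_abs (hs.trans hjR.le)]; field_simp

theorem vw_abs {j R : ℝ} (hj : 0 ≤ j) (hjR : j < R) (s : ℝ) : |vw j R s| ≤ j := by
  have h0 : 0 < R - j := by linarith
  have key : ∀ s, 0 ≤ s → 0 ≤ vw j R s ∧ vw j R s ≤ j := by
    intro s hs
    rcases le_total s j with h1 | h1
    · rw [vw_in hjR (by rw [abs_of_nonneg hs]; exact h1)]; exact ⟨hs, h1⟩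
    rcases le_total R s with h2 | h2
    · rw [vw_zero hj hjR (by rw [abs_of_nonneg hs]; exact h2)]; exact ⟨le_rfl, hj⟩
    · have h3 : vw j R s = j * (R - s) / (R - j) := by
        unfold vw
        rw [cl_of_ge hj h1, cl_of_abs (by rw [abs_of_nonneg hs]; exact h2)]; field_simp
      rw [h3]
      constructor
      · exact div_nonneg (mul_nonneg hj (by linarith)) h0.le
      · rw [div_le_iff₀ h0]; nlinarith
  have hodd : vw j R (-s) = -vw j R s := by
    have h5 : ∀ R s : ℝ, 0 ≤ R → cl R (-s) = -cl R s := by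
      intro R s hR
      rcases le_total R s with h | h
      · rw [cl_of_ge hR h, cl_of_le hR (by linarith)]
      rcases le_total s (-R) with h' | h'
      · rw [cl_of_le hR h', cl_of_ge hR (by linarith)]; ring
      · rw [cl_of_abs (abs_le.2 ⟨h', h⟩), cl_of_abs (abs_le.2 ⟨by linarith, by linarith⟩)]
    unfold vw
    rw [h5 j s hj, h5 R s (hj.trans hjR.le)]; ring
  rcases le_total 0 s with h | h
  · obtain ⟨h1, h2⟩ := key s h
    rw [abs_of_nonneg h1]; exact h2
  · obtain ⟨h1, h2⟩ := key (-s) (by linarith)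
    rw [hodd] at h1 h2
    rw [abs_of_nonpos (by linarith)]; exact h2

/-! ### disjoint windows -/

/-- the total length of disjoint windows in an interval -/
theorem sum_cl_le {ι : Type*} (Q : Finset ι) {c R : ι → ℝ} (hR : ∀ q ∈ Q, 0 ≤ R q)
    (hd : ∀ q ∈ Q, ∀ q' ∈ Q, q ≠ q' → R q + R q' ≤ |c q - c q'|) {s t : ℝ} (h : s ≤ t) :
    ∑ q ∈ Q, (cl (R q) (t - c q) - cl (R q) (s - c q)) ≤ t - s := by
  classical
  -- the length of the window in `[s, t]`
  have h1 : ∀ q ∈ Q, ENNReal.ofReal (cl (R q) (t - c q) - cl (R q) (s - c q)) ≤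
      volume (Ioo s t ∩ Ioo (c q - R q) (c q + R q)) := by
    intro q hq
    have hR0 := hR q hq
    rcases le_total (t - c q) (-(R q)) with h3 | h3
    · rw [cl_of_le hR0 h3, cl_of_le hR0 (by linarith), sub_self, ENNReal.ofReal_zero]
      exact bot_le
    rcases le_total (R q) (s - c q) with h4 | h4
    · rw [cl_of_ge hR0 h4, cl_of_ge hR0 (by linarith), sub_self, ENNReal.ofReal_zero]
      exact bot_le
    rw [Ioo_inter_Ioo, Real.volume_Ioo]
    apply ENNReal.ofReal_le_ofReal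
    have e1 : cl (R q) (t - c q) = min t (c q + R q) - c q := by
      rcases le_total (R q) (t - c q) with h | h
      · rw [cl_of_ge hR0 h, min_eq_right (by linarith)]; ring
      · rw [cl_of_abs (abs_le.2 ⟨h3, h⟩), min_eq_left (by linarith)]
    have e2 : cl (R q) (s - c q) = max s (c q - R q) - c q := by
      rcases le_total (s - c q) (-(R q)) with h | h
      · rw [cl_of_le hR0 h, max_eq_right (by linarith)]; ring
      · rw [cl_of_abs (abs_le.2 ⟨h, h4⟩), max_eq_left (by linarith)]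
    rw [e1, e2]
    show _ ≤ min t (c q + R q) - max s (c q - R q)
    linarith
  have hdis : (Q : Set ι).PairwiseDisjoint fun q => Ioo s t ∩ Ioo (c q - R q) (c q + R q) := by
    intro q hq q' hq' hne
    refine Set.disjoint_left.2 ?_
    rintro y ⟨-, hy1, hy2⟩ ⟨-, hy3, hy4⟩
    have h2 := hd q hq q' hq' hne
    rcases abs_cases (c q - c q') with ⟨h3, -⟩ | ⟨h3, -⟩ <;> rw [h3] at h2 <;> linarith
  have h2 : ∑ q ∈ Q, volume (Ioo s t ∩ Ioo (c q - R q) (c q + R q)) ≤ ENNReal.ofReal (t - s) := by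
    rw [← measure_biUnion_finset hdis fun q _ => measurableSet_Ioo.inter measurableSet_Ioo,
      ← Real.volume_Ioo]
    refine measure_mono ?_
    intro y hy
    obtain ⟨q, -, h3⟩ := mem_iUnion₂.1 hy
    exact h3.1
  have h3 : ENNReal.ofReal (∑ q ∈ Q, (cl (R q) (t - c q) - cl (R q) (s - c q))) ≤
      ENNReal.ofReal (t - s) := by
    rw [ENNReal.ofReal_sum_of_nonneg fun q _ => by
      have := cl_mono (R q) (show s - c q ≤ t - c q by linarith)
      linarith]
    exact (Finset.sum_le_sum h1).trans h2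
  exact (ENNReal.ofReal_le_ofReal_iff (by linarith)).1 h3

/-! ### the map -/

/-- the map: `κ = 1 - ε` -/
noncomputable def phi {ι : Type*} (Q : Finset ι) (c j R : ι → ℝ) (κ t : ℝ) : ℝ :=
  t - κ * ∑ q ∈ Q, vw (j q) (R q) (t - c q)

/-- the hypotheses on the windows -/
structure Win {ι : Type*} (Q : Finset ι) (c j R : ι → ℝ) (r : ℝ) : Prop where
  j0 : ∀ q ∈ Q, 0 ≤ j q
  jR : ∀ q ∈ Q, j q < R q
  jr : ∀ q ∈ Q, j q ≤ r * (R q - j q)
  dis : ∀ q ∈ Q, ∀ q' ∈ Q, q ≠ q' → R q + R q' ≤ |c q - c q'|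

namespace Win

variable {ι : Type*} {Q : Finset ι} {c j R : ι → ℝ} {r κ : ℝ} (H : Win Q c j R r)

include H

theorem R0 {q : ι} (hq : q ∈ Q) : 0 ≤ R q := (H.j0 q hq).trans (H.jR q hq).le

omit H in
theorem sub_eq (κ s t : ℝ) : phi Q c j R κ t - phi Q c j R κ s = (t - s) -
    κ * ∑ q ∈ Q, (vw (j q) (R q) (t - c q) - vw (j q) (R q) (s - c q)) := by
  unfold phi
  rw [Finset.sum_sub_distrib]
  ring

theorem lower (h0 : 0 ≤ κ) {s t : ℝ} (h : s ≤ t) :
    (1 - κ) * (t - s) ≤ phi Q c j R κ t - phi Q c j R κ s := by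
  rw [sub_eq]
  have h1 : ∑ q ∈ Q, (vw (j q) (R q) (t - c q) - vw (j q) (R q) (s - c q)) ≤
      ∑ q ∈ Q, (cl (R q) (t - c q) - cl (R q) (s - c q)) := by
    refine Finset.sum_le_sum fun q hq => ?_
    have hj := H.j0 q hq
    have hjR := H.jR q hq
    have h0' : 0 < R q - j q := by linarith
    have e1 : vw (j q) (R q) (t - c q) - vw (j q) (R q) (s - c q) =
        R q / (R q - j q) * (cl (j q) (t - c q) - cl (j q) (s - c q)) -
          j q / (R q - j q) * (cl (R q) (t - c q) - cl (R q) (s - c q)) := by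
      unfold vw; ring
    have h2 := cl_sub_cl_le hj hjR.le (show s - c q ≤ t - c q by linarith)
    have h3 : 0 ≤ R q / (R q - j q) := div_nonneg (H.R0 hq) h0'.le
    have h4 : R q / (R q - j q) = 1 + j q / (R q - j q) := by field_simp; ring
    rw [e1]
    have h5 := mul_le_mul_of_nonneg_left h2 h3
    rw [h4] at h5 ⊢
    linarith
  have h2 := h1.trans (sum_cl_le Q (fun q hq => H.R0 hq) H.dis h)
  nlinarith

theorem upper (h0 : 0 ≤ κ) (h1 : κ ≤ 1) (hr : 0 ≤ r) {s t : ℝ} (h : s ≤ t) :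
    phi Q c j R κ t - phi Q c j R κ s ≤ (1 + r) * (t - s) := by
  rw [sub_eq]
  have h2 : -(r * ∑ q ∈ Q, (cl (R q) (t - c q) - cl (R q) (s - c q))) ≤
      ∑ q ∈ Q, (vw (j q) (R q) (t - c q) - vw (j q) (R q) (s - c q)) := by
    rw [Finset.mul_sum, ← Finset.sum_neg_distrib]
    refine Finset.sum_le_sum fun q hq => ?_
    have hj := H.j0 q hq
    have hjR := H.jR q hq
    have h0' : 0 < R q - j q := by linarith
    have e1 : vw (j q) (R q) (t - c q) - vw (j q) (R q) (s - c q) =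
        R q / (R q - j q) * (cl (j q) (t - c q) - cl (j q) (s - c q)) -
          j q / (R q - j q) * (cl (R q) (t - c q) - cl (R q) (s - c q)) := by
      unfold vw; ring
    have h3 : 0 ≤ R q / (R q - j q) := div_nonneg (H.R0 hq) h0'.le
    have h4 : j q / (R q - j q) ≤ r := by rw [div_le_iff₀ h0']; exact H.jr q hq
    have h5 := cl_mono (j q) (show s - c q ≤ t - c q by linarith)
    have h6 := cl_mono (R q) (show s - c q ≤ t - c q by linarith)
    rw [e1]
    have h7 := mul_nonneg h3 (sub_nonneg.2 h5)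
    have h8 := mul_le_mul_of_nonneg_right h4 (sub_nonneg.2 h6)
    linarith
  have h3 := sum_cl_le Q (fun q hq => H.R0 hq) H.dis h
  have h4 : 0 ≤ ∑ q ∈ Q, (cl (R q) (t - c q) - cl (R q) (s - c q)) :=
    Finset.sum_nonneg fun q _ => sub_nonneg.2 (cl_mono (R q) (by linarith))
  have h5 : r * ∑ q ∈ Q, (cl (R q) (t - c q) - cl (R q) (s - c q)) ≤ r * (t - s) :=
    mul_le_mul_of_nonneg_left h3 hr
  have h6 : 0 ≤ r * ∑ q ∈ Q, (cl (R q) (t - c q) - cl (R q) (s - c q)) := mul_nonneg hr h4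
  nlinarith

/-- a point in at most one window -/
theorem vw_other {q q' : ι} (hq : q ∈ Q) (hq' : q' ∈ Q) (hne : q ≠ q') {t : ℝ}
    (ht : |t - c q| ≤ R q) : vw (j q') (R q') (t - c q') = 0 := by
  refine vw_zero (H.j0 q' hq') (H.jR q' hq') ?_
  have h1 := H.dis q hq q' hq' hne
  have h2 := abs_sub_le (c q) t (c q')
  rw [abs_sub_comm (c q) t] at h2
  linarith

theorem sum_eq {q : ι} (hq : q ∈ Q) {t : ℝ} (ht : |t - c q| ≤ R q) :
    ∑ q ∈ Q, vw (j q) (R q) (t - c q) = vw (j q) (R q) (t - c q) :=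
  Finset.sum_eq_single_of_mem q hq fun _ hq' hne => H.vw_other hq hq' hne.symm ht

theorem fix {t : ℝ} (ht : t ∉ ⋃ q ∈ Q, Ioo (c q - R q) (c q + R q)) :
    phi Q c j R κ t = t := by
  unfold phi
  rw [Finset.sum_eq_zero, mul_zero, sub_zero]
  intro q hq
  refine vw_zero (H.j0 q hq) (H.jR q hq) ?_
  by_contra hcon
  push Not at hcon
  have h1 := abs_lt.1 hcon
  exact ht (mem_iUnion₂.2 ⟨q, hq, by linarith [h1.1], by linarith [h1.2]⟩)

theorem near {B : ℝ} (hB0 : 0 ≤ B) (hB : ∀ q ∈ Q, j q ≤ B) (h0 : 0 ≤ κ) (h1 : κ ≤ 1) (t : ℝ) :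
    |phi Q c j R κ t - t| ≤ B := by
  by_cases ht : t ∈ ⋃ q ∈ Q, Ioo (c q - R q) (c q + R q)
  · obtain ⟨q, hq, h2, h3⟩ := mem_iUnion₂.1 ht
    have h4 : |t - c q| ≤ R q := abs_le.2 ⟨by linarith, by linarith⟩
    unfold phi
    rw [H.sum_eq hq h4]
    have h5 := vw_abs (H.j0 q hq) (H.jR q hq) (t - c q)
    have h6 := hB q hq
    rw [show t - κ * vw (j q) (R q) (t - c q) - t = -(κ * vw (j q) (R q) (t - c q)) by ring,
      abs_neg, abs_mul, abs_of_nonneg h0]
    have h7 := abs_nonneg (vw (j q) (R q) (t - c q))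
    nlinarith
  · rw [H.fix ht, sub_self, abs_zero]; exact hB0

/-- the big slivers become small -/
theorem small {q : ι} (hq : q ∈ Q) {s t : ℝ} (hs : |s - c q| ≤ j q) (ht : |t - c q| ≤ j q) :
    phi Q c j R κ t - phi Q c j R κ s = (1 - κ) * (t - s) := by
  have hjR := (H.jR q hq).le
  unfold phi
  rw [H.sum_eq hq (ht.trans hjR), H.sum_eq hq (hs.trans hjR), vw_in (H.jR q hq) hs,
    vw_in (H.jR q hq) ht]
  ring

omit H in
theorem cont : Continuous (phi Q c j R κ) := by
  unfold phi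
  refine continuous_id.sub (continuous_const.mul ?_)
  refine continuous_finsetSum _ fun q _ => ?_
  exact (vw_cont _ _).comp (continuous_id.sub continuous_const)

theorem strictMono (h0 : 0 ≤ κ) (h1 : κ < 1) : StrictMono (phi Q c j R κ) := by
  intro s t hst
  have h2 := H.lower h0 hst.le
  have h3 : 0 < (1 - κ) * (t - s) := mul_pos (by linarith) (by linarith)
  linarith

theorem surj {B : ℝ} (hB0 : 0 ≤ B) (hB : ∀ q ∈ Q, j q ≤ B) (h0 : 0 ≤ κ) (h1 : κ ≤ 1) :
    Function.Surjective (phi Q c j R κ) := by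
  have hn := fun t => abs_le.1 (H.near (κ := κ) hB0 hB h0 h1 t)
  refine (cont (κ := κ)).surjective ?_ ?_
  · refine tendsto_atTop_mono (f := fun t : ℝ => t + -B) (fun t => ?_)
      (tendsto_atTop_add_const_right _ _ tendsto_id)
    have := (hn t).1
    linarith
  · have h2 : ∀ t, phi Q c j R κ t ≤ t + B := fun t => by
      have := (hn t).2
      linarith
    exact tendsto_atBot_mono h2 (tendsto_atBot_add_const_right _ _ tendsto_id)

end Win

/-! ### the cells -/

/-- **cells with windows**: cells of length `d = δ / (1 + r)` (in cells of a grid whose spacing is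
`δ` off the windows `W`), disjoint from the slivers, aligned with the uniform grid of spacing `δ`
off the windows. -/
structure CellsW (lo hi θ δ r η : ℝ) (T : Finset (ℝ × ℝ)) (W : Set ℝ) (m B : ℝ) (n : ℕ)
    (x a : ℕ → ℝ) : Prop where
  succ : ∀ k, k + 1 < n → x k + δ / (1 + r) ≤ x (k + 1)
  ge : ∀ k < n, lo ≤ x k
  le : ∀ k < n, x k + δ / (1 + r) ≤ hi
  sliver : ∀ k < n, ∀ p ∈ T, x k + δ / (1 + r) ≤ p.1 ∨ p.2 ≤ x k
  mid : ∀ k, |a k - (x k + δ / (1 + r) / 2)| < η * (δ / (1 + r))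
  rat : ∀ k, ∃ q : ℚ, a k = θ + q
  num_le : n * δ ≤ hi - lo
  le_num : hi - lo ≤ n * δ + m
  disp : ∀ k < n, |x k - (lo + k * δ)| ≤ B + m
  cnt : ∀ t ∈ Icc lo hi, t ∉ W → ∃ k ≤ n, (∀ j < k, x j + δ / (1 + r) ≤ t) ∧
    (∀ j, k < j → j < n → t ≤ x j) ∧ |t - (lo + k * δ)| ≤ m

/-- **[PLW0]** -/
theorem exists_cellsW {ι : Type*} {lo hi δ r η m B ε : ℝ} (θ : ℝ) (hlh : lo ≤ hi) (hδ : 0 < δ)
    (hη : 0 < η) (hr : 0 ≤ r) (T T₀ : Finset (ℝ × ℝ)) (hT : ∀ p ∈ T, p.1 ≤ p.2)
    (hT₀ : ∀ p ∈ T₀, p.1 ≤ p.2) (Q : Finset ι) (c j R : ι → ℝ) (hj : ∀ q ∈ Q, 0 ≤ j q)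
    (hjR : ∀ q ∈ Q, j q < R q) (hjr : ∀ q ∈ Q, j q ≤ r * (R q - j q))
    (hlo : ∀ q ∈ Q, lo ≤ c q - R q) (hhi : ∀ q ∈ Q, c q + R q ≤ hi)
    (hdis : ∀ q ∈ Q, ∀ q' ∈ Q, q ≠ q' → R q + R q' ≤ |c q - c q'|)
    (hTT : ∀ p ∈ T, p ∈ T₀ ∨ (∃ q ∈ Q, c q - j q ≤ p.1 ∧ p.2 ≤ c q + j q) ∨ p.2 ≤ lo ∨ hi ≤ p.1)
    (hε : 0 < ε)
    (hm : (1 + r) * ∑ p ∈ T₀, (p.2 - p.1) + ε + (2 * T.card + 2) * δ ≤ m)
    (hB0 : 0 ≤ B) (hB : ∀ q ∈ Q, j q ≤ B) :
    ∃ n x a, CellsW lo hi θ δ r η T (⋃ q ∈ Q, Ioo (c q - R q) (c q + R q)) m B n x a := by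
  classical
  have H : Win Q c j R r := ⟨hj, hjR, hjr, hdis⟩
  -- the relevant slivers
  set T₁ : Finset (ℝ × ℝ) := T.filter fun p => ¬ (p.2 ≤ lo ∨ hi ≤ p.1) with hT₁
  -- the contraction
  set A : ℝ := 2 * B * T.card + 1 with hA
  have hA0 : 0 < A := by positivity
  set ω : ℝ := min 1 (ε / A) with hω
  have hω0 : 0 < ω := lt_min one_pos (div_pos hε hA0)
  have hω1 : ω ≤ 1 := min_le_left _ _
  have hωA : ω * (2 * B * T.card) ≤ ε := by
    have h1 : ω ≤ ε / A := min_le_right _ _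
    rw [le_div_iff₀ hA0] at h1
    nlinarith
  set κ : ℝ := 1 - ω with hκ
  have hκ0 : 0 ≤ κ := by linarith
  have hκ1 : κ ≤ 1 := by linarith
  have hκ1' : κ < 1 := by linarith
  set φ : ℝ → ℝ := phi Q c j R κ with hφ
  have hmono : StrictMono φ := H.strictMono hκ0 hκ1'
  have hsurj : Function.Surjective φ := H.surj hB0 hB hκ0 hκ1
  have hnear : ∀ t, |φ t - t| ≤ B := H.near hB0 hB hκ0 hκ1
  have hup : ∀ {s t : ℝ}, s ≤ t → φ t - φ s ≤ (1 + r) * (t - s) := fun h =>
    H.upper hκ0 hκ1 hr h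
  have hfix : ∀ {t : ℝ}, t ∉ ⋃ q ∈ Q, Ioo (c q - R q) (c q + R q) → φ t = t := fun h => H.fix h
  have hloW : lo ∉ ⋃ q ∈ Q, Ioo (c q - R q) (c q + R q) := by
    intro h
    obtain ⟨q, hq, h1, -⟩ := mem_iUnion₂.1 h
    linarith [hlo q hq]
  have hhiW : hi ∉ ⋃ q ∈ Q, Ioo (c q - R q) (c q + R q) := by
    intro h
    obtain ⟨q, hq, -, h1⟩ := mem_iUnion₂.1 h
    linarith [hhi q hq]
  -- the images of the slivers
  set f : ℝ × ℝ ↪ ℝ × ℝ := ⟨fun p => (φ p.1, φ p.2), fun p q h => by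
    have h1 := congrArg Prod.fst h
    have h2 := congrArg Prod.snd h
    exact Prod.ext (hmono.injective h1) (hmono.injective h2)⟩ with hf
  obtain ⟨n, y, b, hc⟩ := exists_cells (lo := lo) (hi := hi) (δ := δ) (η := η) θ hlh hδ hη
    (T₁.map f) (by
      intro p hp
      obtain ⟨q, hq, rfl⟩ := Finset.mem_map.1 hp
      exact hmono.monotone (hT q (Finset.mem_filter.1 hq).1))
  -- the total length
  have hsum : ∑ p ∈ T₁.map f, (p.2 - p.1) ≤ (1 + r) * ∑ p ∈ T₀, (p.2 - p.1) + ε := by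
    rw [Finset.sum_map]
    have h1 : ∀ p ∈ T₁, (f p).2 - (f p).1 ≤
        (if p ∈ T₀ then (1 + r) * (p.2 - p.1) else 0) + ω * (2 * B) := by
      intro p hp
      obtain ⟨hpT, hp2⟩ := Finset.mem_filter.1 hp
      push Not at hp2
      have hp12 := hT p hpT
      show φ p.2 - φ p.1 ≤ _
      have h0 : 0 ≤ ω * (2 * B) := by positivity
      by_cases h3 : p ∈ T₀
      · rw [if_pos h3]
        linarith [hup hp12]
      · rw [if_neg h3]
        rcases hTT p hpT with h4 | ⟨q, hq, h4, h5⟩ | h4 | h4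
        · exact absurd h4 h3
        · have h6 := H.small (κ := κ) hq (s := p.1) (t := p.2)
            (abs_le.2 ⟨by linarith, by linarith⟩) (abs_le.2 ⟨by linarith, by linarith⟩)
          have h7 := hB q hq
          show φ p.2 - φ p.1 ≤ _
          rw [show φ p.2 - φ p.1 = (1 - κ) * (p.2 - p.1) from h6, hκ, sub_sub_cancel]
          nlinarith
        · exact absurd h4 (not_le.2 hp2.1)
        · exact absurd h4 (not_le.2 hp2.2)
    refine (Finset.sum_le_sum h1).trans ?_
    rw [Finset.sum_add_distrib, Finset.sum_const, nsmul_eq_mul, ← Finset.sum_filter]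
    have h2 : ∑ p ∈ T₁.filter (fun p => p ∈ T₀), (1 + r) * (p.2 - p.1) ≤
        (1 + r) * ∑ p ∈ T₀, (p.2 - p.1) := by
      rw [Finset.mul_sum]
      refine Finset.sum_le_sum_of_subset_of_nonneg (fun p hp => (Finset.mem_filter.1 hp).2) ?_
      intro p hp _
      exact mul_nonneg (by linarith) (sub_nonneg.2 (hT₀ p hp))
    have h3 : (T₁.card : ℝ) ≤ T.card := by exact_mod_cast Finset.card_filter_le _ _
    have h4 : (T₁.card : ℝ) * (ω * (2 * B)) ≤ T.card * (ω * (2 * B)) :=
      mul_le_mul_of_nonneg_right h3 (by positivity)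
    linarith
  have hcard : ((T₁.map f).card : ℝ) ≤ T.card := by
    rw [Finset.card_map]
    exact_mod_cast Finset.card_filter_le _ _
  have hdm : ∑ p ∈ T₁.map f, (p.2 - p.1) + (2 * (T₁.map f).card + 1) * δ + δ ≤ m := by
    have h1 : (2 * ((T₁.map f).card : ℝ) + 2) * δ ≤ (2 * T.card + 2) * δ :=
      mul_le_mul_of_nonneg_right (by linarith) hδ.le
    linarith
  have hdm' : ∑ p ∈ T₁.map f, (p.2 - p.1) + 2 * (T₁.map f).card * δ + 2 * δ ≤ m := by
    linarith
  -- the inverse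
  choose ψ hψ using hsurj
  have hψm : ∀ {s t : ℝ}, s ≤ t → ψ s ≤ ψ t := by
    intro s t h
    by_contra hcon
    push Not at hcon
    have := hmono hcon
    rw [hψ, hψ] at this
    linarith
  have hψφ : ∀ t, ψ (φ t) = t := fun t => hmono.injective (hψ (φ t))
  have hψd : ∀ s, ψ s + δ / (1 + r) ≤ ψ (s + δ) := by
    intro s
    have h1 := hup (hψm (show s ≤ s + δ by linarith))
    rw [hψ, hψ] at h1
    have h2 : 0 < 1 + r := by linarith
    have h3 : δ / (1 + r) ≤ ψ (s + δ) - ψ s := by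
      rw [div_le_iff₀ h2]; linarith
    linarith
  have hψlo : ψ lo = lo := by
    have h1 := hψφ lo
    rwa [hfix hloW] at h1
  have hψhi : ψ hi = hi := by
    have h1 := hψφ hi
    rwa [hfix hhiW] at h1
  have hd0 : 0 < δ / (1 + r) := div_pos hδ (by linarith)
  -- the levels
  have hlev : ∀ k : ℕ, ∃ q : ℚ, |(θ + q) - (ψ (y k) + δ / (1 + r) / 2)| < η * (δ / (1 + r)) := by
    intro k
    obtain ⟨q, hq1, hq2⟩ := exists_rat_btwn (show ψ (y k) + δ / (1 + r) / 2 - θ -
      η * (δ / (1 + r)) < ψ (y k) + δ / (1 + r) / 2 - θ + η * (δ / (1 + r)) by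
        nlinarith [mul_pos hη hd0])
    refine ⟨q, ?_⟩
    rw [abs_lt]
    constructor <;> linarith
  choose q hq using hlev
  have hadd : ∀ {k l : ℕ}, k < l → l < n → y k + δ ≤ y l := fun h1 h2 => hc.add_le hδ h1 h2
  refine ⟨n, fun k => ψ (y k), fun k => θ + q k, ?_⟩
  refine ⟨?_, ?_, ?_, ?_, hq, fun k => ⟨q k, rfl⟩, hc.num_le, ?_, ?_, ?_⟩
  · intro k hk
    exact (hψd _).trans (hψm (hc.succ k hk))
  · intro k hk
    have := hψm (hc.ge k hk)
    rwa [hψlo] at this
  · intro k hk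
    have := hψm (hc.le k hk)
    rw [hψhi] at this
    exact (hψd _).trans this
  · intro k hk p hp
    by_cases h1 : p.2 ≤ lo ∨ hi ≤ p.1
    · rcases h1 with h1 | h1
      · right
        have := hψm (hc.ge k hk)
        rw [hψlo] at this
        exact h1.trans this
      · left
        have := hψm (hc.le k hk)
        rw [hψhi] at this
        exact ((hψd _).trans this).trans h1
    · have h2 : f p ∈ T₁.map f := Finset.mem_map_of_mem f (Finset.mem_filter.2 ⟨hp, h1⟩)
      rcases hc.sliver k hk (f p) h2 with h3 | h3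
      · left
        have := hψm h3
        rw [show (f p).1 = φ p.1 from rfl, hψφ] at this
        exact (hψd _).trans this
      · right
        have := hψm h3
        rwa [show (f p).2 = φ p.2 from rfl, hψφ] at this
  · have := hc.le_num
    linarith
  · intro k hk
    have h1 := hc.disp_nonneg k hk
    have h2 := hc.disp_le k hk
    have h3 := abs_le.1 (hnear (ψ (y k)))
    rw [hψ] at h3
    rw [abs_le]
    constructor <;> linarith [h3.1, h3.2]
  · intro t ht htW
    have hft := hfix htW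
    have hψt : ψ t = t := by
      have h1 := hψφ t
      rwa [hft] at h1
    -- the number of cells on the left of `t`
    have hex : ∃ k, k < n → t < y k + δ := ⟨n, fun h => absurd h (lt_irrefl n)⟩
    set k := Nat.find hex with hk
    have hk1 : k < n → t < y k + δ := Nat.find_spec hex
    have hk2 : ∀ i < k, i < n ∧ y i + δ ≤ t := by
      intro i hi
      have := Nat.find_min hex hi
      push Not at this
      exact this
    have hkn : k ≤ n := Nat.find_min' hex fun h => absurd h (lt_irrefl n)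
    refine ⟨k, hkn, fun i hi => ?_, fun i hi hin => ?_, ?_⟩
    · have := hψm (hk2 i hi).2
      rw [hψt] at this
      exact (hψd _).trans this
    · have h1 := hk1 (hi.trans hin)
      have h2 := hψm (h1.le.trans (hadd hi hin))
      rwa [hψt] at h2
    · rw [abs_le]
      constructor
      · -- lower bound
        rcases Nat.eq_zero_or_pos k with h0 | h0
        · rw [h0]
          have := ht.1
          push_cast
          have h5 : 0 ≤ m := by
            have h6 : 0 ≤ ∑ p ∈ T₁.map f, (p.2 - p.1) := Finset.sum_nonneg fun p hp => by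
              obtain ⟨q, hq, rfl⟩ := Finset.mem_map.1 hp
              exact sub_nonneg.2 (hmono.monotone (hT q (Finset.mem_filter.1 hq).1))
            have h7 : 0 ≤ 2 * ((T₁.map f).card : ℝ) * δ := by positivity
            linarith
          linarith
        · obtain ⟨i, hi⟩ : ∃ i, k = i + 1 := ⟨k - 1, by omega⟩
          obtain ⟨h1, h2⟩ := hk2 i (by omega)
          have h3 := hc.disp_nonneg i h1
          rw [hi]
          push_cast
          have h5 : 0 ≤ m := by
            have h6 : 0 ≤ ∑ p ∈ T₁.map f, (p.2 - p.1) := Finset.sum_nonneg fun p hp => by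
              obtain ⟨q, hq, rfl⟩ := Finset.mem_map.1 hp
              exact sub_nonneg.2 (hmono.monotone (hT q (Finset.mem_filter.1 hq).1))
            have h7 : 0 ≤ 2 * ((T₁.map f).card : ℝ) * δ := by positivity
            linarith
          linarith
      · rcases lt_or_eq_of_le hkn with h0 | h0
        · have h1 := hk1 h0
          have h2 := hc.disp_le k h0
          linarith
        · have h1 := hc.le_num
          have h2 := ht.2
          rw [h0]
          linarith

end Vale.Agent.P073.H333.PLW
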