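import Vale.Agent.P073.H235.PreFlatB
import Vale.Agent.P073.H732.LineM
import Vale.Agent.P073.H16.CountN

/-!
# P073, rank one, [PRE-BEAM]: tools for the assembly of `PreBeam` (helper333)
-/

namespace Vale.Agent.P073.H333

open MeasureTheory Set Filter Topology Metric Vale.Agent.P073.St Vale.Agent.P073.AB
open Vale.Agent.P073.SQ (ev)
open Vale.Agent.P073.H73 (MinEdge segP onSeg ctr)
open Vale.Agent.P073.H194 (sInt Gen idx up RgN KRN FlatOut gW cW refine wH eInSq)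
open Vale.Agent.P073.H235 (Bx bm fl Co Fr P1 cmpD cmp Kc measurable_tw)
open Vale.Agent.P073.H253 (rectN redgeN ledge xL BVData)
open Vale.Agent.P073.H732 (upz)
open Vale.Agent.P073.H471 (zt st)
open _root_.P073 (ConHomeo)
open _root_.P073.Net (len dyc dyo IsTile SizeFn)
open scoped ENNReal

/-! ### generations -/

theorem up_trans {m n N : ℕ} (h1 : m ≤ n) (h2 : n ≤ N) (α : Fin 3 → ℤ) :
    up m N α = up n N (up m n α) := by
  obtain ⟨d, rfl⟩ := Nat.exists_eq_add_of_le h1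
  obtain ⟨d', rfl⟩ := Nat.exists_eq_add_of_le h2
  exact H16.up_up m d d' α

theorem upz_trans {m n N : ℕ} (h1 : m ≤ n) (h2 : n ≤ N) (k : ℤ) :
    upz m N k = 2 ^ (N - n) * upz m n k := by
  unfold upz
  rw [← mul_assoc, ← pow_add]
  congr 2
  omega

/-! ### squares in cubes -/

/-- the squares of a high generation in the rectangle are in the cubes of the partition -/
theorem list_okN {l : Fin 3} {U : Set V} {v : V} {I : Set Idx} (hI : Part U v I) {m n : ℕ}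
    (hmn : m ≤ n) {α β : Fin 3 → ℤ} (hR : RgN l v m α β ⊆ U) (hm : ∀ q ∈ I, m ≤ q.1)
    (hn : ∀ q ∈ KRN l v I m α β, q.1 ≤ n) {k : Fin 3 → ℤ}
    (hk : k ∈ rectN l (up m n α) (up m n β)) :
    (∃ q ∈ KRN l v I m α β, squ v ((n, k), l) ⊆ dyc v q.1 q.2) ∧
      ∀ q ∈ I, Disjoint (squ v ((n, k), l)) (dyo v q.1 q.2) := by
  have h1 := H194.squ_sub_RgN (v := v) (H194.sc_up hmn α β) hk
  constructor
  · have h2 : P86.sc v ((n, k), l) ∈ squ v ((n, k), l) := P86.rel_sub P86.sc_mem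
    obtain ⟨q, hq, hsq⟩ := hI.cover _ (hR (h1 h2))
    have h3 : q ∈ KRN l v I m α β := ⟨hq, _, hsq, h1 h2⟩
    exact ⟨q, h3, H235.squ_sub_of_sc (s := ((n, k), l)) (hn q h3) hsq⟩
  · intro q hq
    rw [Set.disjoint_left]
    intro x hx
    exact H194.plane_off (hm q hq) (h1 hx).1

/-- the cubes which meet the frame of the beam -/
theorem union_frameB {θ₁ θ₂ ν : ℝ} {v : V} {I : Set Idx} (hI : Part (Bx (bm θ₁ θ₂)) v I) {n : ℕ}
    (hn : ∀ q ∈ I, n ≤ q.1) (hν : 0 < ν) (hθ₂ : θ₂ ≤ 1 / 4) (hnν : 1 / 2 ^ n ≤ ν * (2 * θ₂)) :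
    (⋃ q ∈ {q : Idx | q ∈ I ∧ (dyc v q.1 q.2 ∩ Fr (bm θ₁ θ₂) (3 * ν) {0, 2}).Nonempty},
      dyc v q.1 q.2) ⊆ Bx (bm θ₁ θ₂) ∩ Fr (bm θ₁ θ₂) (3 * (4 / 3 * ν)) {0, 2} := by
  refine iUnion₂_subset ?_
  rintro q ⟨hq, y, hy, i, hi, hyi⟩ x hx
  refine ⟨hI.sub q hq hx, i, hi, ?_⟩
  have h1 := H235.norm_sub_dyc hx hy i
  have h2 := (H235.half_pow_le (hn q hq)).trans hnν
  have h4 : ν * (2 * θ₂) ≤ ν * bm θ₁ θ₂ i := by
    simp only [Finset.mem_insert, Finset.mem_singleton] at hi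
    rcases hi with rfl | rfl
    · have : bm θ₁ θ₂ 0 = 1 := by simp [bm]
      rw [this]
      nlinarith
    · have : bm θ₁ θ₂ 2 = 2 * θ₂ := by simp [bm]
      rw [this]
  rw [abs_le] at h1
  rcases hyi with h | h
  · left
    linarith [h1.2]
  · right
    linarith [h1.1]

/-! ### the line -/

/-- the weights on a line -/
theorem line_bound {p : ℝ} (hp : 1 ≤ p) {K₀ : ℝ≥0∞} (hK₀ : K₀ ≠ ⊤) {U : Set V} (hU : IsOpen U)
    {v : V} {ρ : V → ℝ} {cc : ℕ → (Fin 3 → ℤ) → V} {f : V → V} (hf : ContinuousOn f U)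
    {G A : V → ℝ≥0∞} {β : ℝ≥0∞} (hG : Measurable G) (hAG : ∀ x ∈ U, A x ^ p + β ^ p ≤ G x)
    {m n : ℕ} (hmn : m ≤ n) {K₁ K₂ : ℤ} {bad T : Finset ℤ}
    (hbad : ∀ z ∈ bad, edge v (ledge m K₁ K₂ z) ⊆ U) (hT : ∀ k ∈ T, k / 2 ^ (n - m) ∈ bad)
    {Kc : ℝ≥0∞} (hc : ∑ k ∈ bad, eInt v (ledge m K₁ K₂ k) (fun x => tw ρ cc (f x) ^ p * G x) ≤
      Kc * ∑ k ∈ bad, eInt v (ledge m K₁ K₂ k) G) :
    ∑ k ∈ T, ENNReal.ofReal ((1 / 2 ^ n) ^ (1 - p)) *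
      eInt v (ledge n (2 ^ (n - m) * K₁) (2 ^ (n - m) * K₂) k) (gW ρ cc f K₀ A β) ^ p ≤
      cW p K₀ * (Kc * ∑ k ∈ bad, eInt v (ledge m K₁ K₂ k) G) := by
  classical
  obtain ⟨d, rfl⟩ := Nat.exists_eq_add_of_le hmn
  rw [Nat.add_sub_cancel_left] at hT ⊢
  set f' : V → V := U.piecewise f 0 with hf'
  have hf'm : Measurable f' := hf.measurable_piecewise continuousOn_const hU.measurableSet
  set Fm : V → ℝ≥0∞ := fun x => tw ρ cc (f' x) ^ p * G x with hFm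
  have hFmm : Measurable Fm := (((measurable_tw ρ cc).comp hf'm).pow_const p).mul hG
  have hFe : ∀ x ∈ U, Fm x = tw ρ cc (f x) ^ p * G x := by
    intro x hx
    simp only [hFm, hf', Set.piecewise_eq_of_mem _ _ _ hx]
  have hcW := H194.cW_ne_top hp hK₀
  have h1 : ∀ k ∈ T, ENNReal.ofReal ((1 / 2 ^ (m + d)) ^ (1 - p)) *
      eInt v (ledge (m + d) (2 ^ d * K₁) (2 ^ d * K₂) k) (gW ρ cc f K₀ A β) ^ p ≤
      cW p K₀ * eInt v (ledge (m + d) (2 ^ d * K₁) (2 ^ d * K₂) k) Fm := by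
    intro k hk
    have hsub := (H16.ledge_sub (v := v) (m := m) (k₁ := K₁) (k₂ := K₂) (k := k) (d := d)
      rfl).trans (hbad _ (hT k hk))
    refine (H687.term_le hp v (ledge (m + d) (2 ^ d * K₁) (2 ^ d * K₂) k) (gW ρ cc f K₀ A β)
      le_rfl).trans ?_
    rw [← H333.eInt_const_mul v _ hcW]
    refine H333.eInt_mono_on fun x hx => ?_
    rw [hFe x (hsub hx)]
    exact H194.gW_rpow hp (hAG x (hsub hx))
  refine (Finset.sum_le_sum h1).trans ?_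
  rw [← Finset.mul_sum]
  gcongr
  have h2 : T ⊆ bad.biUnion fun a => Finset.Ico (2 ^ d * a) (2 ^ d * (a + 1)) := by
    intro k hk
    rw [Finset.mem_biUnion]
    exact ⟨_, hT k hk, H16.mem_Ico_one.2 rfl⟩
  refine (Finset.sum_le_sum_of_subset h2).trans ?_
  rw [Finset.sum_biUnion (H16.Ico_disjN d _)]
  refine le_trans (le_of_eq ?_) hc
  refine Finset.sum_congr rfl fun z hz => ?_
  rw [H16.ledge_split v m d K₁ K₂ z hFmm]
  refine le_antisymm (H333.eInt_mono_on fun x hx => ?_) (H333.eInt_mono_on fun x hx => ?_)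
  · rw [hFe x (hbad z hz hx)]
  · rw [hFe x (hbad z hz hx)]

/-! ### the plane -/

/-- the weights on the edges of the plane -/
theorem plane_bound {p δ : ℝ} {l : Fin 3} {U Λ : Set V} {f : V → V} {G A : V → ℝ≥0∞} {v : V}
    {I : Set Idx} {ρ : V → ℝ} {cc : ℕ → (Fin 3 → ℤ) → V} {e : Idx → ℝ≥0∞} {τ : Idx → ℝ}
    {K : Set Idx} {S : Finset ((Idx × Fin 3) × Fin 3)} {δ₁ β K₀ : ℝ≥0∞} {B : Set Idx}
    {nf : Idx → ℕ} {nS n₃ : ℕ}
    (H : FlatOut p δ U Λ f G v I (zt ρ 0) (st ρ 0) (fun i => cc i.1.1 i.1.2) e τ K S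
      δ₁ B nf nS) (hp : 1 ≤ p) (hK₀ : K₀ ≠ ⊤) (hAG : ∀ x ∈ U, A x ^ p + β ^ p ≤ G x)
    {T : Fin 3 → Finset (Fin 3 → ℤ)} {Q : Finset (Fin 3 → ℤ)}
    (hTU : ∀ i, i ≠ l → ∀ k ∈ T i, edge v ((nS, k), i) ⊆ U)
    (hT : ∀ i, i ≠ l → ∀ k ∈ T i, ∃ κ ∈ Q, k ∈ eInSq ((n₃, κ), l) nS i)
    (hQ : ∀ i, i ≠ l → ∀ κ ∈ Q, (((n₃, κ), l), i) ∈ S) {Kc : ℝ≥0∞}
    (hc : ∑ k ∈ Q, sInt v ((n₃, k), l) (fun x => tw ρ cc (f x) ^ p * G x) ≤
      Kc * ∑ k ∈ Q, sInt v ((n₃, k), l) G) :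
    ∑ i ∈ Finset.univ.erase l, ∑ k ∈ T i, ENNReal.ofReal (1 / 2 ^ nS) *
      (ENNReal.ofReal ((1 / 2 ^ nS) ^ (1 - p)) *
        eInt v ((nS, k), i) (gW ρ cc f K₀ A β) ^ p) ≤
      2 * cW p K₀ * (Kc * (∑ k ∈ Q, sInt v ((n₃, k), l) G) + Q.card * δ₁) := by
  have h1 : ∀ i ∈ Finset.univ.erase l, ∑ k ∈ T i, ENNReal.ofReal (1 / 2 ^ nS) *
      (ENNReal.ofReal ((1 / 2 ^ nS) ^ (1 - p)) *
        eInt v ((nS, k), i) (gW ρ cc f K₀ A β) ^ p) ≤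
      cW p K₀ * (Kc * (∑ k ∈ Q, sInt v ((n₃, k), l) G) + Q.card * δ₁) := by
    intro i hi
    have hil : i ≠ l := Finset.ne_of_mem_erase hi
    refine (H.edges_gW hp hK₀ (fun k hk x hx => hAG x (hTU i hil k hk hx)) (hT i hil)
      (fun κ hκ => hQ i hil κ hκ)).trans ?_
    gcongr
    rw [Finset.sum_add_distrib, Finset.sum_const, nsmul_eq_mul]
    gcongr
  refine (Finset.sum_le_sum h1).trans (le_of_eq ?_)
  rw [Finset.sum_const, Finset.card_erase_of_mem (Finset.mem_univ _), Finset.card_univ,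
    Fintype.card_fin, nsmul_eq_mul]
  push_cast
  ring

/-- the fine edges in the strips are edges of coarse squares in the strips -/
theorem strip_cover {l i : Fin 3} {m n : ℕ} {v : V} {ν : ℝ} (hν : 1 / 2 ^ m ≤ ν)
    {κ k : Fin 3 → ℤ} (hmn : m ≤ n) (hl : l ≠ 0) (hk : k ∈ eInSq ((m, κ), l) n i)
    (h : v 0 + k 0 / 2 ^ n ≤ 4 * ν ∨ 1 - 4 * ν ≤ v 0 + k 0 / 2 ^ n) :
    v 0 + κ 0 / 2 ^ m ≤ 5 * ν ∨ 1 - 5 * ν ≤ v 0 + κ 0 / 2 ^ m := by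
  obtain ⟨d, rfl⟩ := Nat.exists_eq_add_of_le hmn
  have hd : (0:ℝ) < 2 ^ d := by positivity
  have hm : (0:ℝ) < 2 ^ m := by positivity
  have h0 : 2 ^ d * κ 0 ≤ k 0 ∧ k 0 ≤ 2 ^ d * (κ 0 + 1) := by
    unfold eInSq at hk
    rw [Fintype.mem_piFinset] at hk
    have h1 := hk 0
    simp only [Nat.add_sub_cancel_left] at h1
    rw [if_neg (Ne.symm hl)] at h1
    by_cases hi : (0 : Fin 3) = i
    · rw [if_pos hi, Finset.mem_Ico] at h1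
      exact ⟨h1.1, h1.2.le⟩
    · rw [if_neg hi, Finset.mem_Icc] at h1
      exact h1
  have h1 : (2:ℝ) ^ d * κ 0 ≤ k 0 := by exact_mod_cast h0.1
  have h2 : (k 0 : ℝ) ≤ 2 ^ d * (κ 0 + 1) := by exact_mod_cast h0.2
  have e : (2:ℝ) ^ (m + d) = 2 ^ m * 2 ^ d := pow_add _ _ _
  have h3 : (κ 0 : ℝ) / 2 ^ m ≤ k 0 / 2 ^ (m + d) := by
    rw [e, div_le_div_iff₀ hm (by positivity)]
    nlinarith
  have h4 : (k 0 : ℝ) / 2 ^ (m + d) ≤ κ 0 / 2 ^ m + 1 / 2 ^ m := by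
    rw [← add_div, e, div_le_div_iff₀ (by positivity) hm]
    nlinarith
  rcases h with h | h
  · left
    linarith
  · right
    linarith

end Vale.Agent.P073.H333
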