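import Vale.Agent.P073.H333.PD1
import Vale.Agent.P073.H333.PD7
import Vale.Agent.P073.H333.PDe
import Vale.Agent.P073.H687.PD4
import Vale.Agent.P073.H193.PD2
import Vale.Agent.P073.H622.SpecCtrs

/-!
# P073, block A15-PRE: the data of `SpecPre`, `2 < p < 3`
-/

namespace Vale.Agent.P073.H333

open MeasureTheory Set Filter Topology Metric Vale.Agent.P073.St Vale.Agent.P073.AB
open Vale.Agent.P073.SQ (ev)
open _root_.P073 (ConHomeo)
open _root_.P073.Net (dyc dyo IsTile SizeFn len)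
open Vale.Agent.P073.H73 (MinEdge Bix ctr WLe segP onSeg Pre SpecPre)
open scoped ENNReal

namespace PD

variable {p ε δ : ℝ} {Φ : ℕ → Finset (Fin 3 → ℤ) → ((Fin 3 → ℤ) → V → V) → ℝ}
  {Ω Λ : Set V} {f : V → V} {F : V → Mat} (D : PD p ε δ Φ Ω Λ f F)

/-- the data of `SpecPre` -/
noncomputable def pre : Pre p ε δ 16 Φ Ω Λ f F where
  v := D.v
  J := D.J
  A := D.A
  L := D.L
  aff := D.aff
  inj z hz x y hxy := by
    have h1 := D.H.below z hz (x - y)
    rw [map_sub, hxy, sub_self, norm_zero] at h1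
    have h2 : ‖x - y‖ ≤ 0 := by
      by_contra hcon
      have := mul_pos D.H.θ0 (not_le.1 hcon)
      linarith
    exact sub_eq_zero.1 (norm_le_zero_iff.1 h2)
  N := D.N
  ratL := D.dyL
  ratA := D.dyA
  ρ := D.ρ
  size := D.size
  tsmall := D.tsmall
  c := D.c
  cmem := D.mid
  B := D.Bx
  bJ := H83.gB_J D.H
  blt := H83.gB_lt D.H D.mmt
  btile := H83.gB_tile D.H (by have := D.mmt; have := D.mtm; omega) D.mtm
  I := D.I
  part := D.part
  nr := D.nr
  mt := D.m'
  mle := D.mnr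
  bmt := H83.gB_mt D.H (by have := D.mmt; have := D.mtm; omega)
  blo := H83.gB_lo D.H (by have := D.mmt; have := D.mtm; omega) D.mtm
  bhi := H83.gB_hi D.H (by have := D.mmt; have := D.mtm; omega) D.mtm
  unif := D.unif
  sep := D.sep
  h := D.h
  near := D.near
  hA b hb x hx := (D.hA hb hx).2
  zone := D.zone
  cond := H193.cond D D.in_cell D.zone
  ℓ := D.ell
  len e he hb := ⟨D.We e, H193.wle D D.in_cell D.zone e he hb, le_rfl⟩
  sum := D.sum
  cut := D.cut
  s1 := D.s1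
  s2 := D.s2
  K := D.K
  Ksub := D.Ksub
  Kmeas := D.Kc.isClosed.measurableSet
  Kvol := D.Kvol
  osc := D.oscI

end PD

/-- **SpecPre** for `2 < p < 3`, from `NetIn2` -/
theorem specPre_of (hN : NetIn2) {p : ℝ} (hp : 2 < p) (hp3 : p < 3) : SpecPre p := by
  intro Ω Λ f F hΩ hΛ hf hF hFD ε δ Φ hε hδ
  obtain ⟨D⟩ := exists_pd hN (H622.specCtrs hp hp3) specFill hp hp3 hΩ hΛ hf hF hFD hε hδ Φ
  exact ⟨D.pre⟩

end Vale.Agent.P073.H333

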