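import Vale.Agent.P073.H333.SpecPre

/-!
# P073, block G1 of [GLUE]: the data of `SpecPre` (`2 < p < 3`) with closeness at the boundary
-/

namespace Vale.Agent.P073.H333

open MeasureTheory Set Filter Topology Metric Vale.Agent.P073.St Vale.Agent.P073.AB
open Vale.Agent.P073.SQ (ev)
open _root_.P073 (ConHomeo)
open _root_.P073.Net (dyc dyo IsTile SizeFn len)
open Vale.Agent.P073.H73 (MinEdge Bix ctr WLe segP onSeg Pre SpecPre)
open Vale.Agent.P073.H194 (refine Big wH zo so co MeshOut bInt Oc cellT Bk GoodC idx)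
open Vale.Agent.P073.H471 (wgt)
open Vale.Agent.P073.H83 (CellsG gB grho GenB)
open scoped ENNReal

theorem exists_pdaW {p : ℝ} (hp : 2 < p) {ε δ : ℝ} (hε : 0 < ε) (hδ : 0 < δ) {CC : ℝ≥0∞}
    (hCC : CC ≠ ⊤) {Cf : ℝ → ℝ → ℝ} (Kf : ℝ → ℝ → ℕ → ℕ) {κf : ℝ → ℝ → ℕ → ℝ}
    (hCf : ∀ θ M, 0 < Cf θ M) (hκf : ∀ θ M k₁, 0 < κf θ M k₁) {Ω Λ : Set V}
    (hΩ : St.IsBoundedDomain Ω) (hΛ : St.IsBoundedDomain Λ) {f : V → V} {F : V → Mat}
    (hf : St.IsHomeo Ω Λ f) (hF : St.IsSobolev p Ω f F) (hFD : FinDist Ω F) :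
    ∃ D : PDa p ε δ CC Cf Kf κf Ω Λ f F, (1:ℝ) / 2 ^ D.n ≤ ε := by
  have hp1 : 1 ≤ p := by linarith
  have hvol := PK.volume_ne_top_of_domain hΩ
  obtain ⟨G, Gm, Gfin, Grep, nn, hnn, v, hpl, hgen⟩ :=
    exists_generic' hp1 hΩ hf hF (H194.ae_planes' hΛ.1 hf)
  obtain ⟨εc, h0, ht, c1, c2, c3, c0'⟩ := exists_epsc (p := p) (by linarith) hε hCC
  obtain ⟨θ, hθ, M, hM, c₀, hc₀, K, hK, hKc, hKv, H⟩ := exists_cells3 hp hΩ hΛ hf hF hFD h0
  obtain ⟨ks, kt, a₁, k₁, β, εe, ha0, ha1, hT1, hkt, hk1, hβ, hεe, hT2, hη1, hη2, c4, c5, c6, c7,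
    c8, c9⟩ := exists_nums (p := p) (ε := ε) (δ := δ) (θ := θ) (M := M) (C := Cf θ M)
    (T := H83.tauC θ M) (by linarith) hε hδ hθ (tauC_pos hθ hM) hvol Gfin hCC
  set κ := kap Cf κf θ M k₁ with hκdef
  have hκ : 0 < κ := kap_pos hCf hκf hθ k₁
  have hκθ : κ ≤ θ / 2 := (min_le_right _ _).trans (min_le_left _ _)
  set k₀ := Kf θ M k₁ with hk₀
  have HQ : ∀ᵐ x ∂(volume : Measure V), x ∈ Ω → NonSing (F x) → ∀ᶠ l in atTop,
      ∀ e : Idx × Fin 3, e.1.1 = nn l + (k₁ + k₀) →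
        edge v e ⊆ dyc v (nn l) (idx v (nn l) x) →
        eInt v e G ≤ ENNReal.ofReal ((‖cl (F x)‖ ^ p + 1) / 2 ^ (nn l + (k₁ + k₀))) := by
    filter_upwards [hgen.own hp1 hΩ.1 hnn (k₁ + k₀)] with x hx h _
    exact hx h
  have E1 := H κ k₁ k₀ v nn _ hκ (by omega) hnn hgen.eleb HQ
  have E2 := H687.surf_le hgen.genB (PK.isBounded_of_domain hΩ) (δ := 1) one_ne_zero
  have E3 := eventually_osc hΩ.1 hf hK hKc hnn 1 hε
  have E4 := ev_comp_add (ev_div_le 4 hc₀) hnn ks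
  have E5 := ev_comp_add (ev_div_le (Cf θ M + κ) hε) hnn k₁
  have E6 := ev_comp_add (ev_div_le 1 hε) hnn ks
  have E7 := ev_comp_add (eventually_ge_atTop 2) hnn ks
  have E8 := ev_comp_add (ev_div_le 1 hε) hnn 0
  obtain ⟨l, ⟨D⟩, e2, e3, e4, e5, e6, e7, e8⟩ := (E1.and (E2.and (E3.and (E4.and (E5.and
    (E6.and (E7.and E8))))))).exists
  obtain ⟨N, hN⟩ := D.dyad
  have hfine := fine_of hΩ (by omega) D
  exact ⟨{
    θ := θ, M := M, a₁ := a₁, β := β, ks := ks, kt := kt, k₁ := k₁, n := nn l, v := v, G := G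
    nn := nn, J := D.J, A := D.A, L := D.L, N := N, εc := εc, εe := εe, K := K
    M0 := hM, a0 := ha0, a1 := ha1, β0 := hβ, kt2 := hkt, m2 := e7
    T1 := hT1, T2 := hT2, η1 := hη1, η2 := hη2
    η3 := by rw [← add_div]; exact e5
    η4 := e6
    nm := hnn, Gm := Gm, Gfin := Gfin, gen := hgen, pl := hpl, rp := Grep
    H := cellsG_of hΩ hΛ hf hθ hκθ hk1 D e4
    aff := D.aff
    fine := hfine
    cell := D.cell
    dyL := fun z hz => (hN z hz).1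
    dyA := fun z hz => (hN z hz).2
    es1 := D.s1
    es2 := D.s2
    own := by
      intro z hz e he hs
      have h1 := D.pred z hz e (by rw [he, add_assoc])
      rw [D.idx z hz] at h1
      refine (h1 hs).trans (ENNReal.ofReal_le_ofReal ?_)
      have h2 := D.Fx z hz
      have h3 : (‖cl (F (D.x z))‖ ^ p + 1) ≤ M ^ p + 1 := by gcongr
      have h4 : (2:ℝ) ^ (nn l + k₁ + Kf θ M k₁) = 2 ^ (nn l + (k₁ + k₀)) := by
        rw [hk₀, add_assoc]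
      rw [h4]
      exact div_le_div_of_nonneg_right h3 (by positivity)
    surf := e2 D.J fun z hz => by
      refine ⟨D.x z, D.mem z hz, ?_⟩
      exact hK (D.memK z hz)
    Ksub := hK
    Kc := hKc
    Kvol := hKv.trans c0'
    osc := fun x hx y hy => (e3 x hx y hy).2
    c1 := c1, c2 := c2, c3 := c3, e0 := hεe, c4 := c4, c5 := c5, c6 := c6, c7 := c7, c8 := c8
    c9 := c9 }, e8⟩


namespace PDa

variable {p ε δ : ℝ} {CC : ℝ≥0∞} {Cf : ℝ → ℝ → ℝ} {Kf : ℝ → ℝ → ℕ → ℕ}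
  {κf : ℝ → ℝ → ℕ → ℝ} {Ω Λ : Set V} {f : V → V} {F : V → Mat}

theorem exists_netW (D : PDa p ε δ CC Cf Kf κf Ω Λ f F) (hN : NetW Cf Kf κf) (hp : 2 < p)
    (hε : 0 < ε) {σ₀ : V → ℝ} (hσ₀c : ContinuousOn σ₀ Ω) (hσ₀ : ∀ x ∈ Ω, 0 < σ₀ x) (hΩ : St.IsBoundedDomain Ω) (hΛ : St.IsBoundedDomain Λ) (hf : St.IsHomeo Ω Λ f)
    {m' : ℕ} {c : ℕ → (Fin 3 → ℤ) → V} (R : MeshPD D m' c) :
    ∃ T : NetPD D m' c R.Bg R.nf R.τ, ∀ x ∈ Ω, T.σ x ≤ σ₀ x := by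
  have hβ := D.β0
  have href : H669.Ref Ω D.v D.n D.k₁ (Kf D.θ D.M D.k₁) D.J R.Bg R.nf :=
    { fine := D.fine
      big := R.mesh.big
      lt := fun b hb q hq h => R.mesh.lt b hb q (by
        have := D.fine.diff_eq
        show q ∈ base Ω D.v D.n D.k₁ (Kf D.θ D.M D.k₁) D.J \
          (lay D.v D.n D.k₁ (Kf D.θ D.M D.k₁) D.J ∪ gap D.v D.n D.k₁ D.J)
        rw [this]; exact hq) (h.trans P86.dyo_sub_dyc) }
  have hpartb : Part Ω D.v (D.pd0 m' c).Ib := D.fine.part_base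
  obtain ⟨σ, hσc, hσ0, hσε, hστ⟩ := exists_gauge hΩ.1
    (J := (D.pd0 m' c).Ib \ (D.pd0 m' c).P)
    (fun K hK hKc => (hpartb.fin K hK hKc).subset fun q hq => ⟨hq.1.1, hq.2⟩)
    (σ := fun x => min ε (σ₀ x)) (ContinuousOn.inf continuousOn_const hσ₀c)
    (fun x hx => lt_min hε (hσ₀ x hx)) (a := R.τ) fun q _ => R.τ0 q
  set w : Idx × Fin 3 → ℝ := fun e => (D.pd0 m' c).wst e with hw
  have hw0 : ∀ e, 0 ≤ w e := fun e => ENNReal.toReal_nonneg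
  set δe : Idx × Fin 3 → ℝ := fun e =>
    min (1 / 2 ^ e.1.1) (D.β / 2 ^ e.1.1 / (2 * (w e + 1))) with hδe
  have hδ0 : ∀ e, 0 < δe e := fun e => by
    have := hw0 e
    exact lt_min (by positivity) (by positivity)
  obtain ⟨h, hnet⟩ := hN Ω Λ f F D.v (tiles Ω (D.n + D.k₁ + Kf D.θ D.M D.k₁) D.v)
    ((D.pd0 m' c).In R.Bg R.nf) (D.pd0 m' c).Jc (fun _ => D.θ) (fun _ => D.M) (fun _ => D.k₁)
    (fun q => D.A q.2) (fun q => D.L q.2) σ δe hΩ hΛ hf D.fine.part (href.part_inet hΩ.1)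
    D.gen.rat
    (by
      rintro e ⟨q, hq, he⟩
      exact efin_of (by linarith) D.gen ((Gr.edge_subset_dyc he).trans
        ((href.part_inet hΩ.1).sub q hq)))
    (fun _ _ => ⟨D.H.θ0, D.M0, D.H.three_le⟩)
    (by
      rintro ⟨a, z⟩ ⟨ha, hz⟩ ⟨a', z'⟩ ⟨ha', hz'⟩ hne
      have ha : a = D.n := ha
      have ha' : a' = D.n := ha'
      subst ha ha'
      have hzz : z' ≠ z := fun h => hne (by rw [h])
      exact (H669.dyo_dyc_disj hzz.symm).symm.mono_right P86.dyo_sub_dyc |>.symm)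
    (by
      rintro ⟨a, z⟩ ⟨ha, hz⟩
      have ha : a = D.n := ha
      subst ha
      exact (D.cell z hz).mono (min_le_left _ _))
    (by
      rintro ⟨a, z⟩ ⟨ha, hz⟩ r hr hs
      have ha : a = D.n := ha
      subst ha
      exact Or.inl ⟨hr, z, hz, hs⟩)
    hσc hσ0 hδ0
  refine ⟨⟨h, σ, δe, fun x hx => (hσε x hx).trans (min_le_left _ _), ?_, hδ0,
    fun e => min_le_left _ _, fun e => ?_, hnet⟩, fun x hx => (hσε x hx).trans (min_le_right _ _)⟩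
  · intro q hq x hx
    exact hστ q hq x (hpartb.sub q hq.1 hx) hx
  · have h1 := hw0 e
    have h2 : δe e ≤ D.β / 2 ^ e.1.1 / (2 * (w e + 1)) := min_le_right _ _
    calc w e * (2 * δe e) ≤ w e * (2 * (D.β / 2 ^ e.1.1 / (2 * (w e + 1)))) := by gcongr
      _ = w e / (w e + 1) * (D.β / 2 ^ e.1.1) := by field_simp
      _ ≤ 1 * (D.β / 2 ^ e.1.1) := by
          gcongr
          rw [div_le_one (by positivity)]
          linarith
      _ = _ := one_mul _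

end PDa

/-- **[PD6]** the data exist -/
theorem exists_pdW {p : ℝ} (hN : NetIn2) (hC : SpecCtrs p) (hS : SpecFill) (hp : 2 < p)
    (hp3 : p < 3) {Ω Λ : Set V} {f : V → V} {F : V → Mat} (hΩ : St.IsBoundedDomain Ω)
    (hΛ : St.IsBoundedDomain Λ) (hf : St.IsHomeo Ω Λ f) (hF : St.IsSobolev p Ω f F)
    (hFD : FinDist Ω F) {ε δ : ℝ} (hε : 0 < ε) (hδ : 0 < δ)
    (Φ : ℕ → Finset (Fin 3 → ℤ) → ((Fin 3 → ℤ) → V → V) → ℝ) {σ₀ : V → ℝ}
    (hσ₀c : ContinuousOn σ₀ Ω) (hσ₀ : ∀ x ∈ Ω, 0 < σ₀ x) :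
    ∃ D : PD p ε δ Φ Ω Λ f F, (∀ x ∈ Ω, D.σ x ≤ σ₀ x) ∧ (1:ℝ) / 2 ^ D.n ≤ ε := by
  obtain ⟨Cf, Kf, κf, hCf, hκf, hNet⟩ := netW_of hN
  obtain ⟨CC, hCC, hCt⟩ := ctrsW_of hC
  obtain ⟨D, hDn⟩ := exists_pdaW hp hε hδ hCC Kf hCf hκf hΩ hΛ hf hF hFD
  -- the first layer of tiles
  obtain ⟨m', hm'1, hm'2⟩ := ((ev_div_le (Φ D.N D.J D.A * ((gB D.H (D.n + D.ks + D.kt)).card *
    (6 * (9 / D.θ * (2 / 2 ^ D.n) ^ 2)))) hε).and
    (eventually_ge_atTop (D.n + D.ks + D.kt))).exists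
  obtain ⟨c, hmid, hfar, hgood, hint⟩ := D.exists_c hΩ hΛ hf hS hCt hm'2
  obtain ⟨R⟩ := D.exists_mesh hp hδ hΛ hf hm'2 hmid hgood
  obtain ⟨T, hT⟩ := D.exists_netW hNet hp hε hσ₀c hσ₀ hΩ hΛ hf R
  exact ⟨{
    toPD0 := D.pd0 m' c
    bΩ := hΩ, bΛ := hΛ, hf := hf, hF := hF, hp := hp, hp3 := hp3, hε := hε, hδ := hδ
    M0 := D.M0
    C0 := hCf _ _
    κ0 := kap_pos hCf hκf D.H.θ0 _
    κC := (min_le_right _ _).trans (min_le_right _ _)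
    a0 := D.a0
    a1 := D.a1
    β0 := D.β0
    m2 := D.m2
    nm := Nat.le_add_right _ _
    mmt := Nat.add_le_add_left D.kt2 _
    mtm := hm'2
    nr := R.nr
    mnr := R.mnr
    η1 := by
      have h1 := D.η1
      have hn : (0:ℝ) < 1 / 2 ^ D.n := by positivity
      have h2 := mul_le_mul_of_nonneg_right h1 hn.le
      show Cf D.θ D.M / 2 ^ (D.n + D.k₁) ≤ D.a₁ / 2 ^ (D.n + D.ks) / 2
      rw [pow_add, pow_add]
      refine le_trans (le_of_eq ?_) (h2.trans (le_of_eq ?_)) <;> ring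
    η2 := by
      have h1 := D.η2
      have hn : (0:ℝ) < 1 / 2 ^ D.n := by positivity
      have h2 := mul_le_mul_of_nonneg_right h1 hn.le
      show 2 * (Cf D.θ D.M / 2 ^ (D.n + D.k₁)) + D.M * (1 / 2 ^ (D.n + D.k₁)) ≤
        δ * (D.a₁ / 2 ^ (D.n + D.ks) / 2)
      rw [pow_add, pow_add]
      refine le_trans (le_of_eq ?_) (h2.trans (le_of_eq ?_)) <;> ring
    η3 := D.η3
    η4 := D.η4
    r1 := R.r1, r2 := R.r2, r3 := R.r3, r4 := R.r4, r5 := R.r5, r6 := R.r6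
    aff := D.aff
    fine := D.fine
    N := D.N
    dyL := D.dyL
    dyA := D.dyA
    εc := D.εc
    es1 := D.es1
    es2 := D.es2
    εf := D.ef
    fill := D.fill hS
    Gm := D.Gm
    Gfin := D.Gfin
    rat := D.gen.rat
    efin := fun e he => efin_of (by linarith) D.gen he
    rep := D.gen.rep
    own := D.own
    surf := D.surf
    mid := hmid
    far := hfar
    Bg := R.Bg
    nf := R.nf
    τ := R.τ
    τ0 := R.τ0
    e := R.e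
    mesh := R.mesh
    εe := D.εe
    esum := R.esum
    εI := CC * (D.εc + ENNReal.ofReal D.M ^ p * D.ef)
    int := hint
    h := T.h
    σ := T.σ
    δe := T.δe
    σε := T.σε
    στ := T.στ
    δ0 := T.δ0
    δ1 := T.δ1
    δ2 := T.δ2
    net := T.net
    K := D.K
    Ksub := D.Ksub
    Kc := D.Kc
    Kvol := D.Kvol
    osc := D.osc
    b1 := D.c1
    b2 := D.bud2 hε
    b3 := D.bud3
    b4 := by
      refine le_trans (le_of_eq ?_) hm'1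
      show Φ D.N D.J D.A * ((gB D.H (D.n + D.ks + D.kt)).card *
        (6 * (9 / D.θ * (2 / 2 ^ D.n) ^ 2 * (1 / 2 ^ m')))) = _
      ring }, hT, hDn⟩


/-- **SpecPre** for `2 < p < 3` with closeness: outside of a compact set `h` is as close to `f` as we
like, and the cells of the partition are small. -/
theorem specPreV {p : ℝ} (hp : 2 < p) (hp3 : p < 3) {Ω Λ : Set V} {f : V → V} {F : V → Mat}
    (hΩ : St.IsBoundedDomain Ω) (hΛ : St.IsBoundedDomain Λ) (hf : St.IsHomeo Ω Λ f)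
    (hF : St.IsSobolev p Ω f F) (hFD : FinDist Ω F) {ε δ : ℝ} (hε : 0 < ε) (hδ : 0 < δ)
    (Φ : ℕ → Finset (Fin 3 → ℤ) → ((Fin 3 → ℤ) → V → V) → ℝ) {σ₀ : V → ℝ}
    (hσ₀c : ContinuousOn σ₀ Ω) (hσ₀ : ∀ x ∈ Ω, 0 < σ₀ x) :
    ∃ P : Pre p ε δ 16 Φ Ω Λ f F,
      (∃ K₀ ⊆ Ω, IsCompact K₀ ∧ ∀ x ∈ Ω, x ∉ K₀ → ‖P.h.toFun x - f x‖ ≤ σ₀ x) ∧
      ∀ q ∈ P.I, (1:ℝ) / 2 ^ q.1 ≤ ε := by
  obtain ⟨D, hσ, hn⟩ := exists_pdW netIn2 (H622.specCtrs hp hp3) specFill hp hp3 hΩ hΛ hf hF hFD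
    hε hδ Φ hσ₀c hσ₀
  refine ⟨D.pre, ⟨⋃ z ∈ D.J, dyc D.v D.n z, ?_, ?_, ?_⟩, ?_⟩
  · exact iUnion₂_subset fun z hz => D.H.sub z hz
  · exact D.J.finite_toSet.isCompact_biUnion fun z _ => P86.isCompact_dyc D.v D.n z
  · intro x hx hxK
    show ‖D.h.toFun x - f x‖ ≤ σ₀ x
    refine (D.net.off x hx ?_).trans (hσ x hx)
    rintro ⟨a, z⟩ ⟨ha, hz⟩ hxi
    have ha : a = D.n := ha
    subst ha
    exact hxK (mem_biUnion (x := z) hz (interior_subset hxi))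
  · intro q hq
    obtain ⟨q', hq', hs⟩ := D.ref.sub_base hq
    refine le_trans ?_ hn
    have h1 : D.n ≤ q.1 := (D.base_gen hq').trans (P86.gen_le hs)
    exact one_div_le_one_div_of_le (by positivity) (pow_le_pow_right₀ (by norm_num) h1)

end Vale.Agent.P073.H333
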