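import Vale.Agent.P073.H333.PFun

/-!
# P073: states of the exhaustion

A state is a homeomorphism `g` of `Ω` onto `Λ` in `W^{1,p}` with a relatively closed set `K` of
wild points: `g` has the local property `Q` at the points off `K`, and its derivative is in the
closed sets `Z x` at almost every point of `K`.
-/

namespace Vale.Agent.P073.H333

open MeasureTheory Set Filter Topology Vale.Agent.P073.St
open scoped ENNReal NNReal ContDiff

/-- the states -/
structure State (p : ℝ) (Ω Λ : Set V) (Q : (V → V) → V → Prop) (Z : V → Set Mat) where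
  /-- the wild points -/
  K : Set V
  /-- the map -/
  g : V → V
  /-- its inverse -/
  h : V → V
  /-- its weak derivative -/
  G : V → Mat
  sub : K ⊆ Ω
  opn : IsOpen (Ω \ K)
  inv : IsInv Ω Λ g h
  cont : ContinuousOn g Ω
  cont_inv : ContinuousOn h Λ
  sob : IsSobolev p Ω g G
  tame : ∀ x ∈ Ω \ K, Q g x
  wild : ∀ᵐ x ∂(volume.restrict K), G x ∈ Z x

variable {p : ℝ} {Ω Λ : Set V} {Q : (V → V) → V → Prop} {Z : V → Set Mat}

/-- the energy of a state: the integrand is `ψ` off the wild points, and `χ` on them -/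
noncomputable def Phi (ψ χ : V → Mat → ℝ) (s : State p Ω Λ Q Z) : ℝ≥0∞ :=
  (∫⁻ x in Ω \ s.K, ENNReal.ofReal (ψ x (s.G x))) + ∫⁻ x in s.K, ENNReal.ofReal (χ x (s.G x))

/-- the state `t` is obtained from `s` at cost `d` -/
structure Near {ι : Type*} (ψ χ : ι → V → Mat → ℝ) (σ τ ρ : V → ℝ) (η : ℝ)
    (s t : State p Ω Λ Q Z) (d : ℝ) : Prop where
  sub : t.K ⊆ s.K
  en : ∀ i, Phi (ψ i) (χ i) t ≤ Phi (ψ i) (χ i) s + ENNReal.ofReal (d * η)
  fwd : ∀ x ∈ Ω, ‖t.g x - s.g x‖ ≤ d * σ x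
  bwd : ∀ y ∈ Λ, ‖t.h y - s.h y‖ ≤ d * τ y
  far : ∀ x ∈ Ω, (∀ z ∈ s.K, d * ρ x < dist x z) → t.g x = s.g x
  der : eLpNorm (fun x => t.G x - s.G x) (ENNReal.ofReal p) (volume.restrict t.K) ≤
    ENNReal.ofReal (d * η)

theorem State.meas (hΩ : IsOpen Ω) (s : State p Ω Λ Q Z) : MeasurableSet s.K := by
  have : s.K = Ω \ (Ω \ s.K) := by rw [sdiff_sdiff_cancel_left s.sub]
  rw [this]
  exact hΩ.measurableSet.diff s.opn.measurableSet

theorem State.aes (s : State p Ω Λ Q Z) : AEStronglyMeasurable s.G (volume.restrict Ω) :=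
  (aemeasurable_pi_iff.2 fun i => aemeasurable_pi_iff.2 fun j => aem s.sob i j).aestronglyMeasurable

theorem State.aesK (s : State p Ω Λ Q Z) {A : Set V} (hA : A ⊆ Ω) :
    AEStronglyMeasurable s.G (volume.restrict A) :=
  s.aes.mono_measure (Measure.restrict_mono hA le_rfl)

/-- the integrand of the energy -/
noncomputable def mix (K : Set V) (ψ χ : V → Mat → ℝ) : V → Mat → ℝ :=
  open Classical in fun x M => if x ∈ K then χ x M else ψ x M

theorem adm_mix {K : Set V} (hK : MeasurableSet K) {ψ χ : V → Mat → ℝ} (hψ : Adm Ω ψ)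
    (hχ : Adm Ω χ) : Adm Ω (mix K ψ χ) where
  conv x := by
    unfold mix
    by_cases h : x ∈ K
    · simp only [if_pos h]; exact hχ.conv x
    · simp only [if_neg h]; exact hψ.conv x
  cont x := by
    unfold mix
    by_cases h : x ∈ K
    · simp only [if_pos h]; exact hχ.cont x
    · simp only [if_neg h]; exact hψ.cont x
  nn x M := by
    unfold mix
    by_cases h : x ∈ K
    · simp only [if_pos h]; exact hχ.nn x M
    · simp only [if_neg h]; exact hψ.nn x M
  meas H hH := by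
    have h1 := ((hχ.meas H hH).indicator hK).add ((hψ.meas H hH).indicator hK.compl)
    refine h1.congr (ae_of_all _ fun x => ?_)
    unfold mix
    by_cases h : x ∈ K
    · simp [h]
    · simp [h]

theorem lint_mix (hΩ : MeasurableSet Ω) {K : Set V} (hK : MeasurableSet K) (hKΩ : K ⊆ Ω)
    (ψ χ : V → Mat → ℝ) (G : V → Mat) :
    ∫⁻ x in Ω, ENNReal.ofReal (mix K ψ χ x (G x)) =
      (∫⁻ x in Ω \ K, ENNReal.ofReal (ψ x (G x))) + ∫⁻ x in K, ENNReal.ofReal (χ x (G x)) := by
  have e : Ω = (Ω \ K) ∪ K := (sdiff_union_of_subset hKΩ).symm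
  conv_lhs => rw [e]
  rw [lintegral_union hK disjoint_sdiff_left]
  congr 1
  · refine setLIntegral_congr_fun (hΩ.diff hK) fun x hx => ?_
    simp only [mix, if_neg hx.2]
  · refine setLIntegral_congr_fun hK fun x hx => ?_
    simp only [mix, if_pos hx]

theorem Phi_eq (hΩ : IsOpen Ω) (ψ χ : V → Mat → ℝ) (s : State p Ω Λ Q Z) :
    Phi ψ χ s = ∫⁻ x in Ω, ENNReal.ofReal (mix s.K ψ χ x (s.G x)) :=
  (lint_mix hΩ.measurableSet (s.meas hΩ) s.sub ψ χ s.G).symm

theorem mix_le {ψ χ : V → Mat → ℝ} (hle : ∀ x M, ψ x M ≤ χ x M) {K L : Set V} (h : K ⊆ L)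
    (x : V) (M : Mat) : mix K ψ χ x M ≤ mix L ψ χ x M := by
  unfold mix
  by_cases h1 : x ∈ K
  · simp only [if_pos h1, if_pos (h h1)]; exact le_rfl
  · by_cases h2 : x ∈ L
    · simp only [if_neg h1, if_pos h2]; exact hle x M
    · simp only [if_neg h1, if_neg h2]; exact le_rfl

theorem le_mix {ψ χ : V → Mat → ℝ} (hle : ∀ x M, ψ x M ≤ χ x M) (K : Set V)
    (x : V) (M : Mat) : ψ x M ≤ mix K ψ χ x M := by
  unfold mix
  by_cases h1 : x ∈ K
  · simp only [if_pos h1]; exact hle x M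
  · simp only [if_neg h1]; exact le_rfl

section
variable {ι : Type*} {ψ χ : ι → V → Mat → ℝ} {σ τ ρ : V → ℝ} {η : ℝ} {s t u : State p Ω Λ Q Z}
  {d d' : ℝ}

theorem Near.mono_d (h : Near ψ χ σ τ ρ η s t d) (hd : d ≤ d') (hσ : ∀ x ∈ Ω, 0 ≤ σ x)
    (hτ : ∀ x ∈ Λ, 0 ≤ τ x) (hρ : ∀ x ∈ Ω, 0 ≤ ρ x) (hη : 0 ≤ η) :
    Near ψ χ σ τ ρ η s t d' where
  sub := h.sub
  en i := (h.en i).trans (by gcongr)
  fwd x hx := (h.fwd x hx).trans (mul_le_mul_of_nonneg_right hd (hσ x hx))
  bwd y hy := (h.bwd y hy).trans (mul_le_mul_of_nonneg_right hd (hτ y hy))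
  far x hx hz := h.far x hx fun z hz' =>
    (mul_le_mul_of_nonneg_right hd (hρ x hx)).trans_lt (hz z hz')
  der := h.der.trans (by gcongr)

theorem Near.trans (hp : 1 ≤ p) (h : Near ψ χ σ τ ρ η s t d) (h' : Near ψ χ σ τ ρ η t u d')
    (hd : 0 ≤ d) (hd' : 0 ≤ d') (hρ : ∀ x ∈ Ω, 0 ≤ ρ x) (hη : 0 ≤ η) :
    Near ψ χ σ τ ρ η s u (d + d') where
  sub := h'.sub.trans h.sub
  en i := by
    refine (h'.en i).trans ?_
    rw [add_mul, ENNReal.ofReal_add (mul_nonneg hd hη) (mul_nonneg hd' hη), ← add_assoc]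
    exact add_le_add (h.en i) le_rfl
  fwd x hx := by
    have e : u.g x - s.g x = (u.g x - t.g x) + (t.g x - s.g x) := by abel
    rw [e]
    refine (norm_add_le _ _).trans ?_
    have := h.fwd x hx
    have := h'.fwd x hx
    linarith
  bwd x hx := by
    have e : u.h x - s.h x = (u.h x - t.h x) + (t.h x - s.h x) := by abel
    rw [e]
    refine (norm_add_le _ _).trans ?_
    have := h.bwd x hx
    have := h'.bwd x hx
    linarith
  far x hx hz := by
    have r1 := mul_nonneg hd (hρ x hx)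
    have r2 := mul_nonneg hd' (hρ x hx)
    rw [h'.far x hx fun z hz' => ?_, h.far x hx fun z hz' => ?_]
    · have := hz z hz'
      linarith
    · have := hz z (h.sub hz')
      linarith
  der := by
    have e : (fun x => u.G x - s.G x) = (fun x => u.G x - t.G x) + fun x => t.G x - s.G x := by
      funext x
      simp only [Pi.add_apply]
      abel
    rw [e]
    have hp1 : (1 : ℝ≥0∞) ≤ ENNReal.ofReal p := by
      rw [← ENNReal.ofReal_one]
      exact ENNReal.ofReal_le_ofReal hp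
    refine (eLpNorm_add_le ((u.aesK u.sub).sub (t.aesK u.sub))
      ((t.aesK u.sub).sub (s.aesK u.sub)) hp1).trans ?_
    rw [add_mul, ENNReal.ofReal_add (mul_nonneg hd hη) (mul_nonneg hd' hη),
      add_comm (ENNReal.ofReal (d * η))]
    refine add_le_add h'.der ((eLpNorm_mono_measure _ (Measure.restrict_mono h'.sub le_rfl)).trans
      h.der)

end

end Vale.Agent.P073.H333
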