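import Vale.Agent.P073.H333.Hilb
import Vale.Agent.P073.RED.Basic933
import Mathlib.MeasureTheory.Function.L2Space
import Mathlib.MeasureTheory.Function.ConvergenceInMeasure

/-!
# P073: weak limits of bounded sequences of Sobolev maps, exponents `p ≥ 2`
-/

namespace Vale.Agent.P073.H333

open MeasureTheory Set Filter Topology Vale.Agent.P073.St
open Vale.Agent.P073
open scoped ENNReal NNReal ContDiff

/-- admissible integrands: convex, continuous, nonnegative in the matrix, measurable in the point -/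
structure Adm (Ω : Set V) (ψ : V → Mat → ℝ) : Prop where
  conv : ∀ x, ConvexOn ℝ univ (ψ x)
  cont : ∀ x, Continuous (ψ x)
  nn : ∀ x M, 0 ≤ ψ x M
  meas : ∀ H : V → Mat, (∀ i j, AEMeasurable (fun x => H x i j) (volume.restrict Ω)) →
    AEMeasurable (fun x => ψ x (H x)) (volume.restrict Ω)

theorem isSobolev_comb {p : ℝ} {Ω : Set V} {f g : V → V} {F G : V → Mat} (hp : 1 ≤ p)
    (hv : volume Ω ≠ ⊤) (h : IsSobolev p Ω f F) (h' : IsSobolev p Ω g G) (a b : ℝ) :
    IsSobolev p Ω (fun x => a • f x + b • g x) (fun x => a • F x + b • G x) := by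
  refine ⟨fun i => ((h.1 i).const_mul a).add ((h'.1 i).const_mul b),
    fun i j => ((h.2.1 i j).const_mul a).add ((h'.2.1 i j).const_mul b), ?_⟩
  intro φ hφ i j
  have a1 := (RED.B933.int_mul hφ (PK.InLp.integrableOn hp hv (h.2.1 i j))).1
  have a2 := (RED.B933.int_mul hφ (PK.InLp.integrableOn hp hv (h'.2.1 i j))).1
  have a3 := (RED.B933.int_mul hφ (PK.InLp.integrableOn hp hv (h.1 i))).2 j
  have a4 := (RED.B933.int_mul hφ (PK.InLp.integrableOn hp hv (h'.1 i))).2 j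
  have k1 := h.2.2 φ hφ i j
  have k2 := h'.2.2 φ hφ i j
  unfold int at k1 k2 ⊢
  have e1 : ∀ x, φ x * (a • F x + b • G x) i j = a * (φ x * F x i j) + b * (φ x * G x i j) :=
    fun x => by
      simp only [Pi.add_apply, Pi.smul_apply, smul_eq_mul]; ring
  have e2 : ∀ x, pd φ x j * (a • f x + b • g x) i =
      a * (pd φ x j * f x i) + b * (pd φ x j * g x i) := fun x => by
    simp only [Pi.add_apply, Pi.smul_apply, smul_eq_mul]; ring
  simp only [e1, e2]
  rw [integral_add (a1.const_mul a) (a2.const_mul b), integral_add (a3.const_mul a)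
    (a4.const_mul b), integral_const_mul, integral_const_mul, integral_const_mul,
    integral_const_mul, k1, k2]
  ring

theorem aem {p : ℝ} {Ω : Set V} {f : V → V} {F : V → Mat} (h : IsSobolev p Ω f F) (i j : Fin 3) :
    AEMeasurable (fun x => F x i j) (volume.restrict Ω) :=
  (h.2.1 i j).aestronglyMeasurable.aemeasurable

/-- convexity of the energy -/
theorem lint_comb_le {Ω : Set V} {ψ : V → Mat → ℝ} (hψ : Adm Ω ψ) {F G : V → Mat}
    (hF : ∀ i j, AEMeasurable (fun x => F x i j) (volume.restrict Ω)) {a b : ℝ}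
    (ha : 0 ≤ a) (hb : 0 ≤ b) (hab : a + b = 1) {S : ℝ≥0∞}
    (h1 : ∫⁻ x in Ω, ENNReal.ofReal (ψ x (F x)) ≤ S)
    (h2 : ∫⁻ x in Ω, ENNReal.ofReal (ψ x (G x)) ≤ S) :
    ∫⁻ x in Ω, ENNReal.ofReal (ψ x (a • F x + b • G x)) ≤ S := by
  have hm := (hψ.meas F hF).ennreal_ofReal
  calc ∫⁻ x in Ω, ENNReal.ofReal (ψ x (a • F x + b • G x))
      ≤ ∫⁻ x in Ω, (ENNReal.ofReal a * ENNReal.ofReal (ψ x (F x)) +
          ENNReal.ofReal b * ENNReal.ofReal (ψ x (G x))) := by
        refine lintegral_mono fun x => ?_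
        rw [← ENNReal.ofReal_mul ha, ← ENNReal.ofReal_mul hb,
          ← ENNReal.ofReal_add (mul_nonneg ha (hψ.nn _ _)) (mul_nonneg hb (hψ.nn _ _))]
        exact ENNReal.ofReal_le_ofReal ((hψ.conv x).2 (mem_univ _) (mem_univ _) ha hb hab)
    _ = ENNReal.ofReal a * (∫⁻ x in Ω, ENNReal.ofReal (ψ x (F x))) +
          ENNReal.ofReal b * ∫⁻ x in Ω, ENNReal.ofReal (ψ x (G x)) := by
        rw [lintegral_add_left' (hm.const_mul _), lintegral_const_mul' _ _ ENNReal.ofReal_ne_top,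
          lintegral_const_mul' _ _ ENNReal.ofReal_ne_top]
    _ ≤ ENNReal.ofReal a * S + ENNReal.ofReal b * S := by gcongr
    _ = S := by
        rw [← add_mul, ← ENNReal.ofReal_add ha hb, hab, ENNReal.ofReal_one, one_mul]

/-- the Hilbert space -/
abbrev HH (Ω : Set V) : Type := PiLp 2 fun _ : Fin 3 × Fin 3 => Lp ℝ 2 (volume.restrict Ω)

/-- the convex sets -/
def CC (p : ℝ) (Ω : Set V) (g : V → V) (gn : ℕ → V → V) (Gn : ℕ → V → Mat) (B : ℝ) (n : ℕ) :
    Set (HH Ω) :=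
  {v | ∃ (h : V → V) (H : V → Mat), IsSobolev p Ω h H ∧ (∀ x ∈ Ω, ‖h x‖ ≤ B) ∧
    (∀ x ∈ Ω, ∀ r, (∀ k ≥ n, ‖gn k x - g x‖ ≤ r) → ‖h x - g x‖ ≤ r) ∧
    (∀ q : Fin 3 × Fin 3, (v q : V → ℝ) =ᵐ[volume.restrict Ω] fun x => H x q.1 q.2) ∧
    ∀ ψ, Adm Ω ψ → ∫⁻ x in Ω, ENNReal.ofReal (ψ x (H x)) ≤
      ⨆ k ≥ n, ∫⁻ x in Ω, ENNReal.ofReal (ψ x (Gn k x))}

theorem convex_CC {p : ℝ} (hp : 1 ≤ p) {Ω : Set V} (hv : volume Ω ≠ ⊤) (g : V → V)
    (gn : ℕ → V → V) (Gn : ℕ → V → Mat) (B : ℝ) (n : ℕ) :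
    Convex ℝ (CC p Ω g gn Gn B n) := by
  rintro v ⟨h, H, h1, h2, h3, h4, h5⟩ w ⟨k, K, k1, k2, k3, k4, k5⟩ a b ha hb hab
  refine ⟨fun x => a • h x + b • k x, fun x => a • H x + b • K x,
    isSobolev_comb hp hv h1 k1 a b, ?_, ?_, ?_, ?_⟩
  · intro x hx
    calc ‖a • h x + b • k x‖ ≤ a * ‖h x‖ + b * ‖k x‖ := by
          refine (norm_add_le _ _).trans ?_
          rw [norm_smul, norm_smul, Real.norm_of_nonneg ha, Real.norm_of_nonneg hb]
      _ ≤ a * B + b * B := by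
          have := h2 x hx
          have := k2 x hx
          gcongr
      _ = B := by rw [← add_mul, hab, one_mul]
  · intro x hx r hr
    have e : a • h x + b • k x - g x = a • (h x - g x) + b • (k x - g x) := by
      have : g x = (a + b) • g x := by rw [hab, one_smul]
      conv_lhs => rw [this]
      rw [smul_sub, smul_sub, add_smul]
      abel
    rw [e]
    calc ‖a • (h x - g x) + b • (k x - g x)‖ ≤ a * ‖h x - g x‖ + b * ‖k x - g x‖ := by
          refine (norm_add_le _ _).trans ?_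
          rw [norm_smul, norm_smul, Real.norm_of_nonneg ha, Real.norm_of_nonneg hb]
      _ ≤ a * r + b * r := by
          have := h3 x hx r hr
          have := k3 x hx r hr
          gcongr
      _ = r := by rw [← add_mul, hab, one_mul]
  · intro q
    have e1 : (a • v + b • w) q = a • v q + b • w q := rfl
    rw [e1]
    filter_upwards [h4 q, k4 q, Lp.coeFn_add (a • v q) (b • w q), Lp.coeFn_smul a (v q),
      Lp.coeFn_smul b (w q)] with x x1 x2 x3 x4 x5
    rw [x3, Pi.add_apply, x4, x5, Pi.smul_apply, Pi.smul_apply, x1, x2]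
    rfl
  · intro ψ hψ
    exact lint_comb_le hψ (fun i j => aem h1 i j) ha hb hab (h5 ψ hψ) (k5 ψ hψ)

theorem anti_CC {p : ℝ} {Ω : Set V} (g : V → V)
    (gn : ℕ → V → V) (Gn : ℕ → V → Mat) (B : ℝ) (n m : ℕ) (hnm : n ≤ m) :
    CC p Ω g gn Gn B m ⊆ CC p Ω g gn Gn B n := by
  rintro v ⟨h, H, h1, h2, h3, h4, h5⟩
  refine ⟨h, H, h1, h2, fun x hx r hr => h3 x hx r fun k hk => hr k (hnm.trans hk), h4,
    fun ψ hψ => (h5 ψ hψ).trans ?_⟩
  refine iSup₂_le fun k hk => ?_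
  exact le_iSup₂_of_le k (hnm.trans hk) le_rfl

end Vale.Agent.P073.H333
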