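import Vale.Agent.P073.H333.WeakLim

/-!
# P073: weak limits of bounded sequences of Sobolev maps, exponents `p ≥ 2`, continued
-/

namespace Vale.Agent.P073.H333

open MeasureTheory Set Filter Topology Vale.Agent.P073.St
open Vale.Agent.P073
open scoped ENNReal NNReal ContDiff

theorem convexOn_rpow_comp {N : Mat → ℝ} (hN : ConvexOn ℝ univ N) (hN0 : ∀ M, 0 ≤ N M) {p : ℝ}
    (hp : 1 ≤ p) : ConvexOn ℝ univ fun M => N M ^ p := by
  have h1 : ConvexOn ℝ (N '' univ) fun t : ℝ => t ^ p := by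
    refine (convexOn_rpow hp).subset ?_ ?_
    · rintro _ ⟨M, -, rfl⟩
      exact hN0 M
    · refine (isPreconnected_univ.image N ?_).ordConnected.convex
      exact (hN.continuousOn isOpen_univ)
  have h2 : MonotoneOn (fun t : ℝ => t ^ p) (N '' univ) := by
    rintro _ ⟨M, -, rfl⟩ _ ⟨M', -, rfl⟩ h
    exact Real.rpow_le_rpow (hN0 M) h (by linarith)
  exact h1.comp hN h2

/-- the integrands `w |M - A|^p` -/
theorem adm_rpow {Ω : Set V} {N : Mat → ℝ} (hN : ConvexOn ℝ univ N) (hN0 : ∀ M, 0 ≤ N M)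
    (hNc : Continuous N) {p : ℝ} (hp : 1 ≤ p) {w : V → ℝ} (hw : Measurable w) (hw0 : ∀ x, 0 ≤ w x)
    {A : V → Mat} (hA : ∀ i j, AEMeasurable (fun x => A x i j) (volume.restrict Ω)) :
    Adm Ω fun x M => w x * N (M - A x) ^ p where
  conv x := by
    have h1 := convexOn_rpow_comp hN hN0 hp
    have h2 : ConvexOn ℝ univ fun M => N (M - A x) ^ p := by
      have h3 := h1.translate_left (-A x)
      simp only [preimage_univ] at h3
      refine h3.congr fun M _ => ?_
      simp only [Function.comp, sub_eq_add_neg]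
    exact h2.smul (hw0 x)
  cont x := by
    refine continuous_const.mul ?_
    exact (hNc.comp (continuous_id.sub continuous_const)).rpow_const fun M => Or.inr (by linarith)
  nn x M := mul_nonneg (hw0 x) (Real.rpow_nonneg (hN0 _) _)
  meas H hH := by
    have h1 : AEMeasurable (fun x => H x - A x) (volume.restrict Ω) :=
      aemeasurable_pi_iff.2 fun i => aemeasurable_pi_iff.2 fun j => (hH i j).sub (hA i j)
    exact hw.aemeasurable.mul ((hNc.measurable.comp_aemeasurable h1).pow_const p)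

theorem memLp_two {p : ℝ} (hp : 2 ≤ p) {Ω : Set V} (hv : volume Ω ≠ ⊤) {u : V → ℝ}
    (h : InLp p Ω u) : MemLp u 2 (volume.restrict Ω) := by
  have : IsFiniteMeasure (volume.restrict Ω) := ⟨by simpa using hv.lt_top⟩
  refine h.mono_exponent ?_
  rw [← ENNReal.ofReal_ofNat 2]
  exact ENNReal.ofReal_le_ofReal hp

/-- a common subsequence -/
theorem exists_subseq {Ω : Set V} {v : ℕ → HH Ω} {u : HH Ω} (h : Tendsto v atTop (𝓝 u)) :
    ∃ φ : ℕ → ℕ, StrictMono φ ∧ ∀ᵐ x ∂(volume.restrict Ω), ∀ q : Fin 3 × Fin 3,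
      Tendsto (fun n => (v (φ n) q : V → ℝ) x) atTop (𝓝 ((u q : V → ℝ) x)) := by
  have hq : ∀ q, Tendsto (fun n => v n q) atTop (𝓝 (u q)) := fun q =>
    ((PiLp.continuous_apply 2 _ q).tendsto u).comp h
  have key : ∀ s : Finset (Fin 3 × Fin 3), ∃ φ : ℕ → ℕ, StrictMono φ ∧ ∀ q ∈ s,
      ∀ᵐ x ∂(volume.restrict Ω), Tendsto (fun n => (v (φ n) q : V → ℝ) x) atTop
        (𝓝 ((u q : V → ℝ) x)) := by
    intro s
    induction s using Finset.induction_on with
    | empty => exact ⟨id, strictMono_id, by simp⟩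
    | insert q s hqs ih =>
      obtain ⟨φ, hφ, hφs⟩ := ih
      have h1 : TendstoInMeasure (volume.restrict Ω) (fun n => (v (φ n) q : V → ℝ)) atTop (u q) :=
        tendstoInMeasure_of_tendsto_Lp ((hq q).comp hφ.tendsto_atTop)
      obtain ⟨ns, hns, h2⟩ := h1.exists_seq_tendsto_ae
      refine ⟨φ ∘ ns, hφ.comp hns, fun q' hq' => ?_⟩
      rcases Finset.mem_insert.1 hq' with rfl | hq'
      · exact h2
      · filter_upwards [hφs q' hq'] with x hx
        exact hx.comp hns.tendsto_atTop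
  obtain ⟨φ, hφ, h1⟩ := key Finset.univ
  refine ⟨φ, hφ, ?_⟩
  rw [ae_all_iff]
  exact fun q => h1 q (Finset.mem_univ q)

/-- continuity of the pairing -/
theorem tendsto_pair {Ω : Set V} (hv : volume Ω ≠ ⊤) {v : ℕ → HH Ω} {u : HH Ω}
    (h : Tendsto v atTop (𝓝 u)) {φ : V → ℝ} (hφ : IsTest Ω φ) (q : Fin 3 × Fin 3) :
    Tendsto (fun n => ∫ x in Ω, φ x * (v n q : V → ℝ) x) atTop
      (𝓝 (∫ x in Ω, φ x * (u q : V → ℝ) x)) := by
  have : IsFiniteMeasure (volume.restrict Ω) := ⟨by simpa using hv.lt_top⟩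
  have hq : Tendsto (fun n => v n q) atTop (𝓝 (u q)) :=
    ((PiLp.continuous_apply 2 _ q).tendsto u).comp h
  obtain ⟨h1, h2, -⟩ := hφ
  have hs : ContDiff ℝ ∞ φ := contDiffOn_univ.1 h1
  obtain ⟨C, hC⟩ := h2.exists_bound_of_continuous hs.continuous
  have hm : MemLp φ 2 (volume.restrict Ω) :=
    MemLp.of_bound hs.continuous.aestronglyMeasurable C (ae_of_all _ hC)
  have key : ∀ w : Lp ℝ 2 (volume.restrict Ω),
      inner ℝ (hm.toLp φ) w = ∫ x in Ω, φ x * (w : V → ℝ) x := by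
    intro w
    rw [L2.inner_def]
    refine integral_congr_ae ?_
    filter_upwards [hm.coeFn_toLp] with x hx
    rw [hx]
    simp [mul_comm]
  simp only [← key]
  exact ((continuous_const.inner continuous_id).tendsto (u q)).comp hq

/-- **Weak limits.** -/
theorem weak_limit {p : ℝ} (hp : 2 ≤ p) {Ω : Set V} (hv : volume Ω ≠ ⊤)
    {g : V → V} {gn : ℕ → V → V} {Gn : ℕ → V → Mat} (hS : ∀ n, IsSobolev p Ω (gn n) (Gn n))
    (hg : ∀ x ∈ Ω, Tendsto (fun n => gn n x) atTop (𝓝 (g x))) {B : ℝ}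
    (hB : ∀ n, ∀ x ∈ Ω, ‖gn n x‖ ≤ B) (hΩm : MeasurableSet Ω) {M : ℝ≥0∞} (hM : M ≠ ⊤)
    (hE : ∀ n i j, eLpNorm (fun x => Gn n x i j) (ENNReal.ofReal p) (volume.restrict Ω) ≤ M) :
    ∃ G : V → Mat, IsSobolev p Ω g G ∧ ∀ ψ, Adm Ω ψ → ∀ m : ℕ,
      ∫⁻ x in Ω, ENNReal.ofReal (ψ x (G x)) ≤
        ⨆ k ≥ m, ∫⁻ x in Ω, ENNReal.ofReal (ψ x (Gn k x)) := by
  have hfin : IsFiniteMeasure (volume.restrict Ω) := ⟨by simpa using hv.lt_top⟩
  have hp1 : 1 ≤ p := by linarith
  -- the elements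
  have hmem : ∀ n (q : Fin 3 × Fin 3), MemLp (fun x => Gn n x q.1 q.2) 2 (volume.restrict Ω) :=
    fun n q => memLp_two hp hv ((hS n).2.1 q.1 q.2)
  let w : ℕ → HH Ω := fun n => WithLp.toLp 2 fun q => (hmem n q).toLp _
  have hw : ∀ n q, ((w n q : Lp ℝ 2 (volume.restrict Ω)) : V → ℝ) =ᵐ[volume.restrict Ω]
      fun x => Gn n x q.1 q.2 := fun n q => (hmem n q).coeFn_toLp
  have hwC : ∀ n, w n ∈ CC p Ω g gn Gn B n := by
    intro n
    refine ⟨gn n, Gn n, hS n, hB n, fun x hx r hr => hr n le_rfl, hw n, fun ψ hψ => ?_⟩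
    exact le_iSup₂_of_le n le_rfl le_rfl
  -- boundedness
  have hb0 : ∃ b : ℝ, ∀ n q, ‖w n q‖ ≤ b := by
    have h2p : (2 : ℝ≥0∞) ≤ ENNReal.ofReal p := by
      rw [← ENNReal.ofReal_ofNat 2]
      exact ENNReal.ofReal_le_ofReal hp
    refine ⟨(M * (volume.restrict Ω) univ ^ (1 / (2:ℝ≥0∞).toReal - 1 / (ENNReal.ofReal p).toReal)
      ).toReal, fun n q => ?_⟩
    have e1 : ‖w n q‖ = (eLpNorm (fun x => Gn n x q.1 q.2) 2 (volume.restrict Ω)).toReal :=
      Lp.norm_toLp _ (hmem n q)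
    rw [e1]
    refine ENNReal.toReal_mono ?_ ?_
    · refine ENNReal.mul_ne_top hM (ENNReal.rpow_ne_top_of_nonneg ?_ (measure_ne_top _ _))
      rw [ENNReal.toReal_ofReal (by linarith)]
      have : (1 : ℝ) / p ≤ 1 / 2 := one_div_le_one_div_of_le (by norm_num) hp
      simpa using this
    · refine (eLpNorm_le_eLpNorm_mul_rpow_measure_univ h2p
        ((hS n).2.1 q.1 q.2).aestronglyMeasurable).trans ?_
      gcongr
      exact hE n q.1 q.2
  obtain ⟨b, hb⟩ := hb0
  have hbd : ∀ n, ‖w n‖ ≤ Real.sqrt (∑ q : Fin 3 × Fin 3, b ^ 2) := by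
    intro n
    rw [PiLp.norm_eq_of_L2]
    refine Real.sqrt_le_sqrt (Finset.sum_le_sum fun q _ => ?_)
    exact pow_le_pow_left₀ (norm_nonneg _) (hb n q) 2
  obtain ⟨u, hu⟩ := exists_mem_closures (fun n => ⟨w n, hwC n⟩)
    (fun n => convex_CC hp1 hv g gn Gn B n) (fun n m h => anti_CC g gn Gn B n m h)
    (fun n => ⟨w n, hwC n, hbd n⟩)
  have h1 : ∀ n : ℕ, ∃ v ∈ CC p Ω g gn Gn B n, dist u v < 1 / ((n:ℝ) + 1) := fun n =>
    Metric.mem_closure_iff.1 (hu n) _ (by positivity)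
  choose v hvC hvd using h1
  have hvu : Tendsto v atTop (𝓝 u) := by
    rw [tendsto_iff_dist_tendsto_zero]
    refine squeeze_zero (fun _ => dist_nonneg) (fun n => ?_) tendsto_one_div_add_atTop_nhds_zero_nat
    rw [dist_comm]
    exact (hvd n).le
  choose h H k1 k2 k3 k4 k5 using hvC
  have hhg : ∀ x ∈ Ω, Tendsto (fun n => h n x) atTop (𝓝 (g x)) := by
    intro x hx
    rw [Metric.tendsto_atTop]
    intro r hr
    obtain ⟨N, hN⟩ := Metric.tendsto_atTop.1 (hg x hx) (r / 2) (by linarith)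
    refine ⟨N, fun n hn => ?_⟩
    rw [dist_eq_norm]
    refine (k3 n x hx (r / 2) fun k hk => ?_).trans_lt (by linarith)
    rw [← dist_eq_norm]
    exact (hN k (hn.trans hk)).le
  have hgB : ∀ x ∈ Ω, ‖g x‖ ≤ B := fun x hx =>
    le_of_tendsto (hhg x hx).norm (Eventually.of_forall fun n => k2 n x hx)
  obtain ⟨φ, hφ, hae⟩ := exists_subseq hvu
  let G : V → Mat := fun x i j => (u (i, j) : V → ℝ) x
  have hGm : ∀ i j, AEMeasurable (fun x => G x i j) (volume.restrict Ω) := fun i j =>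
    (Lp.aestronglyMeasurable (u (i, j))).aemeasurable
  have hkk : ∀ᵐ x ∂(volume.restrict Ω), ∀ n, ∀ q : Fin 3 × Fin 3,
      (v n q : V → ℝ) x = H n x q.1 q.2 := by
    rw [ae_all_iff]
    intro n
    rw [ae_all_iff]
    exact fun q => k4 n q
  have hHG : ∀ᵐ x ∂(volume.restrict Ω), Tendsto (fun n => H (φ n) x) atTop (𝓝 (G x)) := by
    filter_upwards [hae, hkk] with x hx hx2
    refine tendsto_pi_nhds.2 fun i => tendsto_pi_nhds.2 fun j => ?_
    have := hx (i, j)
    simp only [hx2] at this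
    exact this
  -- Fatou
  have hfat : ∀ ψ, Adm Ω ψ → ∀ m : ℕ, ∫⁻ x in Ω, ENNReal.ofReal (ψ x (G x)) ≤
      ⨆ k ≥ m, ∫⁻ x in Ω, ENNReal.ofReal (ψ x (Gn k x)) := by
    intro ψ hψ m
    have e1 : ∫⁻ x in Ω, ENNReal.ofReal (ψ x (G x)) =
        ∫⁻ x in Ω, liminf (fun n => ENNReal.ofReal (ψ x (H (φ n) x))) atTop := by
      refine lintegral_congr_ae ?_
      filter_upwards [hHG] with x hx
      have : Tendsto (fun n => ENNReal.ofReal (ψ x (H (φ n) x))) atTop
          (𝓝 (ENNReal.ofReal (ψ x (G x)))) :=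
        (ENNReal.continuous_ofReal.tendsto _).comp (((hψ.cont x).tendsto _).comp hx)
      exact this.liminf_eq.symm
    rw [e1]
    refine (lintegral_liminf_le' fun n => (hψ.meas _ fun i j => aem (k1 (φ n)) i j
      ).ennreal_ofReal).trans ?_
    refine liminf_le_of_frequently_le' (Eventually.frequently ?_)
    filter_upwards [hφ.tendsto_atTop.eventually (eventually_ge_atTop m)] with n hn
    refine (k5 (φ n) ψ hψ).trans ?_
    exact iSup₂_le fun k hk => le_iSup₂_of_le k (hn.trans hk) le_rfl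
  refine ⟨G, ⟨?_, ?_, ?_⟩, hfat⟩
  · intro i
    have hm : AEStronglyMeasurable (fun x => g x i) (volume.restrict Ω) := by
      refine aestronglyMeasurable_of_tendsto_ae atTop (fun n => ((k1 n).1 i).aestronglyMeasurable)
        ?_
      refine (ae_restrict_iff' hΩm).2 (ae_of_all _ fun x hx => ?_)
      exact (tendsto_pi_nhds.1 (hhg x hx)) i
    refine MemLp.of_bound hm B ((ae_restrict_iff' hΩm).2 (ae_of_all _ fun x hx => ?_))
    exact (norm_le_pi_norm (g x) i).trans (hgB x hx)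
  · intro i j
    have hN : ConvexOn ℝ univ fun M : Mat => |M i j| := by
      have : ConvexOn ℝ univ fun M : Mat => ‖(LinearMap.proj (R := ℝ) (φ := fun _ : Fin 3 => ℝ) j
          ∘ₗ LinearMap.proj (R := ℝ) (φ := fun _ : Fin 3 => Fin 3 → ℝ) i) M‖ :=
        convexOn_univ_norm.comp_linearMap _
      exact this
    have hA := adm_rpow (Ω := Ω) hN (fun M => abs_nonneg _) (by fun_prop) hp1
      (w := fun _ => 1) measurable_const (fun _ => zero_le_one) (A := fun _ => 0)
      (fun _ _ => aemeasurable_const)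
    have h3 := hfat _ hA 0
    simp only [one_mul, sub_zero] at h3
    have hp0 : ENNReal.ofReal p ≠ 0 := by
      rw [Ne, ENNReal.ofReal_eq_zero]; linarith
    have hconv : ∀ f : V → ℝ, ∫⁻ x in Ω, ENNReal.ofReal (|f x| ^ p) =
        ∫⁻ x in Ω, ‖f x‖ₑ ^ (ENNReal.ofReal p).toReal := by
      intro f
      refine lintegral_congr fun x => ?_
      rw [ENNReal.toReal_ofReal (by linarith), ← ENNReal.ofReal_rpow_of_nonneg (abs_nonneg _)
        (by linarith), ← Real.norm_eq_abs, ofReal_norm_eq_enorm]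
    refine ⟨(hGm i j).aestronglyMeasurable, ?_⟩
    refine (eLpNorm_lt_top_iff_lintegral_rpow_enorm_lt_top hp0 ENNReal.ofReal_ne_top).2 ?_
    have h4 := hconv fun x => G x i j
    rw [← h4]
    refine h3.trans_lt (lt_of_le_of_lt (b := M ^ p) ?_ ?_)
    · refine iSup₂_le fun k _ => ?_
      have h5 := hconv fun x => Gn k x i j
      rw [h5]
      have h6 := eLpNorm_eq_lintegral_rpow_enorm_toReal hp0 ENNReal.ofReal_ne_top
        (f := fun x => Gn k x i j) (μ := volume.restrict Ω)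
      have h7 := hE k i j
      rw [h6] at h7
      have h8 := ENNReal.rpow_le_rpow h7 (by linarith : (0:ℝ) ≤ p)
      rw [← ENNReal.rpow_mul, ENNReal.toReal_ofReal (by linarith), one_div,
        inv_mul_cancel₀ (by linarith), ENNReal.rpow_one] at h8
      rw [ENNReal.toReal_ofReal (by linarith)]
      exact h8
    · exact ENNReal.rpow_lt_top_of_nonneg (by linarith) hM
  · intro ψ hψ i j
    have h3 := tendsto_pair hv hvu hψ (i, j)
    have e1 : ∀ n, ∫ x in Ω, ψ x * (v n (i, j) : V → ℝ) x = - int Ω fun x => pd ψ x j * h n x i := by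
      intro n
      rw [← (k1 n).2.2 ψ hψ i j]
      unfold int
      refine integral_congr_ae ?_
      filter_upwards [k4 n (i, j)] with x hx
      rw [hx]
    have hs : ContDiff ℝ ∞ ψ := contDiffOn_univ.1 hψ.1
    have hd : Continuous fun x => fderiv ℝ ψ x (Pi.single j 1) :=
      (hs.continuous_fderiv (by simp)).clm_apply continuous_const
    have hds : HasCompactSupport fun x => fderiv ℝ ψ x (Pi.single j 1) :=
      (hψ.2.1.fderiv (𝕜 := ℝ)).comp_left (g := fun L : V →L[ℝ] ℝ => L (Pi.single j 1)) rfl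
    obtain ⟨C, hC⟩ := hds.exists_bound_of_continuous hd
    have h4 : Tendsto (fun n => int Ω fun x => pd ψ x j * h n x i) atTop
        (𝓝 (int Ω fun x => pd ψ x j * g x i)) := by
      unfold int
      refine tendsto_integral_of_dominated_convergence (fun _ => C * B) ?_ ?_ ?_ ?_
      · intro n
        refine AEStronglyMeasurable.mul ?_ ((k1 n).1 i).aestronglyMeasurable
        simp only [PK.pd_eq_fderiv hs]
        exact hd.aestronglyMeasurable
      · exact integrable_const _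
      · intro n
        refine (ae_restrict_iff' hΩm).2 (ae_of_all _ fun x hx => ?_)
        rw [norm_mul, PK.pd_eq_fderiv hs]
        have h5 := hC x
        have h6 := (norm_le_pi_norm (h n x) i).trans (k2 n x hx)
        have h7 : 0 ≤ C := (norm_nonneg _).trans h5
        exact mul_le_mul h5 h6 (norm_nonneg _) h7
      · refine (ae_restrict_iff' hΩm).2 (ae_of_all _ fun x hx => ?_)
        exact ((tendsto_pi_nhds.1 (hhg x hx)) i).const_mul _
    simp only [e1] at h3
    have h5 := tendsto_nhds_unique h3 h4.neg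
    exact h5

end Vale.Agent.P073.H333
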